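import Vale.Agent.P092.H378.C4

/-!
# P092, Track C, operator side, part 5: the main identity between three letters
-/

set_option linter.unusedSectionVars false
set_option linter.unusedVariables false

namespace Vale.Agent.P092.H378.C

open Finset Matrix
open Vale.Agent.P092.H828.P (UL)
open Vale.Agent.P092.H283.Car (CD Ord en en_apply)

variable {X Z : Type*} [TopologicalSpace X] [CompactSpace X] [TopologicalSpace Z] [CompactSpace Z]
  {K : Type*} [NormedAddCommGroup K] [InnerProductSpace ℂ K] [CompleteSpace K] {n : ℕ}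
  (Q : C(X, Matrix (Fin n) (Fin n) ℂ)) (P : C(Z, Matrix (Fin n) (Fin n) ℂ))
  (J : Matrix (Fin n) (Fin n) ℂ)

/-- the left point -/
noncomputable def p3 : Matrix (Fin n) (Fin n) (R3 X Z) := (p2 Q).map (iL : R2 X Z →ₐ[ℂ] R3 X Z)

/-- the right point -/
noncomputable def p3' : Matrix (Fin n) (Fin n) (R3 X Z) := (p2 Q).map (iR : R2 X Z →ₐ[ℂ] R3 X Z)

/-- the line -/
noncomputable def q3 : Matrix (Fin n) (Fin n) (R3 X Z) := (q2 P).map (iL : R2 X Z →ₐ[ℂ] R3 X Z)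

/-- the form -/
noncomputable def J3 : Matrix (Fin n) (Fin n) (R3 X Z) := (J2 J).map (iL : R2 X Z →ₐ[ℂ] R3 X Z)

/-- the symbol of the Gram operator -/
noncomputable def G3 : R3 X Z :=
  e2 (J3 J) (p3 Q) (q3 P) (p3' Q) + e2 (J3 J) (p3' Q) (q3 P) (p3 Q)

theorem q3_R : (q2 P).map (iR : R2 X Z →ₐ[ℂ] R3 X Z) = q3 P := by
  ext i j
  change iR (jZ (en P i j)) = iL (jZ (en P i j))
  rw [iL_jZ, iR_jZ]

theorem J3_R : (J2 J).map (iR : R2 X Z →ₐ[ℂ] R3 X Z) = J3 J := by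
  ext i j
  change iR (algebraMap ℂ (R2 X Z) (J i j)) = iL (algebraMap ℂ (R2 X Z) (J i j))
  rw [AlgHom.commutes, AlgHom.commutes]

theorem p3_apply (i j : Fin n) : (p3 Q : Matrix (Fin n) (Fin n) (R3 X Z)) i j = iX (en Q i j) :=
  iL_jX _

theorem p3'_apply (i j : Fin n) : (p3' Q : Matrix (Fin n) (Fin n) (R3 X Z)) i j = iY (en Q i j) :=
  rfl

theorem J3_apply (i j : Fin n) :
    (J3 J : Matrix (Fin n) (Fin n) (R3 X Z)) i j = algebraMap ℂ (R3 X Z) (J i j) :=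
  AlgHom.commutes (iL : R2 X Z →ₐ[ℂ] R3 X Z) (J i j)

variable {Q P J} {v : X → Fin n → ℂ} {C : ℝ}
  {E : C(X, ℂ) →ₗ[ℂ] (K →L[ℂ] K)} {F : C(Z, ℂ) →ₗ[ℂ] (K →L[ℂ] K)} {p q : ℝ}

theorem main3 (S : Std v Q P J C E F p q) :
    2 * om2 (J3 J) (p3 Q) (p3' Q) - (1 - (p3 Q * p3' Q).trace) * G3 Q P J ∈ Kl3 E F := by
  rw [← Ideal.Quotient.eq_zero_iff_mem]
  set mk : R3 X Z →+* R3 X Z ⧸ Kl3 E F := Ideal.Quotient.mk (Kl3 E F) with hmk
  let fL : R2 X Z →+* R3 X Z ⧸ Kl3 E F := mk.comp ((iL : R2 X Z →ₐ[ℂ] R3 X Z) : R2 X Z →+* R3 X Z)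
  let fR : R2 X Z →+* R3 X Z ⧸ Kl3 E F := mk.comp ((iR : R2 X Z →ₐ[ℂ] R3 X Z) : R2 X Z →+* R3 X Z)
  have hL : ∀ t, OrR v Q P J C 2 t → fL t = 0 := fun t ht =>
    Ideal.Quotient.eq_zero_iff_mem.2 (iL_mem (mem2 S ht))
  have hR : ∀ t, OrR v Q P J C 2 t → fR t = 0 := fun t ht =>
    Ideal.Quotient.eq_zero_iff_mem.2 (iR_mem (mem2r S ht))
  have eJ : (J2 J).map fL = (J3 J).map mk := rfl
  have eJ' : (J2 J).map fR = (J3 J).map mk := by rw [← J3_R]; rfl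
  have eq : (q2 P).map fL = (q3 P).map mk := rfl
  have eq' : (q2 P).map fR = (q3 P).map mk := by rw [← q3_R]; rfl
  have ep : (p2 Q).map fL = (p3 Q).map mk := rfl
  have ep' : (p2 Q).map fR = (p3' Q).map mk := rfl
  have h2 : IsUnit (2 : R3 X Z ⧸ Kl3 E F) := by
    have h := (IsUnit.mk0 (2 : ℂ) two_ne_zero).map (algebraMap ℂ (R3 X Z ⧸ Kl3 E F))
    rwa [map_ofNat] at h
  have hJ : Sy ((J3 J).map mk) := by rw [← eJ]; exact Sy.map fL (J2_sy S.hJ)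
  have hp : PtR ((J3 J).map mk) ((p3 Q).map mk) := by
    rw [← eJ, ← ep]; exact PtR.map fL (p2_pt S.hPt)
  have hp' : PtR ((J3 J).map mk) ((p3' Q).map mk) := by
    rw [← eJ', ← ep']; exact PtR.map fR (p2_pt S.hPt)
  have hq : LgR ((J3 J).map mk) ((q3 P).map mk) := by
    rw [← eJ, ← eq]; exact LgR.map fL (q2_lg S.hLg)
  have hi : Inc2 ((J3 J).map mk) ((p3 Q).map mk) ((q3 P).map mk) := inc_of S fL hL
  have hi' : Inc2 ((J3 J).map mk) ((p3' Q).map mk) ((q3 P).map mk) := by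
    have h := inc_of S fR hR
    rw [eJ', eq', ep'] at h
    exact h
  have h := main_id h2 hJ hp hp' hq hi hi'
  rw [om2_map, e2_map, e2_map, ← Matrix.map_mul, map_trace] at h
  rw [map_sub, map_mul, map_mul, map_sub, map_one, map_ofNat, G3, map_add, h, sub_self]

/-- the bilinear map of a symbol -/
noncomputable def Bb (E : C(X, ℂ) →ₗ[ℂ] (K →L[ℂ] K)) (F : C(Z, ℂ) →ₗ[ℂ] (K →L[ℂ] K))
    (t : R3 X Z) : C(X, ℂ) →ₗ[ℂ] C(X, ℂ) →ₗ[ℂ] (K →L[ℂ] K) :=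
  LinearMap.mk₂ ℂ (fun f g => T3 E F (iX f * iY g * t))
    (fun f f' g => by rw [map_add, add_mul, add_mul, map_add])
    (fun c f g => by rw [map_smul, smul_mul_assoc, smul_mul_assoc, map_smul])
    (fun f g g' => by rw [map_add, mul_add, add_mul, map_add])
    (fun c f g => by rw [map_smul, mul_smul_comm, smul_mul_assoc, map_smul])

theorem Bb_apply (t : R3 X Z) (f g : C(X, ℂ)) : Bb E F t f g = T3 E F (iX f * iY g * t) := rfl

theorem Bb_xzx (a : C(X, ℂ)) (b : C(Z, ℂ)) (c : C(X, ℂ)) (f g : C(X, ℂ)) :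
    Bb E F (xzx a b c) f g = E (f * a) * (F b * E (g * c)) := by
  rw [Bb_apply, iX_apply, iY_apply, xzx_mul, xzx_mul, T3_xzx]
  simp

theorem Bb_bound (hE : UL E p) (t : R3 X Z) :
    ∃ M : ℝ, 0 ≤ M ∧ ∀ f g, ‖Bb E F t f g‖ ≤ M * ‖f‖ * ‖g‖ := by
  refine xzx_ind (p := fun t => ∃ M : ℝ, 0 ≤ M ∧ ∀ f g, ‖Bb E F t f g‖ ≤ M * ‖f‖ * ‖g‖) t ?_ ?_ ?_
  · refine ⟨0, le_rfl, fun f g => ?_⟩
    rw [Bb_apply, mul_zero, map_zero]
    simp
  · intro a b c
    refine ⟨Real.sqrt |p| * ‖a‖ * (‖F b‖ * (Real.sqrt |p| * ‖c‖)), by positivity, fun f g => ?_⟩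
    rw [Bb_xzx]
    calc ‖E (f * a) * (F b * E (g * c))‖ ≤ ‖E (f * a)‖ * (‖F b‖ * ‖E (g * c)‖) :=
          (norm_mul_le _ _).trans (mul_le_mul_of_nonneg_left (norm_mul_le _ _) (norm_nonneg _))
      _ ≤ (Real.sqrt |p| * (‖f‖ * ‖a‖)) * (‖F b‖ * (Real.sqrt |p| * (‖g‖ * ‖c‖))) := by
          have h1 := (hE.norm_le (f * a)).trans
            (mul_le_mul_of_nonneg_left (norm_mul_le f a) (Real.sqrt_nonneg _))
          have h2 := (hE.norm_le (g * c)).trans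
            (mul_le_mul_of_nonneg_left (norm_mul_le g c) (Real.sqrt_nonneg _))
          gcongr
      _ = _ := by ring
  · rintro s t ⟨M, hM, hs⟩ ⟨M', hM', ht⟩
    refine ⟨M + M', by positivity, fun f g => ?_⟩
    rw [Bb_apply, mul_add, map_add]
    refine (norm_add_le _ _).trans ?_
    have h1 := hs f g
    have h2 := ht f g
    rw [Bb_apply] at h1 h2
    calc _ ≤ M * ‖f‖ * ‖g‖ + M' * ‖f‖ * ‖g‖ := add_le_add h1 h2
      _ = _ := by ring

/-- the relation to be divided -/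
theorem rel3 (S : Std v Q P J C E F p q) (f g : C(X, ℂ))
    (hO : T3 E F (iX f * iY g * om2 (J3 J) (p3 Q) (p3' Q)) = 0) :
    Bb E F (G3 Q P J) f g =
      ∑ x : Fin n × Fin n, Bb E F (G3 Q P J) (f * en Q x.1 x.2) (g * en Q x.2 x.1) := by
  have h := mem_Kl3.1 (main3 S) (iX f * iY g)
  have e1 : iX f * iY g * (2 * om2 (J3 J) (p3 Q) (p3' Q) -
      (1 - (p3 Q * p3' Q).trace) * G3 Q P J) =
      (2 : ℂ) • (iX f * iY g * om2 (J3 J) (p3 Q) (p3' Q)) - (iX f * iY g * G3 Q P J) +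
      ∑ x : Fin n × Fin n, iX (f * en Q x.1 x.2) * iY (g * en Q x.2 x.1) * G3 Q P J := by
    have e2 : (p3 Q * p3' Q).trace = ∑ x : Fin n × Fin n, (iX (en Q x.1 x.2) * iY (en Q x.2 x.1) :
        R3 X Z) := by
      rw [trace, Fintype.sum_prod_type]
      refine Finset.sum_congr rfl fun i _ => ?_
      rw [diag_apply, mul_apply]
      refine Finset.sum_congr rfl fun j _ => ?_
      rw [p3_apply, p3'_apply]
    have e3 : ∑ x : Fin n × Fin n, iX (f * en Q x.1 x.2) * iY (g * en Q x.2 x.1) * G3 Q P J =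
        iX f * iY g * ((p3 Q * p3' Q).trace * G3 Q P J) := by
      rw [e2, Finset.sum_mul, Finset.mul_sum]
      refine Finset.sum_congr rfl fun x _ => ?_
      rw [map_mul, map_mul]
      ring
    rw [e3, Algebra.smul_def, map_ofNat]
    ring
  rw [e1, map_add, map_sub, map_smul, hO, smul_zero, zero_sub, map_sum] at h
  have h2 := neg_add_eq_zero.1 h
  exact h2

end Vale.Agent.P092.H378.C
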