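import Vale.Agent.P092.H283.Syn1
import Vale.Agent.P092.H828.P.Q0a

/-!
# P092, Track C, operator side, part 1: complete positivity of a positive letter

`schur`: a Schur test for `∑ ⟪ζ i, F (m i j) (η j)⟫`. `cpk`: the inequality of Kadison and Schwarz
for columns, `‖∑ F (w i) (η i)‖² ≤ q re ∑ ⟪η i, F (star (w i) * w j) (η j)⟫`.
-/

set_option linter.unusedSectionVars false
set_option linter.unusedVariables false

namespace Vale.Agent.P092.H378.C

open Finset Filter Topology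
open scoped InnerProductSpace
open Vale.Agent.P092.H828.P (UL co co_apply)
open Vale.Agent.P092.H283.Syn (cell cells cell_nonneg cell_le_one cell_near sum_cell)

variable {Z : Type*} [TopologicalSpace Z] [CompactSpace Z]
  {K : Type*} [NormedAddCommGroup K] [InnerProductSpace ℂ K] [CompleteSpace K]
  {F : C(Z, ℂ) →ₗ[ℂ] (K →L[ℂ] K)} {q : ℝ}

theorem star_co (h : C(Z, ℝ)) : star (co h) = co h := by
  ext z
  simp [ContinuousMap.star_apply]

/-- a square root of a positive letter -/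
theorem exS (hF : UL F q) (θ : C(Z, ℝ)) (h0 : ∀ z, 0 ≤ θ z) :
    ∃ S : K →L[ℂ] K, ∀ ζ η : K, ⟪ζ, F (co θ) η⟫_ℂ = ⟪S ζ, S η⟫_ℂ := by
  have hpos : (0 : K →L[ℂ] K) ≤ F (co θ) := by
    rw [ContinuousLinearMap.nonneg_iff_isPositive]
    refine ContinuousLinearMap.isPositive_def'.2 ⟨?_, fun ξ => ?_⟩
    · rw [IsSelfAdjoint, ← hF.star, star_co]
    · have h1 : co θ = star (co ⟨fun z => Real.sqrt (θ z), by fun_prop⟩) *
          co ⟨fun z => Real.sqrt (θ z), by fun_prop⟩ := by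
        ext z
        simp only [star_co, ContinuousMap.mul_apply, co_apply, ContinuousMap.coe_mk]
        rw [← Complex.ofReal_mul, Real.mul_self_sqrt (h0 z)]
      have h2 := hF.nonneg (co ⟨fun z => Real.sqrt (θ z), by fun_prop⟩) ξ
      rw [← h1] at h2
      rw [ContinuousLinearMap.reApplyInnerSelf_apply, inner_re_symm]
      exact h2
  obtain ⟨S, hS⟩ := CStarAlgebra.nonneg_iff_eq_star_mul_self.1 hpos
  refine ⟨S, fun ζ η => ?_⟩
  rw [hS, ContinuousLinearMap.mul_apply, ContinuousLinearMap.star_eq_adjoint,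
    ContinuousLinearMap.adjoint_inner_right]

open Classical in
/-- the chosen square root -/
noncomputable def SS (hF : UL F q) (θ : C(Z, ℝ)) : K →L[ℂ] K :=
  if h0 : ∀ z, 0 ≤ θ z then (exS hF θ h0).choose else 0

theorem SS_spec (hF : UL F q) {θ : C(Z, ℝ)} (h0 : ∀ z, 0 ≤ θ z) (ζ η : K) :
    ⟪ζ, F (co θ) η⟫_ℂ = ⟪SS hF θ ζ, SS hF θ η⟫_ℂ := by
  unfold SS
  rw [dif_pos h0]
  exact (exS hF θ h0).choose_spec ζ η

theorem SS_sq (hF : UL F q) {θ : C(Z, ℝ)} (h0 : ∀ z, 0 ≤ θ z) (ζ : K) :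
    ‖SS hF θ ζ‖ ^ 2 = (⟪ζ, F (co θ) ζ⟫_ℂ).re := by
  rw [SS_spec hF h0, inner_self_eq_norm_sq_to_K]
  norm_cast

theorem co_sum {ι : Type*} (s : Finset ι) (θ : ι → C(Z, ℝ)) :
    co (∑ i ∈ s, θ i) = ∑ i ∈ s, co (θ i) := by
  ext z
  simp [ContinuousMap.sum_apply]

/-- sums of squares of square roots -/
theorem SS_sum (hF : UL F q) {ι : Type*} (s : Finset ι) (θ : ι → C(Z, ℝ))
    (h0 : ∀ i ∈ s, ∀ z, 0 ≤ θ i z) {M : ℝ} (hM : ∀ z, ∑ i ∈ s, θ i z ≤ M) (ζ : K) :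
    ∑ i ∈ s, ‖SS hF (θ i) ζ‖ ^ 2 ≤ q * M * ‖ζ‖ ^ 2 := by
  rw [sum_congr rfl fun i hi => SS_sq hF (h0 i hi) ζ]
  have h1 : ∑ i ∈ s, (⟪ζ, F (co (θ i)) ζ⟫_ℂ).re = (⟪ζ, F (co (∑ i ∈ s, θ i)) ζ⟫_ℂ).re := by
    rw [co_sum, map_sum, _root_.sum_apply, inner_sum, Complex.re_sum]
  rw [h1]
  have h2 : 0 ≤ (⟪ζ, F (co (ContinuousMap.const Z M - ∑ i ∈ s, θ i)) ζ⟫_ℂ).re := by
    rw [← SS_sq hF (fun z => ?_) ζ]
    · positivity
    · rw [ContinuousMap.sub_apply, ContinuousMap.const_apply, ContinuousMap.sum_apply, sub_nonneg]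
      exact hM z
  have h3 : co (ContinuousMap.const Z M - ∑ i ∈ s, θ i) =
      (M : ℂ) • (1 : C(Z, ℂ)) - co (∑ i ∈ s, θ i) := by
    ext z
    simp
  have hin : (⟪ζ, ζ⟫_ℂ) = ((‖ζ‖ ^ 2 : ℝ) : ℂ) := by
    rw [inner_self_eq_norm_sq_to_K]; push_cast; rfl
  rw [h3, map_sub, map_smul, hF.one] at h2
  simp only [ContinuousLinearMap.sub_apply, ContinuousLinearMap.smul_apply,
    ContinuousLinearMap.one_apply, inner_sub_right, inner_smul_right, hin, Complex.sub_re] at h2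
  rw [← Complex.ofReal_mul, ← Complex.ofReal_mul, Complex.ofReal_re] at h2
  linarith

section schur

variable {ι κ : Type*} (s : Finset ι) (t : Finset κ)

theorem schur_pos (hF : UL F q) (hq : 0 ≤ q) (a : ι → κ → C(Z, ℝ))
    (h0 : ∀ i ∈ s, ∀ j ∈ t, ∀ z, 0 ≤ a i j z) {M : ℝ} (hM0 : 0 ≤ M)
    (h1 : ∀ z, ∀ i ∈ s, ∑ j ∈ t, a i j z ≤ M) (h2 : ∀ z, ∀ j ∈ t, ∑ i ∈ s, a i j z ≤ M)
    (ζ : ι → K) (η : κ → K) :
    ‖∑ i ∈ s, ∑ j ∈ t, ⟪ζ i, F (co (a i j)) (η j)⟫_ℂ‖ ≤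
      q * M * (Real.sqrt (∑ i ∈ s, ‖ζ i‖ ^ 2) * Real.sqrt (∑ j ∈ t, ‖η j‖ ^ 2)) := by
  have e1 : ‖∑ i ∈ s, ∑ j ∈ t, ⟪ζ i, F (co (a i j)) (η j)⟫_ℂ‖ ≤
      ∑ x ∈ s ×ˢ t, ‖SS hF (a x.1 x.2) (ζ x.1)‖ * ‖SS hF (a x.1 x.2) (η x.2)‖ := by
    rw [← sum_product']
    refine (norm_sum_le _ _).trans (sum_le_sum fun x hx => ?_)
    obtain ⟨hx1, hx2⟩ := mem_product.1 hx
    rw [SS_spec hF (h0 x.1 hx1 x.2 hx2)]
    exact norm_inner_le_norm _ _
  have e2 : ∑ x ∈ s ×ˢ t, ‖SS hF (a x.1 x.2) (ζ x.1)‖ ^ 2 ≤ q * M * ∑ i ∈ s, ‖ζ i‖ ^ 2 := by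
    rw [sum_product, mul_sum]
    exact sum_le_sum fun i hi => SS_sum hF t (a i) (h0 i hi) (fun z => h1 z i hi) (ζ i)
  have e3 : ∑ x ∈ s ×ˢ t, ‖SS hF (a x.1 x.2) (η x.2)‖ ^ 2 ≤ q * M * ∑ j ∈ t, ‖η j‖ ^ 2 := by
    rw [sum_product_right, mul_sum]
    exact sum_le_sum fun j hj => SS_sum hF s (fun i => a i j) (fun i hi => h0 i hi j hj)
      (fun z => h2 z j hj) (η j)
  have e4 := Finset.sum_mul_sq_le_sq_mul_sq (s ×ˢ t)
    (fun x => ‖SS hF (a x.1 x.2) (ζ x.1)‖) (fun x => ‖SS hF (a x.1 x.2) (η x.2)‖)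
  have e5 : (∑ x ∈ s ×ˢ t, ‖SS hF (a x.1 x.2) (ζ x.1)‖ * ‖SS hF (a x.1 x.2) (η x.2)‖) ^ 2 ≤
      (q * M * ∑ i ∈ s, ‖ζ i‖ ^ 2) * (q * M * ∑ j ∈ t, ‖η j‖ ^ 2) :=
    e4.trans (mul_le_mul e2 e3 (sum_nonneg fun _ _ => sq_nonneg _) (by positivity))
  refine e1.trans (abs_le_of_sq_le_sq' ?_ (by positivity)).2
  refine e5.trans (le_of_eq ?_)
  rw [mul_pow, mul_pow, mul_pow, Real.sq_sqrt (by positivity), Real.sq_sqrt (by positivity)]
  ring

/-- the four real parts of a complex function -/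
noncomputable def part (k : Fin 4) (m : C(Z, ℂ)) : C(Z, ℝ) :=
  match k with
  | 0 => ⟨fun z => max (m z).re 0, by fun_prop⟩
  | 1 => ⟨fun z => max (-(m z).re) 0, by fun_prop⟩
  | 2 => ⟨fun z => max (m z).im 0, by fun_prop⟩
  | 3 => ⟨fun z => max (-(m z).im) 0, by fun_prop⟩

theorem part_nonneg (k : Fin 4) (m : C(Z, ℂ)) (z : Z) : 0 ≤ part k m z := by
  fin_cases k <;> exact le_max_right _ _

theorem part_le (k : Fin 4) (m : C(Z, ℂ)) (z : Z) : part k m z ≤ ‖m z‖ := by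
  have h1 := Complex.abs_re_le_norm (m z)
  have h2 := Complex.abs_im_le_norm (m z)
  have h3 := neg_le_abs (m z).re
  have h4 := neg_le_abs (m z).im
  have h5 := le_abs_self (m z).re
  have h6 := le_abs_self (m z).im
  fin_cases k <;> simp only [part, ContinuousMap.coe_mk] <;> exact max_le (by linarith) (norm_nonneg _)

/-- the coefficients -/
noncomputable def cf (k : Fin 4) : ℂ := ![1, -1, Complex.I, -Complex.I] k

theorem part_sum (m : C(Z, ℂ)) : m = ∑ k : Fin 4, cf k • co (part k m) := by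
  ext z
  have e1 : max (m z).re 0 - max (-(m z).re) 0 = (m z).re := by
    rcases le_total 0 (m z).re with h | h
    · rw [max_eq_left h, max_eq_right (by linarith)]; ring
    · rw [max_eq_right h, max_eq_left (by linarith)]; ring
  have e2 : max (m z).im 0 - max (-(m z).im) 0 = (m z).im := by
    rcases le_total 0 (m z).im with h | h
    · rw [max_eq_left h, max_eq_right (by linarith)]; ring
    · rw [max_eq_right h, max_eq_left (by linarith)]; ring
  rw [Fin.sum_univ_four]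
  simp only [cf, part, ContinuousMap.add_apply, ContinuousMap.smul_apply, co_apply,
    ContinuousMap.coe_mk, Matrix.cons_val, smul_eq_mul]
  apply Complex.ext
  · simp only [Complex.add_re, Complex.mul_re, Complex.neg_re, Complex.neg_im, Complex.I_re,
      Complex.I_im, Complex.ofReal_re, Complex.ofReal_im, Complex.one_re, Complex.one_im]
    linarith
  · simp only [Complex.add_im, Complex.mul_im, Complex.neg_re, Complex.neg_im, Complex.I_re,
      Complex.I_im, Complex.ofReal_re, Complex.ofReal_im, Complex.one_re, Complex.one_im]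
    linarith

theorem norm_cf (k : Fin 4) : ‖cf k‖ = 1 := by
  fin_cases k <;> simp [cf]

/-- **Schur test for a positive letter** -/
theorem schur (hF : UL F q) (hq : 0 ≤ q) (m : ι → κ → C(Z, ℂ)) {M : ℝ} (hM0 : 0 ≤ M)
    (h1 : ∀ z, ∀ i ∈ s, ∑ j ∈ t, ‖m i j z‖ ≤ M) (h2 : ∀ z, ∀ j ∈ t, ∑ i ∈ s, ‖m i j z‖ ≤ M)
    (ζ : ι → K) (η : κ → K) :
    ‖∑ i ∈ s, ∑ j ∈ t, ⟪ζ i, F (m i j) (η j)⟫_ℂ‖ ≤
      4 * (q * M * (Real.sqrt (∑ i ∈ s, ‖ζ i‖ ^ 2) * Real.sqrt (∑ j ∈ t, ‖η j‖ ^ 2))) := by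
  have e1 : ∑ i ∈ s, ∑ j ∈ t, ⟪ζ i, F (m i j) (η j)⟫_ℂ =
      ∑ k : Fin 4, cf k * ∑ i ∈ s, ∑ j ∈ t, ⟪ζ i, F (co (part k (m i j))) (η j)⟫_ℂ := by
    have e0 : ∀ i j, ⟪ζ i, F (m i j) (η j)⟫_ℂ =
        ∑ k : Fin 4, cf k * ⟪ζ i, F (co (part k (m i j))) (η j)⟫_ℂ := by
      intro i j
      conv_lhs => rw [part_sum (m i j)]
      rw [map_sum, _root_.sum_apply, inner_sum]
      refine sum_congr rfl fun k _ => ?_
      rw [map_smul, ContinuousLinearMap.smul_apply, inner_smul_right]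
    calc ∑ i ∈ s, ∑ j ∈ t, ⟪ζ i, F (m i j) (η j)⟫_ℂ
        = ∑ i ∈ s, ∑ j ∈ t, ∑ k : Fin 4, cf k * ⟪ζ i, F (co (part k (m i j))) (η j)⟫_ℂ :=
          sum_congr rfl fun i _ => sum_congr rfl fun j _ => e0 i j
      _ = ∑ i ∈ s, ∑ k : Fin 4, ∑ j ∈ t, cf k * ⟪ζ i, F (co (part k (m i j))) (η j)⟫_ℂ :=
          sum_congr rfl fun i _ => sum_comm
      _ = ∑ k : Fin 4, ∑ i ∈ s, ∑ j ∈ t, cf k * ⟪ζ i, F (co (part k (m i j))) (η j)⟫_ℂ :=
          sum_comm
      _ = _ := by simp only [mul_sum]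
  rw [e1]
  refine (norm_sum_le _ _).trans ?_
  have e2 : ∀ k ∈ (univ : Finset (Fin 4)),
      ‖cf k * ∑ i ∈ s, ∑ j ∈ t, ⟪ζ i, F (co (part k (m i j))) (η j)⟫_ℂ‖ ≤
      q * M * (Real.sqrt (∑ i ∈ s, ‖ζ i‖ ^ 2) * Real.sqrt (∑ j ∈ t, ‖η j‖ ^ 2)) := by
    intro k _
    rw [norm_mul, norm_cf, one_mul]
    refine schur_pos s t hF hq (fun i j => part k (m i j)) (fun i _ j _ z => part_nonneg _ _ _)
      hM0 ?_ ?_ ζ η
    · intro z i hi
      exact (sum_le_sum fun j _ => part_le _ _ _).trans (h1 z i hi)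
    · intro z j hj
      exact (sum_le_sum fun i _ => part_le _ _ _).trans (h2 z j hj)
  refine (sum_le_sum e2).trans (le_of_eq ?_)
  rw [sum_const, card_univ, Fintype.card_fin]
  simp

end schur

section cpk

variable {ι : Type} (s : Finset ι)

/-- the inequality for step functions -/
theorem cpk_step (hF : UL F q) (hq : 0 ≤ q) {A : Type*} (t : Finset A) (θ : A → C(Z, ℝ))
    (h0 : ∀ α ∈ t, ∀ z, 0 ≤ θ α z) (h1 : ∀ z, ∑ α ∈ t, θ α z = 1) (ξ : A → K) :
    ‖∑ α ∈ t, F (co (θ α)) (ξ α)‖ ^ 2 ≤ q * ∑ α ∈ t, (⟪ξ α, F (co (θ α)) (ξ α)⟫_ℂ).re := by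
  set y := ∑ α ∈ t, F (co (θ α)) (ξ α) with hy
  have e1 : ‖y‖ ^ 2 ≤ ∑ α ∈ t, ‖SS hF (θ α) y‖ * ‖SS hF (θ α) (ξ α)‖ := by
    have h2 : ‖y‖ ^ 2 = ‖(⟪y, y⟫_ℂ)‖ := by
      rw [inner_self_eq_norm_sq_to_K]
      simp
    rw [h2]
    conv_lhs => rw [hy, inner_sum]
    refine (norm_sum_le _ _).trans (sum_le_sum fun α hα => ?_)
    rw [← hy, SS_spec hF (h0 α hα)]
    exact norm_inner_le_norm _ _
  have e2 : ∑ α ∈ t, ‖SS hF (θ α) y‖ ^ 2 ≤ q * 1 * ‖y‖ ^ 2 :=
    SS_sum hF t θ h0 (fun z => (h1 z).le) y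
  have e3 : ∑ α ∈ t, ‖SS hF (θ α) (ξ α)‖ ^ 2 = ∑ α ∈ t, (⟪ξ α, F (co (θ α)) (ξ α)⟫_ℂ).re :=
    sum_congr rfl fun α hα => SS_sq hF (h0 α hα) _
  have e4 := Finset.sum_mul_sq_le_sq_mul_sq t (fun α => ‖SS hF (θ α) y‖)
    (fun α => ‖SS hF (θ α) (ξ α)‖)
  rw [← e3]
  have e5 : 0 ≤ ∑ α ∈ t, ‖SS hF (θ α) (ξ α)‖ ^ 2 := sum_nonneg fun _ _ => sq_nonneg _
  have e6 : (‖y‖ ^ 2) ^ 2 ≤ (q * 1 * ‖y‖ ^ 2) * ∑ α ∈ t, ‖SS hF (θ α) (ξ α)‖ ^ 2 := by
    calc (‖y‖ ^ 2) ^ 2 ≤ (∑ α ∈ t, ‖SS hF (θ α) y‖ * ‖SS hF (θ α) (ξ α)‖) ^ 2 :=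
          pow_le_pow_left₀ (sq_nonneg _) e1 2
      _ ≤ _ := e4
      _ ≤ _ := mul_le_mul_of_nonneg_right e2 e5
  rcases eq_or_ne ‖y‖ 0 with h | h
  · rw [h]
    have := mul_nonneg hq e5
    simpa using this
  · have hpos : 0 < ‖y‖ ^ 2 := by positivity
    have : ‖y‖ ^ 2 * ‖y‖ ^ 2 ≤
        (q * ∑ α ∈ t, ‖SS hF (θ α) (ξ α)‖ ^ 2) * ‖y‖ ^ 2 := by nlinarith [e6]
    exact le_of_mul_le_mul_right this hpos

variable {κ : Type} [Fintype κ] [DecidableEq κ]

/-- the coordinates of a finite family -/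
noncomputable def crd (B : ℝ) (w : κ → C(Z, ℂ)) (x : κ × Bool) : C(Z, ℝ) :=
  ⟨fun z => (if x.2 then (w x.1 z).im else (w x.1 z).re) / B, by
    rcases x with ⟨i, b⟩
    cases b
    · simp only [Bool.false_eq_true, if_false]; fun_prop
    · simp only [if_true]; fun_prop⟩

/-- the value at a cell -/
noncomputable def val (B : ℝ) (N : ℕ) (α : κ × Bool → ℤ) (i : κ) : ℂ :=
  ((B / N * α (i, false) : ℝ) : ℂ) + ((B / N * α (i, true) : ℝ) : ℂ) * Complex.I

theorem val_near {B : ℝ} (hB : 0 < B) {N : ℕ} (hN : 0 < N) (w : κ → C(Z, ℂ))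
    (α : κ × Bool → ℤ) (z : Z) (h : cell N (crd B w) α z ≠ 0) (i : κ) :
    ‖w i z - val B N α i‖ ≤ 2 * B / N := by
  have hN' : (0 : ℝ) < N := by exact_mod_cast hN
  have h1 := cell_near h (i, false)
  have h2 := cell_near h (i, true)
  simp only [crd, ContinuousMap.coe_mk, Bool.false_eq_true, if_false, if_true] at h1 h2
  have e1 : |(w i z - val B N α i).re| ≤ B / N := by
    have : (w i z - val B N α i).re = B / N * (N * ((w i z).re / B) - α (i, false)) := by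
      simp only [val, Complex.sub_re, Complex.add_re, Complex.ofReal_re, Complex.mul_re,
        Complex.I_re, Complex.I_im, Complex.ofReal_im]
      field_simp
      ring
    rw [this, abs_mul, abs_of_pos (by positivity)]
    exact mul_le_of_le_one_right (by positivity) h1
  have e2 : |(w i z - val B N α i).im| ≤ B / N := by
    have : (w i z - val B N α i).im = B / N * (N * ((w i z).im / B) - α (i, true)) := by
      simp only [val, Complex.sub_im, Complex.add_im, Complex.ofReal_re, Complex.mul_im,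
        Complex.I_re, Complex.I_im, Complex.ofReal_im]
      field_simp
      ring
    rw [this, abs_mul, abs_of_pos (by positivity)]
    exact mul_le_of_le_one_right (by positivity) h2
  calc ‖w i z - val B N α i‖ ≤ |(w i z - val B N α i).re| + |(w i z - val B N α i).im| :=
        Complex.norm_le_abs_re_add_abs_im _
    _ ≤ B / N + B / N := add_le_add e1 e2
    _ = 2 * B / N := by ring

/-- averages over the cells -/
theorem avg {B : ℝ} (hB : 0 < B) {N : ℕ} (hN : 0 < N) (w : κ → C(Z, ℂ))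
    (hw : ∀ i z, ‖w i z‖ ≤ B) (f : C(Z, ℂ)) (c : (κ × Bool → ℤ) → ℂ) (e : ℝ)
    (he : ∀ α z, cell N (crd B w) α z ≠ 0 → ‖f z - c α‖ ≤ e) (he0 : 0 ≤ e) :
    ‖(∑ α ∈ cells N, c α • co (cell N (crd B w) α)) - f‖ ≤ e := by
  have hsum : ∀ z, ∑ α ∈ cells N, cell N (crd B w) α z = 1 := by
    intro z
    refine sum_cell N (crd B w) ?_ z
    intro x z
    rcases x with ⟨i, b⟩
    have h3 := hw i z
    cases b
    · simp only [crd, ContinuousMap.coe_mk, Bool.false_eq_true, if_false]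
      rw [abs_div, abs_of_pos hB, div_le_one hB]
      exact (Complex.abs_re_le_norm _).trans h3
    · simp only [crd, ContinuousMap.coe_mk, if_true]
      rw [abs_div, abs_of_pos hB, div_le_one hB]
      exact (Complex.abs_im_le_norm _).trans h3
  rw [ContinuousMap.norm_le _ he0]
  intro z
  have e1 : ((∑ α ∈ cells N, c α • co (cell N (crd B w) α)) - f) z =
      ∑ α ∈ cells N, (cell N (crd B w) α z : ℂ) * (c α - f z) := by
    simp only [mul_sub, sum_sub_distrib]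
    rw [← sum_mul, ← Complex.ofReal_sum, hsum z]
    simp only [ContinuousMap.sub_apply, ContinuousMap.sum_apply, ContinuousMap.smul_apply,
      co_apply, smul_eq_mul, Complex.ofReal_one, one_mul]
    congr 1
    exact sum_congr rfl fun α _ => mul_comm _ _
  rw [e1]
  refine (norm_sum_le _ _).trans ?_
  calc ∑ α ∈ cells N, ‖(cell N (crd B w) α z : ℂ) * (c α - f z)‖
      ≤ ∑ α ∈ cells N, cell N (crd B w) α z * e := by
        refine sum_le_sum fun α _ => ?_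
        rw [norm_mul, Complex.norm_real, Real.norm_eq_abs, abs_of_nonneg (cell_nonneg _ _ _ _)]
        by_cases h0 : cell N (crd B w) α z = 0
        · rw [h0]; simp
        · refine mul_le_mul_of_nonneg_left ?_ (cell_nonneg _ _ _ _)
          rw [norm_sub_rev]
          exact he α z h0
    _ = e := by rw [← sum_mul, hsum, one_mul]

/-- **the inequality of Kadison and Schwarz for columns** -/
theorem cpk (hF : UL F q) (hq : 0 ≤ q) (w : κ → C(Z, ℂ)) (η : κ → K) :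
    ‖∑ i, F (w i) (η i)‖ ^ 2 ≤ q * (∑ i, ∑ j, ⟪η i, F (star (w i) * w j) (η j)⟫_ℂ).re := by
  set B : ℝ := ∑ i, ‖w i‖ + 1 with hBd
  have hB : 0 < B := by
    have : 0 ≤ ∑ i, ‖w i‖ := sum_nonneg fun _ _ => norm_nonneg _
    linarith
  have hw : ∀ i z, ‖w i z‖ ≤ B := by
    intro i z
    have h1 := (w i).norm_coe_le_norm z
    have h2 : ‖w i‖ ≤ ∑ i, ‖w i‖ := single_le_sum (f := fun i => ‖w i‖)
      (fun _ _ => norm_nonneg _) (mem_univ i)
    linarith
  let W : ℕ → κ → C(Z, ℂ) := fun N i =>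
    ∑ α ∈ cells N, val B N α i • co (cell N (crd B w) α)
  let PP : ℕ → κ → κ → C(Z, ℂ) := fun N i j =>
    ∑ α ∈ cells N, (star (val B N α i) * val B N α j) • co (cell N (crd B w) α)
  have hW : ∀ i, Tendsto (fun N => W N i) atTop (𝓝 (w i)) := by
    intro i
    rw [tendsto_iff_norm_sub_tendsto_zero]
    refine squeeze_zero' (Eventually.of_forall fun _ => norm_nonneg _) ?_
      (tendsto_const_div_atTop_nhds_zero_nat (2 * B))
    filter_upwards [eventually_gt_atTop 0] with N hN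
    exact avg hB hN w hw (w i) _ _ (fun α z h => val_near hB hN w α z h i) (by positivity)
  have hP : ∀ i j, Tendsto (fun N => PP N i j) atTop (𝓝 (star (w i) * w j)) := by
    intro i j
    rw [tendsto_iff_norm_sub_tendsto_zero]
    refine squeeze_zero' (Eventually.of_forall fun _ => norm_nonneg _) ?_
      (tendsto_const_div_atTop_nhds_zero_nat (8 * B ^ 2))
    filter_upwards [eventually_gt_atTop 0] with N hN
    have hN' : (1 : ℝ) ≤ N := by exact_mod_cast hN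
    refine avg hB hN w hw (star (w i) * w j) _ _ (fun α z h => ?_) (by positivity)
    have h1 := val_near hB hN w α z h i
    have h2 := val_near hB hN w α z h j
    have h3 := hw i z
    have h4 := hw j z
    have h5 : 2 * B / N ≤ 2 * B := div_le_self (by positivity) hN'
    have h6 : ‖val B N α i‖ ≤ 3 * B := by
      calc ‖val B N α i‖ = ‖w i z - (w i z - val B N α i)‖ := by rw [sub_sub_cancel]
        _ ≤ ‖w i z‖ + ‖w i z - val B N α i‖ := norm_sub_le _ _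
        _ ≤ 3 * B := by linarith
    have e1 : (star (w i) * w j) z - star (val B N α i) * val B N α j =
        star (w i z - val B N α i) * w j z + star (val B N α i) * (w j z - val B N α j) := by
      simp only [ContinuousMap.mul_apply, ContinuousMap.star_apply, star_sub]
      ring
    rw [e1]
    refine (norm_add_le _ _).trans ?_
    rw [norm_mul, norm_mul, norm_star, norm_star]
    have h7 : 0 ≤ 2 * B / N := by positivity
    calc ‖w i z - val B N α i‖ * ‖w j z‖ + ‖val B N α i‖ * ‖w j z - val B N α j‖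
        ≤ (2 * B / N) * B + (3 * B) * (2 * B / N) := by
          gcongr
      _ = 8 * B ^ 2 / N := by ring
  have hFc := hF.continuous
  have t1 : Tendsto (fun N => ‖∑ i, F (W N i) (η i)‖ ^ 2) atTop
      (𝓝 (‖∑ i, F (w i) (η i)‖ ^ 2)) := by
    refine ((tendsto_finsetSum _ fun i _ => ?_).norm).pow 2
    have h1 : Tendsto (fun N => F (W N i)) atTop (𝓝 (F (w i))) :=
      (hFc.tendsto _).comp (hW i)
    exact ((ContinuousLinearMap.apply ℂ K (η i)).continuous.tendsto _).comp h1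
  have t2 : Tendsto (fun N => q * (∑ i, ∑ j, ⟪η i, F (PP N i j) (η j)⟫_ℂ).re) atTop
      (𝓝 (q * (∑ i, ∑ j, ⟪η i, F (star (w i) * w j) (η j)⟫_ℂ).re)) := by
    refine Tendsto.const_mul q ((Complex.continuous_re.tendsto _).comp
      (tendsto_finsetSum _ fun i _ => tendsto_finsetSum _ fun j _ => ?_))
    have h1 : Tendsto (fun N => F (PP N i j)) atTop (𝓝 (F (star (w i) * w j))) :=
      (hFc.tendsto _).comp (hP i j)
    exact tendsto_const_nhds.inner
      (((ContinuousLinearMap.apply ℂ K (η j)).continuous.tendsto _).comp h1)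
  refine le_of_tendsto_of_tendsto' t1 t2 fun N => ?_
  have hsum : ∀ z, ∑ α ∈ cells N, cell N (crd B w) α z = 1 := by
    intro z
    refine sum_cell N (crd B w) ?_ z
    intro x z
    rcases x with ⟨i, b⟩
    have h3 := hw i z
    cases b
    · simp only [crd, ContinuousMap.coe_mk, Bool.false_eq_true, if_false]
      rw [abs_div, abs_of_pos hB, div_le_one hB]
      exact (Complex.abs_re_le_norm _).trans h3
    · simp only [crd, ContinuousMap.coe_mk, if_true]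
      rw [abs_div, abs_of_pos hB, div_le_one hB]
      exact (Complex.abs_im_le_norm _).trans h3
  have h1 := cpk_step hF hq (cells N) (cell N (crd B w)) (fun α _ z => cell_nonneg _ _ _ _) hsum
    (fun α => ∑ i, val B N α i • η i)
  have e1 : ∑ α ∈ cells N, F (co (cell N (crd B w) α)) (∑ i, val B N α i • η i) =
      ∑ i, F (W N i) (η i) := by
    simp only [W, map_sum, map_smul, _root_.sum_apply, ContinuousLinearMap.smul_apply]
    exact sum_comm
  have e2 : ∑ α ∈ cells N, ⟪∑ i, val B N α i • η i,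
        F (co (cell N (crd B w) α)) (∑ i, val B N α i • η i)⟫_ℂ =
      ∑ i, ∑ j, ⟪η i, F (PP N i j) (η j)⟫_ℂ := by
    have e3 : ∀ α, ⟪∑ i, val B N α i • η i,
        F (co (cell N (crd B w) α)) (∑ i, val B N α i • η i)⟫_ℂ =
        ∑ i, ∑ j, (star (val B N α i) * val B N α j) *
          ⟪η i, F (co (cell N (crd B w) α)) (η j)⟫_ℂ := by
      intro α
      rw [sum_inner]
      refine sum_congr rfl fun i _ => ?_
      rw [map_sum, inner_sum]
      refine sum_congr rfl fun j _ => ?_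
      rw [map_smul, inner_smul_left, inner_smul_right, Complex.star_def]
      ring
    rw [sum_congr rfl fun α _ => e3 α, sum_comm]
    refine sum_congr rfl fun i _ => ?_
    rw [sum_comm]
    refine sum_congr rfl fun j _ => ?_
    simp only [PP, map_sum, map_smul, _root_.sum_apply, ContinuousLinearMap.smul_apply,
      inner_sum, inner_smul_right]
  rw [e1] at h1
  refine h1.trans (le_of_eq ?_)
  rw [← e2, Complex.re_sum]

end cpk

end Vale.Agent.P092.H378.C
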