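import Mathlib

/-!
# P092, Track C, operator side, part 2: the algebra of a point, a Lagrangian line and a second point
-/

set_option linter.unusedSectionVars false
set_option linter.unusedVariables false

namespace Vale.Agent.P092.H378.C

open Finset Matrix

variable {R : Type*} [CommRing R] {n : Type*} [Fintype n] [DecidableEq n]

/-- a symplectic form -/
structure Sy (J : Matrix n n R) : Prop where
  anti : Jᵀ = -J
  sq : J * J = -1

/-- a point: a projection of rank one, isotropic for `J` -/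
structure PtR (J p : Matrix n n R) : Prop where
  idem : p * p = p
  rk1 : ∀ i j k l, p i j * p k l = p i l * p k j
  tr : p.trace = 1
  sy : p * J * pᵀ = 0
  sy' : pᵀ * J * p = 0

/-- a Lagrangian: a projection of rank two -/
structure LgR (J q : Matrix n n R) : Prop where
  idem : q * q = q
  tr : q.trace = 2
  lag : qᵀ * J = J * (1 - q)
  minor : ∀ i c d a b j, q i j * (q c a * q d b - q c b * q d a) -
    q c j * (q i a * q d b - q i b * q d a) + q d j * (q i a * q c b - q i b * q c a) = 0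

/-- first order products vanish; the contact coordinate vanishes -/
structure Inc2 (J p q : Matrix n n R) : Prop where
  aa : ∀ i j k l, ((1 - q) * p) i j * ((1 - q) * p) k l = 0
  ab : ∀ i j k l, ((1 - q) * p) i j * (p * (1 - q)) k l = 0
  bb : ∀ i j k l, (p * (1 - q)) i j * (p * (1 - q)) k l = 0
  co : p * q * J * pᵀ = 0
  co' : pᵀ * J * q * p = 0

/-- the quaternionic partner of a point -/
def rr (J p : Matrix n n R) : Matrix n n R := J * pᵀ * Jᵀ

section basic

variable {J p q : Matrix n n R}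

theorem PtR.rk (hp : PtR J p) (M : Matrix n n R) : p * M * p = (p * M).trace • p := by
  ext i l
  rw [Matrix.smul_apply, smul_eq_mul, trace, sum_mul, mul_apply]
  simp only [diag_apply, mul_apply, sum_mul]
  rw [sum_comm]
  conv_rhs => rw [sum_comm]
  refine sum_congr rfl fun j _ => ?_
  refine sum_congr rfl fun k _ => ?_
  have h := hp.rk1 i j k l
  linear_combination (M j k) * h

theorem Sy.mulT (hJ : Sy J) : J * Jᵀ = 1 := by
  rw [hJ.anti, mul_neg, hJ.sq, neg_neg]

theorem Sy.Tmul (hJ : Sy J) : Jᵀ * J = 1 := by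
  rw [hJ.anti, neg_mul, hJ.sq, neg_neg]

/-- `J qᵀ = (1 - q) J` -/
theorem LgR.Jq (hJ : Sy J) (h : LgR J q) : J * qᵀ = (1 - q) * J := by
  have h1 : Jᵀ * (qᵀ * J) * Jᵀ = Jᵀ * (J * (1 - q)) * Jᵀ := by rw [h.lag]
  have e1 : Jᵀ * (qᵀ * J) * Jᵀ = Jᵀ * qᵀ := by
    rw [mul_assoc, mul_assoc, hJ.mulT, mul_one]
  have e2 : Jᵀ * (J * (1 - q)) * Jᵀ = (1 - q) * Jᵀ := by
    rw [← mul_assoc, hJ.Tmul, one_mul]
  rw [e1, e2, hJ.anti, neg_mul, mul_neg, neg_inj] at h1
  exact h1

/-- `q J = J (1 - q)ᵀ` -/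
theorem LgR.qJ (hJ : Sy J) (h : LgR J q) : q * J = J * (1 - q)ᵀ := by
  rw [transpose_sub, transpose_one, mul_sub, mul_one, h.Jq hJ, sub_mul, one_mul, sub_sub_cancel]

/-- `J q = (1 - q)ᵀ J` -/
theorem LgR.Jq' (hJ : Sy J) (h : LgR J q) : J * q = (1 - q)ᵀ * J := by
  rw [transpose_sub, transpose_one, sub_mul, one_mul, h.lag, mul_sub, mul_one, sub_sub_cancel]

/-- `1 - q = J qᵀ Jᵀ` -/
theorem LgR.compl (hJ : Sy J) (h : LgR J q) : 1 - q = J * qᵀ * Jᵀ := by
  rw [h.Jq hJ, mul_assoc, hJ.mulT, mul_one]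

/-- `q = J (1 - q)ᵀ Jᵀ` -/
theorem LgR.compl' (hJ : Sy J) (h : LgR J q) : q = J * (1 - q)ᵀ * Jᵀ := by
  rw [← h.qJ hJ, mul_assoc, hJ.mulT, mul_one]

end basic

/-- **rank two**: antisymmetric forms on a plane -/
theorem rank2 (h2 : IsUnit (2 : R)) {J q : Matrix n n R} (h : LgR J q) {S S' : Matrix n n R}
    (hS : Sᵀ = -S) (hS' : S'ᵀ = -S') :
    (2 : R) • (q * S * qᵀ * S' * q) = (q * S * qᵀ * S').trace • q := by
  have hSa : ∀ a b, S b a = -S a b := fun a b => by
    have := congrFun (congrFun hS a) b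
    simpa using this
  have hSa' : ∀ a b, S' b a = -S' a b := fun a b => by
    have := congrFun (congrFun hS' a) b
    simpa using this
  have hq : ∀ a b, ∑ k, q a k * q k b = q a b := fun a b => by
    rw [← mul_apply, h.idem]
  -- the sums
  have eX : ∀ i j, (q * S * qᵀ * S' * q) i j =
      ∑ a, ∑ b, ∑ c, ∑ d, S a b * S' c d * (q i a * q c b * q d j) := by
    intro i j
    simp only [mul_apply, transpose_apply, sum_mul]
    -- order d c b a
    rw [sum_comm]
    calc ∑ c, ∑ d, ∑ b, ∑ a, q i a * S a b * q c b * S' c d * q d j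
        = ∑ c, ∑ d, ∑ b, ∑ a, S a b * S' c d * (q i a * q c b * q d j) := by
          refine sum_congr rfl fun c _ => sum_congr rfl fun d _ => sum_congr rfl fun b _ =>
            sum_congr rfl fun a _ => by ring
      _ = ∑ c, ∑ d, ∑ a, ∑ b, S a b * S' c d * (q i a * q c b * q d j) :=
          sum_congr rfl fun c _ => sum_congr rfl fun d _ => sum_comm
      _ = ∑ c, ∑ a, ∑ d, ∑ b, S a b * S' c d * (q i a * q c b * q d j) :=
          sum_congr rfl fun c _ => sum_comm
      _ = ∑ c, ∑ a, ∑ b, ∑ d, S a b * S' c d * (q i a * q c b * q d j) :=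
          sum_congr rfl fun c _ => sum_congr rfl fun a _ => sum_comm
      _ = ∑ a, ∑ c, ∑ b, ∑ d, S a b * S' c d * (q i a * q c b * q d j) := sum_comm
      _ = ∑ a, ∑ b, ∑ c, ∑ d, S a b * S' c d * (q i a * q c b * q d j) :=
          sum_congr rfl fun a _ => sum_comm
  have eT : (q * S * qᵀ * S').trace = ∑ a, ∑ b, ∑ c, ∑ d, S a b * S' c d * (q c b * q d a) := by
    have e1 : (q * S * qᵀ * S').trace = (q * S * qᵀ * S' * q).trace := by
      rw [trace_mul_comm (q * S * qᵀ * S') q]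
      simp only [← mul_assoc, h.idem]
    rw [e1, trace]
    simp only [diag_apply, eX]
    rw [sum_comm]
    refine sum_congr rfl fun a _ => ?_
    rw [sum_comm]
    refine sum_congr rfl fun b _ => ?_
    rw [sum_comm]
    refine sum_congr rfl fun c _ => ?_
    rw [sum_comm]
    refine sum_congr rfl fun d _ => ?_
    rw [← mul_sum]
    congr 1
    calc ∑ i, q i a * q c b * q d i = q c b * ∑ i, q d i * q i a := by
          rw [mul_sum]; exact sum_congr rfl fun i _ => by ring
      _ = q c b * q d a := by rw [hq]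
  ext i j
  rw [Matrix.smul_apply, Matrix.smul_apply, eX, eT, smul_eq_mul, smul_eq_mul]
  -- four copies
  set X := ∑ a, ∑ b, ∑ c, ∑ d, S a b * S' c d * (q i a * q c b * q d j) with hX
  set Y := ∑ a, ∑ b, ∑ c, ∑ d, S a b * S' c d * (q c b * q d a) with hY
  have x2 : X = ∑ a, ∑ b, ∑ c, ∑ d, S a b * S' c d * (-(q i b * q c a * q d j)) := by
    rw [hX, sum_comm]
    refine sum_congr rfl fun a _ => sum_congr rfl fun b _ => sum_congr rfl fun c _ =>
      sum_congr rfl fun d _ => ?_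
    rw [hSa a b]; ring
  have x3 : X = ∑ a, ∑ b, ∑ c, ∑ d, S a b * S' c d * (-(q i a * q d b * q c j)) := by
    rw [hX]
    refine sum_congr rfl fun a _ => sum_congr rfl fun b _ => ?_
    rw [sum_comm]
    refine sum_congr rfl fun c _ => sum_congr rfl fun d _ => ?_
    rw [hSa' c d]; ring
  have x4 : X = ∑ a, ∑ b, ∑ c, ∑ d, S a b * S' c d * (q i b * q d a * q c j) := by
    rw [x2]
    refine sum_congr rfl fun a _ => sum_congr rfl fun b _ => ?_
    rw [sum_comm]
    refine sum_congr rfl fun c _ => sum_congr rfl fun d _ => ?_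
    rw [hSa' c d]; ring
  have y2 : Y = ∑ a, ∑ b, ∑ c, ∑ d, S a b * S' c d * (-(q c a * q d b)) := by
    rw [hY, sum_comm]
    refine sum_congr rfl fun a _ => sum_congr rfl fun b _ => sum_congr rfl fun c _ =>
      sum_congr rfl fun d _ => ?_
    rw [hSa a b]; ring
  have z0 : X + (∑ a, ∑ b, ∑ c, ∑ d, S a b * S' c d * (-(q i b * q c a * q d j))) +
      (∑ a, ∑ b, ∑ c, ∑ d, S a b * S' c d * (-(q i a * q d b * q c j))) +
      (∑ a, ∑ b, ∑ c, ∑ d, S a b * S' c d * (q i b * q d a * q c j)) - q i j * Y -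
      q i j * (∑ a, ∑ b, ∑ c, ∑ d, S a b * S' c d * (-(q c a * q d b))) = 0 := by
    rw [hX, hY]
    simp only [mul_sum, ← sum_add_distrib, ← sum_sub_distrib]
    refine sum_eq_zero fun a _ => sum_eq_zero fun b _ => sum_eq_zero fun c _ =>
      sum_eq_zero fun d _ => ?_
    have hm := h.minor i c d a b j
    linear_combination (S a b * S' c d) * hm
  have z1 : X + X + X + X - q i j * Y - q i j * Y = 0 := by
    rw [← x2, ← x3, ← x4, ← y2] at z0
    exact z0
  refine h2.mul_left_cancel ?_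
  linear_combination z1

section main

variable {J p q p' : Matrix n n R}

theorem rr_tr (p : Matrix n n R) : (p + rr J p) = p + J * pᵀ * Jᵀ := rfl

/-- the first order block -/
def hh (J p q : Matrix n n R) : Matrix n n R := q * (p + rr J p) * (1 - q)

/-- its adjoint -/
def hs (J p q : Matrix n n R) : Matrix n n R := (1 - q) * (p + rr J p) * q

theorem asym (hJ : Sy J) (p : Matrix n n R) : ((p + rr J p) * J)ᵀ = -((p + rr J p) * J) := by
  have e1 : (p + rr J p) * J = p * J + J * pᵀ := by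
    rw [add_mul, rr, mul_assoc (J * pᵀ), hJ.Tmul, mul_one]
  rw [e1, transpose_add, transpose_mul, transpose_mul, transpose_transpose, hJ.anti]
  simp only [neg_mul, mul_neg]
  abel

theorem asym' (hJ : Sy J) (p : Matrix n n R) : (Jᵀ * (p + rr J p))ᵀ = -(Jᵀ * (p + rr J p)) := by
  have e1 : Jᵀ * (p + rr J p) = Jᵀ * p + pᵀ * Jᵀ := by
    rw [mul_add, rr, ← mul_assoc, ← mul_assoc, hJ.Tmul, one_mul]
  rw [e1, transpose_add, transpose_mul, transpose_mul, transpose_transpose, transpose_transpose,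
    hJ.anti]
  simp only [neg_mul, mul_neg]
  abel

/-- the scalar `2 η` -/
def e2 (J p q p' : Matrix n n R) : R := (hh J p q * hs J p' q).trace

/-- **the product of two first order blocks is scalar** -/
theorem hh_hs (h2 : IsUnit (2 : R)) (hJ : Sy J) (hq : LgR J q) (p p' : Matrix n n R) :
    (2 : R) • (hh J p q * hs J p' q) = e2 J p q p' • q := by
  have hq2 : (1 - q) * (1 - q) = 1 - q := by
    rw [mul_sub, mul_one, sub_mul, one_mul, hq.idem, sub_self, sub_zero]
  have e1 : hh J p q * hs J p' q = q * ((p + rr J p) * J) * qᵀ * (Jᵀ * (p' + rr J p')) * q := by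
    have e3 : hh J p q * hs J p' q = q * (p + rr J p) * ((1 - q) * (1 - q)) * (p' + rr J p') * q := by
      simp only [hh, hs, mul_assoc]
    rw [e3, hq2, hq.compl hJ]
    simp only [mul_assoc]
  have e4 := rank2 h2 hq (asym hJ p) (asym' hJ p')
  rw [← e1] at e4
  rw [e4, e2, e1]
  congr 1
  rw [trace_mul_comm (q * ((p + rr J p) * J) * qᵀ * (Jᵀ * (p' + rr J p'))) q]
  simp only [← mul_assoc, hq.idem]

theorem p_one (hp : PtR J p) (hq : LgR J q) (hi : Inc2 J p q) : (p * q).trace = 1 := by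
  have hq2 : (1 - q) * (1 - q) = 1 - q := by
    rw [mul_sub, mul_one, sub_mul, one_mul, hq.idem, sub_self, sub_zero]
  have e1 : (p * (1 - q)).trace = 0 := by
    have e2 : (p * (1 - q)).trace = (p * (1 - q) * ((1 - q) * p)).trace := by
      rw [mul_assoc, ← mul_assoc (1 - q) (1 - q) p, hq2, ← mul_assoc, trace_mul_comm (p * (1 - q)) p,
        ← mul_assoc, hp.idem]
    rw [e2, trace]
    refine sum_eq_zero fun i _ => ?_
    rw [diag_apply, mul_apply]
    refine sum_eq_zero fun k _ => ?_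
    rw [mul_comm]
    exact hi.ab _ _ _ _
  have e3 : p.trace = (p * q).trace + (p * (1 - q)).trace := by
    rw [← trace_add, ← mul_add, add_sub_cancel, mul_one]
  rw [e1, add_zero, hp.tr] at e3
  exact e3.symm

/-- `2 p (1 - q) p' = e₂ p q p'` -/
theorem key (h2 : IsUnit (2 : R)) (hJ : Sy J) (hp : PtR J p) (hp' : PtR J p') (hq : LgR J q)
    (hi : Inc2 J p q) (hi' : Inc2 J p' q) :
    (2 : R) • (p * (1 - q) * p') = e2 J p q p' • (p * q * p') := by
  have h := hh_hs h2 hJ hq p p'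
  have h3 : (2 : R) • (p * (hh J p q * hs J p' q) * p') = e2 J p q p' • (p * q * p') := by
    have := congrArg (fun M => p * M * p') h
    simpa only [mul_smul_comm, smul_mul_assoc] using this
  rw [← h3]
  congr 1
  have a1 : p * hh J p q = p * (1 - q) := by
    have b1 : p * q * rr J p = 0 := by
      rw [rr, ← mul_assoc, ← mul_assoc, hi.co, zero_mul]
    have b2 : p * q * p = p := by rw [hp.rk, p_one hp hq hi, one_smul]
    calc p * hh J p q = (p * q * p + p * q * rr J p) * (1 - q) := by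
          rw [hh]; simp only [mul_add, add_mul, mul_assoc]
      _ = p * (1 - q) := by rw [b1, b2, add_zero]
  have a2 : hs J p' q * p' = (1 - q) * p' := by
    have b1 : rr J p' * q * p' = 0 := by
      have : rr J p' * q * p' = -(J * (p'ᵀ * J * q * p')) := by
        rw [rr, hJ.anti]
        simp only [mul_neg, neg_mul, mul_assoc]
      rw [this, hi'.co', mul_zero, neg_zero]
    have b2 : p' * q * p' = p' := by rw [hp'.rk, p_one hp' hq hi', one_smul]
    calc hs J p' q * p' = (1 - q) * (p' * q * p' + rr J p' * q * p') := by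
          rw [hs]; simp only [mul_add, add_mul, mul_assoc]
      _ = (1 - q) * p' := by rw [b1, b2, add_zero]
  have hq2 : (1 - q) * (1 - q) = 1 - q := by
    rw [mul_sub, mul_one, sub_mul, one_mul, hq.idem, sub_self, sub_zero]
  calc p * (1 - q) * p' = p * ((1 - q) * (1 - q)) * p' := by rw [hq2]
    _ = (p * (1 - q)) * ((1 - q) * p') := by simp only [mul_assoc]
    _ = (p * hh J p q) * (hs J p' q * p') := by rw [a1, a2]
    _ = p * (hh J p q * hs J p' q) * p' := by simp only [mul_assoc]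

theorem q_rr (hJ : Sy J) (hq : LgR J q) (p : Matrix n n R) :
    q * rr J p = J * (p * (1 - q))ᵀ * Jᵀ := by
  rw [rr, ← mul_assoc, ← mul_assoc, hq.qJ hJ, transpose_mul]
  simp only [mul_assoc]

theorem rr_q (hJ : Sy J) (hq : LgR J q) (p : Matrix n n R) :
    rr J p * q = J * ((1 - q) * p)ᵀ * Jᵀ := by
  have h1 : Jᵀ * q = (1 - q)ᵀ * Jᵀ := by
    rw [hJ.anti, neg_mul, mul_neg, hq.Jq' hJ]
  rw [rr, mul_assoc (J * pᵀ), h1, transpose_mul]
  simp only [mul_assoc]

theorem hh_eq (hJ : Sy J) (hq : LgR J q) (p : Matrix n n R) :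
    hh J p q = q * (p * (1 - q)) * 1 + J * (p * (1 - q))ᵀ * (Jᵀ * (1 - q)) := by
  rw [hh, mul_add, add_mul, q_rr hJ hq]
  simp only [mul_assoc, mul_one]

theorem smul_hh (hJ : Sy J) (hq : LgR J q) {c : R} (hc : c • (p * (1 - q)) = 0) :
    c • hh J p q = 0 := by
  have h1 : c • (p * (1 - q))ᵀ = 0 := by
    rw [← transpose_smul, hc, transpose_zero]
  rw [hh_eq hJ hq, smul_add, ← smul_mul_assoc, ← mul_smul_comm, hc, ← smul_mul_assoc,
    ← mul_smul_comm, h1]
  simp

theorem smul_of (hi : Inc2 J p q) (k l : n) : ((p * (1 - q)) k l) • (p * (1 - q)) = 0 := by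
  ext i j
  rw [Matrix.smul_apply, smul_eq_mul, hi.bb]
  rfl

theorem e2_smul (hJ : Sy J) (hq : LgR J q) (hi : Inc2 J p q) (p' : Matrix n n R) :
    e2 J p q p' • (p * (1 - q)) = 0 := by
  ext k l
  have h1 := smul_hh hJ hq (smul_of hi k l)
  rw [Matrix.smul_apply, smul_eq_mul, mul_comm, e2, ← smul_eq_mul, ← trace_smul, ← smul_mul_assoc,
    h1, zero_mul, trace_zero]
  rfl

/-- the sum of the four traces -/
def t1 (p q p' : Matrix n n R) : R := (q * p * (1 - q) * p').trace

/-- the mixed trace -/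
def t3 (J p q p' : Matrix n n R) : R := (q * rr J p * (1 - q) * p').trace

theorem trT (A B C D : Matrix n n R) : (A * B * C * D).trace = (Dᵀ * Cᵀ * Bᵀ * Aᵀ).trace := by
  rw [← trace_transpose (A * B * C * D), transpose_mul, transpose_mul, transpose_mul]
  simp only [mul_assoc]

theorem t4_eq (hJ : Sy J) (hq : LgR J q) (p p' : Matrix n n R) :
    (q * rr J p * (1 - q) * rr J p').trace = t1 p q p' := by
  have h1 : Jᵀ * (1 - q) * J = qᵀ := by
    rw [mul_assoc, ← hq.Jq hJ, ← mul_assoc, hJ.Tmul, one_mul]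
  have h2 : Jᵀ * q * J = (1 - q)ᵀ := by
    rw [mul_assoc, hq.qJ hJ, ← mul_assoc, hJ.Tmul, one_mul]
  calc (q * rr J p * (1 - q) * rr J p').trace
      = ((q * J * pᵀ * (Jᵀ * (1 - q) * J) * p'ᵀ) * Jᵀ).trace := by
        simp only [rr, mul_assoc]
    _ = (Jᵀ * (q * J * pᵀ * (Jᵀ * (1 - q) * J) * p'ᵀ)).trace := trace_mul_comm _ _
    _ = ((Jᵀ * q * J) * pᵀ * (Jᵀ * (1 - q) * J) * p'ᵀ).trace := by simp only [mul_assoc]
    _ = ((1 - q)ᵀ * pᵀ * qᵀ * p'ᵀ).trace := by rw [h1, h2]
    _ = (p' * q * p * (1 - q)).trace := by rw [trT]; simp only [transpose_transpose]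
    _ = (p' * (q * p * (1 - q))).trace := by simp only [mul_assoc]
    _ = (q * p * (1 - q) * p').trace := trace_mul_comm _ _

theorem t3_eq (hJ : Sy J) (hq : LgR J q) (p p' : Matrix n n R) :
    (q * p * (1 - q) * rr J p').trace = t3 J p q p' := by
  have h1 : Jᵀ * (1 - q) * J = qᵀ := by
    rw [mul_assoc, ← hq.Jq hJ, ← mul_assoc, hJ.Tmul, one_mul]
  calc (q * p * (1 - q) * rr J p').trace
      = (q * p * (1 - q) * (J * p'ᵀ * Jᵀ)).trace := rfl
    _ = ((J * p'ᵀ * Jᵀ)ᵀ * (1 - q)ᵀ * pᵀ * qᵀ).trace := trT _ _ _ _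
    _ = ((J * p' * Jᵀ) * (Jᵀ * q * J) * pᵀ * (Jᵀ * (1 - q) * J)).trace := by
        rw [h1]
        have h2 : Jᵀ * q * J = (1 - q)ᵀ := by
          rw [mul_assoc, hq.qJ hJ, ← mul_assoc, hJ.Tmul, one_mul]
        rw [h2]
        simp only [transpose_mul, transpose_transpose, mul_assoc]
    _ = (J * (p' * (Jᵀ * Jᵀ) * q * J * pᵀ * Jᵀ * (1 - q) * J)).trace := by
        simp only [mul_assoc]
    _ = ((p' * (Jᵀ * Jᵀ) * q * J * pᵀ * Jᵀ * (1 - q) * J) * J).trace := trace_mul_comm _ _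
    _ = (p' * (q * rr J p * (1 - q))).trace := by
        have h3 : Jᵀ * Jᵀ = -1 := by rw [hJ.anti, neg_mul_neg, hJ.sq]
        have e1 : (p' * (Jᵀ * Jᵀ) * q * J * pᵀ * Jᵀ * (1 - q) * J) * J =
            p' * (Jᵀ * Jᵀ) * (q * (J * pᵀ * Jᵀ) * (1 - q)) * (J * J) := by
          simp only [mul_assoc]
        rw [e1, h3, hJ.sq, rr]
        simp only [mul_neg, neg_mul, mul_one, neg_neg]
    _ = t3 J p q p' := by rw [trace_mul_comm]; rfl

theorem e2_four (hJ : Sy J) (hq : LgR J q) (p p' : Matrix n n R) :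
    e2 J p q p' = 2 * (t1 p q p' + t3 J p q p') := by
  have hq2 : (1 - q) * (1 - q) = 1 - q := by
    rw [mul_sub, mul_one, sub_mul, one_mul, hq.idem, sub_self, sub_zero]
  have e1 : e2 J p q p' = (q * (p + rr J p) * (1 - q) * (p' + rr J p')).trace := by
    calc e2 J p q p' = ((q * (p + rr J p) * ((1 - q) * (1 - q)) * (p' + rr J p')) * q).trace := by
          rw [e2, hh, hs]; simp only [mul_assoc]
      _ = (q * (q * (p + rr J p) * ((1 - q) * (1 - q)) * (p' + rr J p'))).trace :=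
          trace_mul_comm _ _
      _ = ((q * q) * (p + rr J p) * ((1 - q) * (1 - q)) * (p' + rr J p')).trace := by
          simp only [mul_assoc]
      _ = _ := by rw [hq.idem, hq2]
  have e3 : q * (p + rr J p) * (1 - q) * (p' + rr J p') = q * p * (1 - q) * p' +
      q * p * (1 - q) * rr J p' + (q * rr J p * (1 - q) * p' +
      q * rr J p * (1 - q) * rr J p') := by
    simp only [mul_add, add_mul]
    abel
  rw [e1, e3, trace_add, trace_add, trace_add, t3_eq hJ hq, t4_eq hJ hq]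
  change t1 p q p' + t3 J p q p' + (t3 J p q p' + t1 p q p') = _
  ring

theorem t1_eq (hp : PtR J p) (hi : Inc2 J p q) (p' : Matrix n n R) :
    t1 p q p' = (p * (1 - q) * p').trace := by
  have h0 : (1 - q) * p * (1 - q) = 0 := by
    have e1 : (1 - q) * p * (1 - q) = ((1 - q) * p) * (p * (1 - q)) := by
      rw [← mul_assoc, mul_assoc (1 - q) p p, hp.idem]
    rw [e1]
    ext i j
    rw [mul_apply]
    exact sum_eq_zero fun k _ => hi.ab _ _ _ _
  have e2 : p * (1 - q) * p' = q * p * (1 - q) * p' + (1 - q) * p * (1 - q) * p' := by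
    simp only [← add_mul, add_sub_cancel, one_mul]
  rw [e2, h0, zero_mul, add_zero]
  rfl

/-- **the division identity** -/
theorem e2_div (h2 : IsUnit (2 : R)) (hJ : Sy J) (hp : PtR J p) (hp' : PtR J p') (hq : LgR J q)
    (hi : Inc2 J p q) (hi' : Inc2 J p' q) :
    e2 J p q p' * (1 - (p * p').trace) = 2 * t3 J p q p' := by
  have h1 := congrArg trace (key h2 hJ hp hp' hq hi hi')
  rw [trace_smul, trace_smul, smul_eq_mul, smul_eq_mul, ← t1_eq hp hi] at h1
  have h3 : e2 J p q p' * (p * (1 - q) * p').trace = 0 := by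
    rw [← smul_eq_mul, ← trace_smul, ← smul_mul_assoc, e2_smul hJ hq hi, zero_mul, trace_zero]
  have h4 : (p * p').trace = (p * q * p').trace + (p * (1 - q) * p').trace := by
    rw [← trace_add, ← add_mul, ← mul_add, add_sub_cancel, mul_one]
  have h5 := e2_four hJ hq p p'
  rw [h4]
  linear_combination h5 - h3 + h1

/-- the trace form of `|ω(x, x')|²` -/
def om2 (J p p' : Matrix n n R) : R := (pᵀ * J * p' * Jᵀ).trace

theorem om2_eq (hJ : Sy J) (hp : PtR J p) (hp' : PtR J p') (hq : LgR J q)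
    (hi : Inc2 J p q) (hi' : Inc2 J p' q) : om2 J p p' = t3 J p q p' + t3 J p' q p := by
  have a1 : pᵀ * J * p' = ((1 - q) * p)ᵀ * (J * p') + pᵀ * J * ((1 - q) * p') := by
    have : J = (1 - q)ᵀ * J + J * (1 - q) := by
      rw [← hq.Jq' hJ, ← mul_add, add_sub_cancel, mul_one]
    calc pᵀ * J * p' = pᵀ * ((1 - q)ᵀ * J + J * (1 - q)) * p' := by rw [← this]
      _ = _ := by rw [transpose_mul]; simp only [mul_add, add_mul, mul_assoc]
  have a2 : p' * Jᵀ * pᵀ = (p' * Jᵀ) * (p * (1 - q))ᵀ + p' * (1 - q) * (Jᵀ * pᵀ) := by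
    have h1 : (1 - q) * Jᵀ = Jᵀ * qᵀ := by
      rw [hJ.anti, mul_neg, neg_mul, hq.Jq hJ]
    have : Jᵀ = Jᵀ * (1 - q)ᵀ + (1 - q) * Jᵀ := by
      rw [h1, ← mul_add, transpose_sub, transpose_one, sub_add_cancel, mul_one]
    calc p' * Jᵀ * pᵀ = p' * (Jᵀ * (1 - q)ᵀ + (1 - q) * Jᵀ) * pᵀ := by rw [← this]
      _ = _ := by rw [transpose_mul]; simp only [mul_add, add_mul, mul_assoc]
  have hpT : pᵀ * pᵀ = pᵀ := by rw [← transpose_mul, hp.idem]
  have a3 : om2 J p p' = ((pᵀ * J * p') * (p' * Jᵀ * pᵀ)).trace := by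
    calc om2 J p p' = ((pᵀ * pᵀ) * J * p' * Jᵀ).trace := by rw [hpT]; rfl
      _ = (pᵀ * (pᵀ * J * p' * Jᵀ)).trace := by simp only [mul_assoc]
      _ = ((pᵀ * J * p' * Jᵀ) * pᵀ).trace := trace_mul_comm _ _
      _ = ((pᵀ * J * (p' * p') * Jᵀ) * pᵀ).trace := by rw [hp'.idem]
      _ = _ := by simp only [mul_assoc]
  have b1 : (((1 - q) * p)ᵀ * (J * p') * ((p' * Jᵀ) * (p * (1 - q))ᵀ)).trace = 0 := by
    rw [trace_mul_comm, ← mul_assoc, mul_assoc (p' * Jᵀ)]
    have : (p * (1 - q))ᵀ * ((1 - q) * p)ᵀ = 0 := by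
      ext i j
      rw [mul_apply]
      refine sum_eq_zero fun k _ => ?_
      rw [transpose_apply, transpose_apply, mul_comm]
      exact hi.ab _ _ _ _
    rw [this, mul_zero, zero_mul, trace_zero]
  have b2 : (pᵀ * J * ((1 - q) * p') * (p' * (1 - q) * (Jᵀ * pᵀ))).trace = 0 := by
    have e1 : pᵀ * J * ((1 - q) * p') * (p' * (1 - q) * (Jᵀ * pᵀ)) =
        pᵀ * J * (((1 - q) * p') * (p' * (1 - q))) * (Jᵀ * pᵀ) := by simp only [mul_assoc]
    have : ((1 - q) * p') * (p' * (1 - q)) = 0 := by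
      ext i j
      rw [mul_apply]
      exact sum_eq_zero fun k _ => hi'.ab _ _ _ _
    rw [e1, this, mul_zero, zero_mul, trace_zero]
  have b3 : (((1 - q) * p)ᵀ * (J * p') * (p' * (1 - q) * (Jᵀ * pᵀ))).trace = t3 J p' q p := by
    have e1 : Jᵀ * (pᵀ * (1 - q)ᵀ) * J = rr J p * q := by
      rw [rr_q hJ hq, transpose_mul, hJ.anti]
      simp only [neg_mul, mul_neg]
    calc (((1 - q) * p)ᵀ * (J * p') * (p' * (1 - q) * (Jᵀ * pᵀ))).trace
        = ((pᵀ * (1 - q)ᵀ * J * (p' * p') * (1 - q) * Jᵀ) * pᵀ).trace := by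
          rw [transpose_mul]; simp only [mul_assoc]
      _ = (pᵀ * (pᵀ * (1 - q)ᵀ * J * (p' * p') * (1 - q) * Jᵀ)).trace := trace_mul_comm _ _
      _ = (((pᵀ * pᵀ) * (1 - q)ᵀ * J * (p' * p') * (1 - q)) * Jᵀ).trace := by
          simp only [mul_assoc]
      _ = (Jᵀ * ((pᵀ * pᵀ) * (1 - q)ᵀ * J * (p' * p') * (1 - q))).trace := trace_mul_comm _ _
      _ = ((Jᵀ * (pᵀ * (1 - q)ᵀ) * J) * (p' * (1 - q))).trace := by
          rw [hpT, hp'.idem]; simp only [mul_assoc]
      _ = (rr J p * (q * p' * (1 - q))).trace := by rw [e1]; simp only [mul_assoc]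
      _ = (q * p' * (1 - q) * rr J p).trace := trace_mul_comm _ _
      _ = t3 J p' q p := t3_eq hJ hq _ _
  have b4 : (pᵀ * J * ((1 - q) * p') * ((p' * Jᵀ) * (p * (1 - q))ᵀ)).trace = t3 J p q p' := by
    have e1 : Jᵀ * ((1 - q)ᵀ * pᵀ) * J = q * rr J p := by
      rw [q_rr hJ hq, transpose_mul, hJ.anti]
      simp only [neg_mul, mul_neg]
    calc (pᵀ * J * ((1 - q) * p') * ((p' * Jᵀ) * (p * (1 - q))ᵀ)).trace
        = ((pᵀ * J * (1 - q) * (p' * p') * Jᵀ * (1 - q)ᵀ) * pᵀ).trace := by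
          rw [transpose_mul]; simp only [mul_assoc]
      _ = (pᵀ * (pᵀ * J * (1 - q) * (p' * p') * Jᵀ * (1 - q)ᵀ)).trace := trace_mul_comm _ _
      _ = (((pᵀ * pᵀ) * J * (1 - q) * (p' * p')) * (Jᵀ * (1 - q)ᵀ)).trace := by
          simp only [mul_assoc]
      _ = ((Jᵀ * (1 - q)ᵀ) * ((pᵀ * pᵀ) * J * (1 - q) * (p' * p'))).trace := trace_mul_comm _ _
      _ = ((Jᵀ * ((1 - q)ᵀ * pᵀ) * J) * (1 - q) * p').trace := by
          rw [hpT, hp'.idem]; simp only [mul_assoc]
      _ = t3 J p q p' := by rw [e1]; rfl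
  rw [a3, a1, a2, add_mul, mul_add, mul_add, trace_add, trace_add, trace_add, b1, b2, b3, b4]
  ring

/-- **the main identity** -/
theorem main_id (h2 : IsUnit (2 : R)) (hJ : Sy J) (hp : PtR J p) (hp' : PtR J p')
    (hq : LgR J q) (hi : Inc2 J p q) (hi' : Inc2 J p' q) :
    2 * om2 J p p' = (1 - (p * p').trace) * (e2 J p q p' + e2 J p' q p) := by
  have h3 := e2_div h2 hJ hp hp' hq hi hi'
  have h4 := e2_div h2 hJ hp' hp hq hi' hi
  rw [trace_mul_comm p' p] at h4
  rw [om2_eq hJ hp hp' hq hi hi']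
  linear_combination -h3 - h4

/-- if the first order blocks vanish, the incidence is exact -/
theorem exact_l (hJ : Sy J) (hp : PtR J p) (hi : Inc2 J p q) (h : hs J p q = 0) :
    (1 - q) * p = 0 := by
  have h1 : rr J p * q * p = 0 := by
    have : rr J p * q * p = -(J * (pᵀ * J * q * p)) := by
      rw [rr, hJ.anti]
      simp only [mul_neg, neg_mul, mul_assoc]
    rw [this, hi.co', mul_zero, neg_zero]
  have h3 : (1 - q) * p * ((1 - q) * p) = 0 := by
    ext i j
    rw [mul_apply]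
    exact sum_eq_zero fun k _ => hi.aa _ _ _ _
  have h4 : (1 - q) * p = hs J p q * p - (1 - q) * (rr J p * q * p) +
      (1 - q) * p * ((1 - q) * p) := by
    have e1 : hs J p q * p = (1 - q) * p * q * p + (1 - q) * (rr J p * q * p) := by
      rw [hs]; simp only [mul_add, add_mul, mul_assoc]
    rw [e1, add_sub_cancel_right]
    calc (1 - q) * p = (1 - q) * p * (q + (1 - q)) * p := by
          rw [add_sub_cancel, mul_one, mul_assoc, hp.idem]
      _ = _ := by simp only [mul_add, add_mul, mul_assoc]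
  rw [h4, h, h1, h3]
  simp

/-- the other side -/
theorem exact_r (hJ : Sy J) (hp : PtR J p) (hi : Inc2 J p q) (h : hh J p q = 0) :
    p * (1 - q) = 0 := by
  have h1 : p * q * rr J p = 0 := by
    rw [rr, ← mul_assoc, ← mul_assoc, hi.co, zero_mul]
  have h3 : p * (1 - q) * (p * (1 - q)) = 0 := by
    ext i j
    rw [mul_apply]
    exact sum_eq_zero fun k _ => hi.bb _ _ _ _
  have h4 : p * (1 - q) = p * hh J p q - (p * q * rr J p) * (1 - q) +
      p * (1 - q) * (p * (1 - q)) := by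
    have e1 : p * hh J p q = p * q * p * (1 - q) + (p * q * rr J p) * (1 - q) := by
      rw [hh]; simp only [mul_add, add_mul, mul_assoc]
    rw [e1, add_sub_cancel_right]
    calc p * (1 - q) = p * (q + (1 - q)) * p * (1 - q) := by
          rw [add_sub_cancel, mul_one, hp.idem]
      _ = _ := by simp only [mul_add, add_mul, mul_assoc]
  rw [h4, h, h1, h3]
  simp

end main

end Vale.Agent.P092.H378.C
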