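import Vale.Agent.P092.H378.D2
import Vale.Agent.P092.H283.Gn.T
import Vale.Agent.P092.H100.SU.Far
import Vale.Agent.P092.H398.SUc.Inst

/-!
# P092, Track H, operator side, part 3: the relations of an incident pair, hermitian forms

`relH`: points and singular planes of a hermitian form of Witt index two over `ℂ`.
-/

set_option linter.unusedSectionVars false
set_option linter.unusedVariables false

namespace Vale.Agent.P092.H378.D

open Finset Matrix Filter Topology TensorProduct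
open scoped InnerProductSpace
open Vale.Agent.P092.H828.P (UL)
open Vale.Agent.P092.H283.Car (en en_apply)
open Vale.Agent.P092.H283.Syn (cx cx_apply)
open Vale.Agent.P092.H378.C
open Vale.Agent.P092.H283
open Vale.Agent.P092.H100.SU (PtH LgH HInc nu Shape RelHStmt)

section gn

variable {X Z : Type*} [TopologicalSpace X] [CompactSpace X] [TopologicalSpace Z] [CompactSpace Z]
  {K : Type*} [NormedAddCommGroup K] [InnerProductSpace ℂ K] [CompleteSpace K] {n : ℕ}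
  {Q : C(X, Matrix (Fin n) (Fin n) ℂ)} {P : C(Z, Matrix (Fin n) (Fin n) ℂ)}
  {J : Matrix (Fin n) (Fin n) ℂ} {Bc : X → Z → ℝ} {Kc : X → X → ℝ} {C : ℝ}
  {E : C(X, ℂ) →ₗ[ℂ] (K →L[ℂ] K)} {F : C(Z, ℂ) →ₗ[ℂ] (K →L[ℂ] K)} {p q : ℝ}

/-- order of an element of the ring of two letters, generic cells -/
def OrG (Q : C(X, Matrix (Fin n) (Fin n) ℂ)) (P : C(Z, Matrix (Fin n) (Fin n) ℂ))
    (Bc : X → Z → ℝ) (Kc : X → X → ℝ) (C : ℝ) (e : ℕ) (t : R2 X Z) : Prop :=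
  Gn.Ord Q P Bc Kc C e (fun x z => evr (x, z) t)

theorem OrG.mul {e e' : ℕ} {s t : R2 X Z} (hs : OrG Q P Bc Kc C e s) (ht : OrG Q P Bc Kc C e' t) :
    OrG Q P Bc Kc C (e + e') (s * t) :=
  (Gn.Ord.mul hs ht).congr fun x z => map_mul _ _ _

theorem OrG.add {e : ℕ} {s t : R2 X Z} (hs : OrG Q P Bc Kc C e s) (ht : OrG Q P Bc Kc C e t) :
    OrG Q P Bc Kc C e (s + t) :=
  (Gn.Ord.add hs ht).congr fun x z => map_add _ _ _

theorem OrG.nil {e : ℕ} : OrG Q P Bc Kc C e (0 : R2 X Z) :=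
  Gn.Ord.zero.congr fun x z => map_zero _

theorem OrG.zero (s : R2 X Z) : OrG Q P Bc Kc C 0 s := by
  refine zx_ind (p := fun s => OrG Q P Bc Kc C 0 s) s OrG.nil (fun u w => ?_)
    (fun s t hs ht => hs.add ht)
  have h := (Gn.ord_x (Q := Q) (P := P) (Bc := Bc) (Kc := Kc) (C := C) u).mul (Gn.ord_z w)
  rw [add_zero] at h
  exact h.congr fun x z => evr_zx (x, z) u w

/-- the ideal of the elements of order `e` -/
def OI (Q : C(X, Matrix (Fin n) (Fin n) ℂ)) (P : C(Z, Matrix (Fin n) (Fin n) ℂ))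
    (Bc : X → Z → ℝ) (Kc : X → X → ℝ) (C : ℝ) (e : ℕ) : Ideal (R2 X Z) where
  carrier := {t | OrG Q P Bc Kc C e t}
  zero_mem' := OrG.nil
  add_mem' := fun ha hb => OrG.add ha hb
  smul_mem' := fun c t ht => by
    have h := (OrG.zero (Q := Q) (P := P) (Bc := Bc) (Kc := Kc) (C := C) c).mul ht
    rwa [zero_add] at h

theorem mem_OI {e : ℕ} {t : R2 X Z} : t ∈ OI Q P Bc Kc C e ↔ OrG Q P Bc Kc C e t := Iff.rfl

/-- the partition of unity of a cell system -/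
def puOf {N : ℕ} (D : Gn.CG Q P Bc Kc C N) : PU X := ⟨D.ι, D.s, D.φ, D.φs⟩

/-- the near part for one product -/
theorem near2 (hp : 0 ≤ p) (hq : 0 ≤ q) (hE : UL E p) (hF : UL F q) (hC : 0 ≤ C)
    (hI : ∀ (f : C(X, ℂ)) (g : C(Z, ℂ)),
      (∀ x ∈ tsupport f, ∀ z ∈ tsupport g, P z * Q x ≠ Q x) → E f * F g = 0)
    {t t' : R2 X Z} (ht : OrG Q P Bc Kc C 1 t) (ht' : OrG Q P Bc Kc C 1 t') (f f' : C(X, ℂ)) :
    ∃ C' : ℝ, 0 ≤ C' ∧ ∀ N : ℕ, 1 ≤ N → ∀ D : Gn.CG Q P Bc Kc C N, ∀ δ : ℝ, 1 / (N : ℝ) ≤ δ →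
      δ ≤ 1 → ∀ (R : D.ι → D.ι → Prop) [DecidableRel R],
      (∀ α β, R α β → ∀ i j, ‖Q (D.xa β) i j - Q (D.xa α) i j‖ ≤ δ) → ∀ ζ : K,
      ‖∑ α ∈ D.s, ∑ β ∈ D.s, if R α β then
        ⟪ζ, (Bb E F (iL t * iR t') (cx (D.φ α) * f) (cx (D.φ β) * f')) ζ⟫_ℂ else 0‖ ≤
        C' * δ ^ 2 * ‖ζ‖ ^ 2 := by
  obtain ⟨m, u, w, rfl⟩ := ex_sum t
  obtain ⟨m', u', w', rfl⟩ := ex_sum t'
  obtain ⟨C', h0, h⟩ := Gn.near hp hq hE hF hC hI ht ht' f f' u w u' w'
    (fun x z => by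
      rw [map_sum]
      exact Finset.sum_congr rfl fun r _ => (evr_zx (x, z) (u r) (w r)).symm)
    (fun x z => by
      rw [map_sum]
      exact Finset.sum_congr rfl fun r _ => (evr_zx (x, z) (u' r) (w' r)).symm)
  refine ⟨C', h0, fun N hN D δ hδ1 hδ2 R _ hR ζ => ?_⟩
  refine le_trans (le_of_eq ?_) (h N hN D δ hδ1 hδ2 R hR ζ)
  congr 1
  refine Finset.sum_congr rfl fun α _ => Finset.sum_congr rfl fun β _ => ?_
  by_cases hab : R α β
  · rw [if_pos hab, if_pos hab, Bb_apply, T3_LR, _root_.sum_apply, inner_sum]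
    refine Finset.sum_congr rfl fun r _ => ?_
    rw [_root_.sum_apply, inner_sum]
    refine Finset.sum_congr rfl fun s _ => ?_
    rw [mul_assoc (cx (D.φ α)) f, mul_assoc (cx (D.φ β)) f']
  · rw [if_neg hab, if_neg hab]

/-- neighbouring cells are close -/
theorem close {N : ℕ} (hC : 0 ≤ C) (hN : 1 ≤ N) (D : Gn.CG Q P Bc Kc C N) {α β : D.ι}
    (hα : α ∈ D.s) (hβ : β ∈ D.s) (hab : ¬ Disjoint (tsupport (D.φ α)) (tsupport (D.φ β)))
    (i j : Fin n) : ‖Q (D.xa β) i j - Q (D.xa α) i j‖ ≤ (2 * C + 1) / N := by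
  have hNpos : (0 : ℝ) < N := by exact_mod_cast hN
  obtain ⟨x, hx1, hx2⟩ := Set.not_disjoint_iff.1 hab
  have hcl : ∀ γ ∈ D.s, ∀ x ∈ tsupport (D.φ γ), ‖Q x i j - Q (D.xa γ) i j‖ ≤ C / N := by
    intro γ hγ x hx
    have h1 : IsClosed {x : X | ‖Q x i j - Q (D.xa γ) i j‖ ≤ C / N} := by
      have h2 : Continuous fun x => Q x i j := (en Q i j).continuous
      exact isClosed_le ((h2.sub continuous_const).norm) continuous_const
    exact closure_minimal (fun y hy => D.cl γ hγ y hy i j) h1 hx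
  have h1 := hcl α hα x hx1
  have h2 := hcl β hβ x hx2
  calc ‖Q (D.xa β) i j - Q (D.xa α) i j‖
      = ‖(Q x i j - Q (D.xa α) i j) - (Q x i j - Q (D.xa β) i j)‖ := by
        congr 1; ring
    _ ≤ ‖Q x i j - Q (D.xa α) i j‖ + ‖Q x i j - Q (D.xa β) i j‖ := norm_sub_le _ _
    _ ≤ C / N + C / N := add_le_add h1 h2
    _ ≤ (2 * C + 1) / N := by
        rw [← add_div]
        exact div_le_div_of_nonneg_right (by linarith) hNpos.le

/-- **from the cells to `NearK`** -/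
theorem nearK_of (hp : 0 ≤ p) (hq : 0 ≤ q) (hE : UL E p) (hF : UL F q) (hC : 0 ≤ C)
    (hI : ∀ (f : C(X, ℂ)) (g : C(Z, ℂ)),
      (∀ x ∈ tsupport f, ∀ z ∈ tsupport g, P z * Q x ≠ Q x) → E f * F g = 0)
    {N₀ : ℕ} (Dc : ∀ N, N₀ ≤ N → Gn.CG Q P Bc Kc C N)
    {t t' : R2 X Z} (ht : OrG Q P Bc Kc C 1 t) (ht' : OrG Q P Bc Kc C 1 t') :
    NearK E F (fun N => puOf (Dc (max N N₀) (le_max_right _ _))) t t' := by
  classical
  intro f f' ζ
  obtain ⟨C', hC0, hC'⟩ := near2 hp hq hE hF hC hI ht ht' f f'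
  set A : ℝ := 2 * C + 1 with hA
  have hA0 : 0 < A := by linarith
  have key : ∀ N : ℕ, max N₀ (⌈A⌉₊ + 1) ≤ N →
      ‖nearS E F (puOf (Dc (max N N₀) (le_max_right _ _))) (iL t * iR t') f f' ζ‖ ≤
      C' * (A / N) ^ 2 * ‖ζ‖ ^ 2 := by
    intro N hN
    have hN0 : N₀ ≤ N := (le_max_left _ _).trans hN
    have hN2 : ⌈A⌉₊ + 1 ≤ N := (le_max_right _ _).trans hN
    have hN1 : 1 ≤ N := le_trans (by omega) hN2
    have hNpos : (0 : ℝ) < N := by exact_mod_cast hN1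
    have hAN : A ≤ N := by
      have h1 : (⌈A⌉₊ : ℝ) + 1 ≤ N := by exact_mod_cast hN2
      have h2 := Nat.le_ceil A
      linarith
    have hM : max N N₀ = N := max_eq_left hN0
    have hgen : ∀ M : ℕ, M = N → ∀ D : Gn.CG Q P Bc Kc C M,
        ‖nearS E F (puOf D) (iL t * iR t') f f' ζ‖ ≤ C' * (A / N) ^ 2 * ‖ζ‖ ^ 2 := by
      rintro M rfl D
      let R : D.ι → D.ι → Prop := fun α β => α ∈ D.s ∧ β ∈ D.s ∧
        ¬ Disjoint (tsupport (D.φ α)) (tsupport (D.φ β))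
      have h1 := hC' M hN1 D (A / M) (div_le_div_of_nonneg_right (by linarith) hNpos.le)
        (by rw [div_le_one hNpos]; exact hAN) R
        (fun α β h i j => close hC hN1 D h.1 h.2.1 h.2.2 i j) ζ
      refine le_trans (le_of_eq ?_) h1
      congr 1
      refine Finset.sum_congr rfl fun α hα => Finset.sum_congr rfl fun β hβ => ?_
      by_cases hab : Disjoint (tsupport (D.φ α)) (tsupport (D.φ β))
      · have h2 : ¬ R α β := fun h => h.2.2 hab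
        rw [if_neg h2]
        exact if_pos hab
      · have h2 : R α β := ⟨hα, hβ, hab⟩
        rw [if_pos h2]
        exact if_neg hab
    exact hgen _ hM _
  have hlim : Tendsto (fun N : ℕ => C' * (A / (N : ℝ)) ^ 2 * ‖ζ‖ ^ 2) atTop (𝓝 0) := by
    have h1 := (((tendsto_const_div_atTop_nhds_zero_nat A).pow 2).const_mul C').mul_const
      (‖ζ‖ ^ 2)
    simpa using h1
  refine squeeze_zero_norm' ?_ hlim
  filter_upwards [eventually_ge_atTop (max N₀ (⌈A⌉₊ + 1))] with N hN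
  exact key N hN

theorem T2_zero (hp : 0 ≤ p) (hq : 0 ≤ q) (hE : UL E p) (hF : UL F q) (hC : 0 ≤ C)
    (hcell : ∃ N₀ : ℕ, ∀ N : ℕ, N₀ ≤ N → Nonempty (Gn.CG Q P Bc Kc C N))
    (hI : ∀ (f : C(X, ℂ)) (g : C(Z, ℂ)),
      (∀ x ∈ tsupport f, ∀ z ∈ tsupport g, P z * Q x ≠ Q x) → E f * F g = 0)
    {t : R2 X Z} (ht : OrG Q P Bc Kc C 2 t) : T2 E F t = 0 := by
  obtain ⟨m, u, w, rfl⟩ := ex_sum t
  rw [map_sum]
  have h := Gn.Ord.kill hp hq hE hF hC hcell hI ht u w (fun x z => by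
    rw [map_sum]
    exact Finset.sum_congr rfl fun r _ => (evr_zx (x, z) (u r) (w r)).symm)
  exact h

theorem OI_kl (hp : 0 ≤ p) (hq : 0 ≤ q) (hE : UL E p) (hF : UL F q) (hC : 0 ≤ C)
    (hcell : ∃ N₀ : ℕ, ∀ N : ℕ, N₀ ≤ N → Nonempty (Gn.CG Q P Bc Kc C N))
    (hI : ∀ (f : C(X, ℂ)) (g : C(Z, ℂ)),
      (∀ x ∈ tsupport f, ∀ z ∈ tsupport g, P z * Q x ≠ Q x) → E f * F g = 0) :
    OI Q P Bc Kc C 2 ≤ Kl2 E F := by
  intro t ht
  rw [mem_Kl2]
  intro s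
  exact T2_zero hp hq hE hF hC hcell hI ((OI Q P Bc Kc C 2).mul_mem_left s ht)

theorem OI_klr (hp : 0 ≤ p) (hq : 0 ≤ q) (hE : UL E p) (hF : UL F q) (hC : 0 ≤ C)
    (hcell : ∃ N₀ : ℕ, ∀ N : ℕ, N₀ ≤ N → Nonempty (Gn.CG Q P Bc Kc C N))
    (hI : ∀ (f : C(X, ℂ)) (g : C(Z, ℂ)),
      (∀ x ∈ tsupport f, ∀ z ∈ tsupport g, P z * Q x ≠ Q x) → E f * F g = 0) :
    OI Q P Bc Kc C 2 ≤ Kl2r E F := by
  intro t ht
  obtain ⟨s, hs, -⟩ := ex_conj hE hF t
  refine kl2r_of hE hF (t := s) (fun y => by rw [hs y, star_star]) ?_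
  refine OI_kl hp hq hE hF hC hcell hI ?_
  exact (Gn.Ord.conj ht).congr fun x z => hs (x, z)

end gn

section main

variable {X Z : Type*} [TopologicalSpace X] [CompactSpace X] [T2Space X]
  [TopologicalSpace Z] [CompactSpace Z] [T2Space Z] {n : ℕ}
  {Q : C(X, Matrix (Fin n) (Fin n) ℂ)} {P : C(Z, Matrix (Fin n) (Fin n) ℂ)}
  {J : Matrix (Fin n) (Fin n) ℂ} {c : ℂ}

/-- **the relations of an incident pair of letters, hermitian form of Witt index two over `ℂ`** -/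
theorem relH (hS : Shape Q P J c) (hG : H616.Cx.Geo Q P) : RelHStmt Q P J := by
  intro K _ _ _ E F hE hF hI hO
  obtain ⟨v, hv, hvi, hvQ, C, hC, N₀, hcell⟩ := H398.SU.cells_shape hS
  have hcell' : ∃ N₀ : ℕ, ∀ N : ℕ, N₀ ≤ N →
      Nonempty (Gn.CG Q P (Gn.Bh v P J) (Gn.Kh v J) C N) := ⟨N₀, hcell⟩
  let Dc : ∀ N, N₀ ≤ N → Gn.CG Q P (Gn.Bh v P J) (Gn.Kh v J) C N :=
    fun N h => Classical.choice (hcell N h)
  have hF1 : F 1 = 1 := by
    have h := hF.one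
    simpa using h
  have hQJQ : ∀ x, Q x * J * Q x = 0 := fun x => (hS.pH x).iso
  have hPJP : ∀ z, P z * J * P z = 0 := fun z => (hS.lH z).iso
  have S : StdH Q P J E F 1 1 c (fun N => puOf (Dc (max N N₀) (le_max_right _ _)))
      (OI Q P (Gn.Bh v P J) (Gn.Kh v J) C 1) (OI Q P (Gn.Bh v P J) (Gn.Kh v J) C 2) :=
    { hq := zero_le_one
      hE := hE
      hF := hF
      hJ := hS.herm
      hJ2 := hS.sq
      hPt := hS.pH
      hLg := hS.lH
      hQh := hS.Xh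
      hPh := hS.Ph
      hnu := hS.nu
      hc := by
        rcases hS.c0 with h | h <;> rw [h] <;> simp
      ht := fun x x' h => H100.SU.tr_neG hG h
      mul := fun s hs t ht => OrG.mul hs ht
      kl := OI_kl zero_le_one zero_le_one hE hF hC.le hcell' hI
      klr := OI_klr zero_le_one zero_le_one hE hF hC.le hcell' hI
      near := fun s hs t ht => nearK_of zero_le_one zero_le_one hE hF hC.le hI Dc hs ht
      oa := fun i j => (Gn.ord_n hC.le i j).congr fun x z => by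
        rw [evr_mat, Matrix.map_mul, map_one_sub, p2_ev, q2_ev]
      ob := fun i j => (Gn.ord_n' hC.le hS.Xh hS.Ph i j).congr fun x z => by
        rw [evr_mat, Matrix.map_mul, map_one_sub, p2_ev, q2_ev]
      oc := fun i j => (Gn.ord_kh hv hvQ hC.le hS.herm hS.Ph hQJQ hPJP i j).congr fun x z => by
        rw [evr_mat, Matrix.map_mul, Matrix.map_mul, Matrix.map_mul, p2_ev, q2_ev, J2_ev]
      oc' := fun i j => (Gn.ord_kh' hv hvQ hC.le hS.herm hS.Ph hQJQ hPJP i j).congr fun x z => by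
        rw [evr_mat, Matrix.map_mul, Matrix.map_mul, Matrix.map_mul, p2_ev, q2_ev, J2_ev] }
  have R := S.rels (fun f g hd => H100.SU.far1 hG.injX hO hF1 f g hd)
    (fun f g hd => H100.SU.far1' hG.injX hO hF1 hS.herm hS.Xh f g hd)
    (fun f g hd => H100.SU.far2 hG.injX hO hF1 f g hd)
    (fun f g hd => H100.SU.far2' hG.injX hO hF1 hS.herm hS.Xh f g hd)
  exact H616.Cx.Rel.mk' hG hE.star hF.star (fun a b i j => (R a b i j).1)
    (fun a b i j => (R a b i j).2)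

end main

end Vale.Agent.P092.H378.D
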