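import Vale.Agent.P092.H378.C2
import Vale.Agent.P092.H283.Car4

/-!
# P092, Track C, operator side, part 3: two and three letters as commutative rings
-/

set_option linter.unusedSectionVars false
set_option linter.unusedVariables false

namespace Vale.Agent.P092.H378.C

open Finset Matrix TensorProduct
open Vale.Agent.P092.H828.P (UL)

section map

variable {R S : Type*} [CommRing R] [CommRing S] {n : Type*} [Fintype n] [DecidableEq n]
  (f : R →+* S) {J p q : Matrix n n R}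

theorem map_one_sub (q : Matrix n n R) : (1 - q).map f = 1 - q.map f := by
  rw [Matrix.map_sub f (fun a b => map_sub f a b), Matrix.map_one f (map_zero f) (map_one f)]

theorem map_trace (q : Matrix n n R) : (q.map f).trace = f q.trace := by
  simp [trace, map_sum]

theorem Sy.map (h : Sy J) : Sy (J.map f) where
  anti := by
    rw [← transpose_map, h.anti]
    ext i j
    simp
  sq := by
    rw [← Matrix.map_mul, h.sq]
    ext i j
    simp [Matrix.one_apply, apply_ite f]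

theorem PtR.map (h : PtR J p) : PtR (J.map f) (p.map f) where
  idem := by rw [← Matrix.map_mul, h.idem]
  rk1 := fun i j k l => by
    simp only [Matrix.map_apply, ← map_mul, h.rk1 i j k l]
  tr := by rw [map_trace, h.tr, map_one]
  sy := by
    rw [← transpose_map, ← Matrix.map_mul, ← Matrix.map_mul, h.sy]
    ext i j
    simp
  sy' := by
    rw [← transpose_map, ← Matrix.map_mul, ← Matrix.map_mul, h.sy']
    ext i j
    simp

theorem LgR.map (h : LgR J q) : LgR (J.map f) (q.map f) where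
  idem := by rw [← Matrix.map_mul, h.idem]
  tr := by rw [map_trace, h.tr, map_ofNat]
  lag := by
    rw [← transpose_map, ← Matrix.map_mul, h.lag, Matrix.map_mul, map_one_sub]
  minor := fun i c d a b j => by
    simp only [Matrix.map_apply, ← map_mul, ← map_sub, ← map_add, h.minor i c d a b j, map_zero]

theorem rr_map : rr (J.map f) (p.map f) = (rr J p).map f := by
  simp only [rr, Matrix.map_mul, transpose_map]

theorem hh_map : hh (J.map f) (p.map f) (q.map f) = (hh J p q).map f := by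
  simp only [hh, rr_map, Matrix.map_mul, map_one_sub, Matrix.map_add f (fun a b => map_add f a b)]

theorem hs_map : hs (J.map f) (p.map f) (q.map f) = (hs J p q).map f := by
  simp only [hs, rr_map, Matrix.map_mul, map_one_sub, Matrix.map_add f (fun a b => map_add f a b)]

theorem e2_map (p' : Matrix n n R) :
    e2 (J.map f) (p.map f) (q.map f) (p'.map f) = f (e2 J p q p') := by
  simp only [e2, hh_map, hs_map, ← Matrix.map_mul, map_trace]

theorem om2_map (p' : Matrix n n R) : om2 (J.map f) (p.map f) (p'.map f) = f (om2 J p p') := by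
  simp only [om2, ← transpose_map, ← Matrix.map_mul, map_trace]

end map

section letters

variable (X Z : Type*) [TopologicalSpace X] [CompactSpace X] [TopologicalSpace Z] [CompactSpace Z]

/-- two letters -/
def R2 (X Z : Type*) [TopologicalSpace X] [TopologicalSpace Z] := C(X, ℂ) ⊗[ℂ] C(Z, ℂ)

noncomputable instance : CommRing (R2 X Z) := inferInstanceAs (CommRing (C(X, ℂ) ⊗[ℂ] C(Z, ℂ)))

noncomputable instance : Algebra ℂ (R2 X Z) :=
  inferInstanceAs (Algebra ℂ (C(X, ℂ) ⊗[ℂ] C(Z, ℂ)))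

/-- three letters -/
def R3 (X Z : Type*) [TopologicalSpace X] [TopologicalSpace Z] := C(X, ℂ) ⊗[ℂ] (R2 X Z)

noncomputable instance : CommRing (R3 X Z) := inferInstanceAs (CommRing (C(X, ℂ) ⊗[ℂ] (R2 X Z)))

noncomputable instance : Algebra ℂ (R3 X Z) :=
  inferInstanceAs (Algebra ℂ (C(X, ℂ) ⊗[ℂ] (R2 X Z)))

variable {X Z} {K : Type*} [NormedAddCommGroup K] [InnerProductSpace ℂ K] [CompleteSpace K]

/-- pure tensors of two letters -/
noncomputable def zx (u : C(X, ℂ)) (v : C(Z, ℂ)) : R2 X Z := (u ⊗ₜ[ℂ] v : C(X, ℂ) ⊗[ℂ] C(Z, ℂ))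

/-- pure tensors of three letters: first letter `a`, last letter `c`, middle letter `b` -/
noncomputable def xzx (a : C(X, ℂ)) (b : C(Z, ℂ)) (c : C(X, ℂ)) : R3 X Z :=
  (a ⊗ₜ[ℂ] zx c b : C(X, ℂ) ⊗[ℂ] (R2 X Z))

theorem zx_mul (u u' : C(X, ℂ)) (v v' : C(Z, ℂ)) : zx u v * zx u' v' = zx (u * u') (v * v') :=
  Algebra.TensorProduct.tmul_mul_tmul u u' v v'

theorem xzx_mul (a a' : C(X, ℂ)) (b b' : C(Z, ℂ)) (c c' : C(X, ℂ)) :
    xzx a b c * xzx a' b' c' = xzx (a * a') (b * b') (c * c') := by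
  rw [xzx, xzx, xzx, ← zx_mul]
  exact Algebra.TensorProduct.tmul_mul_tmul a a' (zx c b) (zx c' b')

theorem zx_one : (zx 1 1 : R2 X Z) = 1 := rfl

theorem zx_ind {p : R2 X Z → Prop} (t : R2 X Z) (h0 : p 0) (h1 : ∀ v w, p (zx v w))
    (h2 : ∀ s t, p s → p t → p (s + t)) : p t :=
  TensorProduct.induction_on (motive := p) t h0 h1 h2

theorem xzx_ind {p : R3 X Z → Prop} (t : R3 X Z) (h0 : p 0) (h1 : ∀ a b c, p (xzx a b c))
    (h2 : ∀ s t, p s → p t → p (s + t)) : p t := by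
  refine TensorProduct.induction_on (motive := p) t h0 (fun a bc => ?_) h2
  refine zx_ind (p := fun bc => p (a ⊗ₜ[ℂ] bc : C(X, ℂ) ⊗[ℂ] (R2 X Z))) bc ?_ ?_ ?_
  · have : (a ⊗ₜ[ℂ] (0 : R2 X Z) : C(X, ℂ) ⊗[ℂ] (R2 X Z)) = 0 := TensorProduct.tmul_zero _ _
    rw [this]; exact h0
  · intro c b
    exact h1 a b c
  · intro s t hs ht
    have : (a ⊗ₜ[ℂ] (s + t) : C(X, ℂ) ⊗[ℂ] (R2 X Z)) = a ⊗ₜ[ℂ] s + a ⊗ₜ[ℂ] t :=
      TensorProduct.tmul_add _ _ _
    rw [this]; exact h2 _ _ hs ht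

/-- evaluation of two letters -/
noncomputable def ev2 : R2 X Z →ₐ[ℂ] (X × Z → ℂ) :=
  (Algebra.TensorProduct.productMap
    (A := C(X, ℂ)) (B := C(Z, ℂ)) (S := X × Z → ℂ)
    { toFun := fun u y => u y.1
      map_one' := rfl
      map_mul' := fun _ _ => rfl
      map_zero' := rfl
      map_add' := fun _ _ => rfl
      commutes' := fun _ => rfl }
    { toFun := fun v y => v y.2
      map_one' := rfl
      map_mul' := fun _ _ => rfl
      map_zero' := rfl
      map_add' := fun _ _ => rfl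
      commutes' := fun _ => rfl } : C(X, ℂ) ⊗[ℂ] C(Z, ℂ) →ₐ[ℂ] (X × Z → ℂ))

theorem ev2_zx (u : C(X, ℂ)) (v : C(Z, ℂ)) (y : X × Z) : ev2 (zx u v) y = u y.1 * v y.2 := by
  have h := Algebra.TensorProduct.productMap_apply_tmul (R := ℂ)
    (A := C(X, ℂ)) (B := C(Z, ℂ)) (S := X × Z → ℂ)
    { toFun := fun u y => u y.1
      map_one' := rfl
      map_mul' := fun _ _ => rfl
      map_zero' := rfl
      map_add' := fun _ _ => rfl
      commutes' := fun _ => rfl }
    { toFun := fun v y => v y.2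
      map_one' := rfl
      map_mul' := fun _ _ => rfl
      map_zero' := rfl
      map_add' := fun _ _ => rfl
      commutes' := fun _ => rfl } u v
  exact congrFun h y

/-- first letter of two -/
noncomputable def jX : C(X, ℂ) →ₐ[ℂ] R2 X Z :=
  (Algebra.TensorProduct.includeLeft : C(X, ℂ) →ₐ[ℂ] C(X, ℂ) ⊗[ℂ] C(Z, ℂ))

/-- second letter of two -/
noncomputable def jZ : C(Z, ℂ) →ₐ[ℂ] R2 X Z :=
  (Algebra.TensorProduct.includeRight : C(Z, ℂ) →ₐ[ℂ] C(X, ℂ) ⊗[ℂ] C(Z, ℂ))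

/-- the last two letters -/
noncomputable def iR : R2 X Z →ₐ[ℂ] R3 X Z :=
  (Algebra.TensorProduct.includeRight : R2 X Z →ₐ[ℂ] C(X, ℂ) ⊗[ℂ] (R2 X Z))

/-- first letter of three -/
noncomputable def iX : C(X, ℂ) →ₐ[ℂ] R3 X Z :=
  (Algebra.TensorProduct.includeLeft : C(X, ℂ) →ₐ[ℂ] C(X, ℂ) ⊗[ℂ] (R2 X Z))

/-- last letter of three -/
noncomputable def iY : C(X, ℂ) →ₐ[ℂ] R3 X Z := iR.comp jX

/-- middle letter of three -/
noncomputable def iZ : C(Z, ℂ) →ₐ[ℂ] R3 X Z := iR.comp jZ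

/-- the first and the middle letter -/
noncomputable def iL : R2 X Z →ₐ[ℂ] R3 X Z :=
  (Algebra.TensorProduct.productMap (iX : C(X, ℂ) →ₐ[ℂ] R3 X Z) (iZ : C(Z, ℂ) →ₐ[ℂ] R3 X Z) :
    C(X, ℂ) ⊗[ℂ] C(Z, ℂ) →ₐ[ℂ] R3 X Z)

theorem jX_apply (u : C(X, ℂ)) : (jX u : R2 X Z) = zx u 1 := rfl

theorem jZ_apply (v : C(Z, ℂ)) : (jZ v : R2 X Z) = zx 1 v := rfl

theorem iX_apply (u : C(X, ℂ)) : (iX u : R3 X Z) = xzx u 1 1 := rfl

theorem iY_apply (u : C(X, ℂ)) : (iY u : R3 X Z) = xzx 1 1 u := rfl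

theorem iZ_apply (v : C(Z, ℂ)) : (iZ v : R3 X Z) = xzx 1 v 1 := rfl

theorem iR_zx (u : C(X, ℂ)) (v : C(Z, ℂ)) : (iR (zx u v) : R3 X Z) = xzx 1 v u := rfl

theorem iL_zx (u : C(X, ℂ)) (v : C(Z, ℂ)) : (iL (zx u v) : R3 X Z) = xzx u v 1 := by
  have h : (iL (zx u v) : R3 X Z) = iX u * iZ v :=
    Algebra.TensorProduct.productMap_apply_tmul (iX : C(X, ℂ) →ₐ[ℂ] R3 X Z)
      (iZ : C(Z, ℂ) →ₐ[ℂ] R3 X Z) u v
  rw [h, iX_apply, iZ_apply, xzx_mul, mul_one, one_mul, mul_one]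

theorem iL_jX (u : C(X, ℂ)) : (iL (jX u) : R3 X Z) = iX u := by rw [jX_apply, iL_zx, iX_apply]

theorem iL_jZ (v : C(Z, ℂ)) : (iL (jZ v) : R3 X Z) = iZ v := by rw [jZ_apply, iL_zx, iZ_apply]

theorem iR_jX (u : C(X, ℂ)) : (iR (jX u) : R3 X Z) = iY u := rfl

theorem iR_jZ (v : C(Z, ℂ)) : (iR (jZ v) : R3 X Z) = iZ v := rfl

variable (E : C(X, ℂ) →ₗ[ℂ] (K →L[ℂ] K)) (F : C(Z, ℂ) →ₗ[ℂ] (K →L[ℂ] K))

/-- `E F` -/
noncomputable def T2 : R2 X Z →ₗ[ℂ] (K →L[ℂ] K) where
  toFun := fun t => TensorProduct.lift (H283.Car.bil E F) t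
  map_add' := fun s t => map_add (TensorProduct.lift (H283.Car.bil E F)) s t
  map_smul' := fun c t => map_smul (TensorProduct.lift (H283.Car.bil E F)) c t

/-- `F E` -/
noncomputable def T2r : R2 X Z →ₗ[ℂ] (K →L[ℂ] K) where
  toFun := fun t => TensorProduct.lift (H283.Car.bil F E).flip t
  map_add' := fun s t => map_add (TensorProduct.lift (H283.Car.bil F E).flip) s t
  map_smul' := fun c t => map_smul (TensorProduct.lift (H283.Car.bil F E).flip) c t

theorem T2_zx (u : C(X, ℂ)) (v : C(Z, ℂ)) : T2 E F (zx u v) = E u * F v := rfl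

theorem T2r_zx (u : C(X, ℂ)) (v : C(Z, ℂ)) : T2r E F (zx u v) = F v * E u := rfl

/-- the bilinear map below `T3` -/
noncomputable def bil3 : C(X, ℂ) →ₗ[ℂ] R2 X Z →ₗ[ℂ] (K →L[ℂ] K) :=
  LinearMap.mk₂ ℂ
    (fun (u : C(X, ℂ)) (t : R2 X Z) => E u * T2r E F t)
    (fun f f' g => by rw [map_add, add_mul])
    (fun c f g => by rw [map_smul, smul_mul_assoc])
    (fun f g g' => by rw [map_add, mul_add])
    (fun c f g => by rw [map_smul, mul_smul_comm])

/-- `E F E` -/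
noncomputable def T3 : R3 X Z →ₗ[ℂ] (K →L[ℂ] K) where
  toFun := fun t => TensorProduct.lift (bil3 E F) t
  map_add' := fun s t => map_add (TensorProduct.lift (bil3 E F)) s t
  map_smul' := fun c t => map_smul (TensorProduct.lift (bil3 E F)) c t

theorem T3_xzx (a : C(X, ℂ)) (b : C(Z, ℂ)) (c : C(X, ℂ)) :
    T3 E F (xzx a b c) = E a * (F b * E c) := rfl

theorem T3_iL (a : C(X, ℂ)) (b : C(Z, ℂ)) (c : C(X, ℂ)) (t : R2 X Z) :
    T3 E F (xzx a b c * iL t) = T2 E F (zx a b * t) * E c := by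
  refine zx_ind (p := fun t => T3 E F (xzx a b c * iL t) = T2 E F (zx a b * t) * E c) t ?_ ?_ ?_
  · rw [map_zero, mul_zero, mul_zero, map_zero, map_zero, zero_mul]
  · intro u v
    rw [iL_zx, xzx_mul, zx_mul, T3_xzx, T2_zx, mul_one, mul_assoc]
  · intro s t hs ht
    rw [map_add, mul_add, mul_add, map_add, map_add, hs, ht, add_mul]

theorem T3_iR (a : C(X, ℂ)) (b : C(Z, ℂ)) (c : C(X, ℂ)) (t : R2 X Z) :
    T3 E F (xzx a b c * iR t) = E a * T2r E F (zx c b * t) := by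
  refine zx_ind (p := fun t => T3 E F (xzx a b c * iR t) = E a * T2r E F (zx c b * t)) t ?_ ?_ ?_
  · rw [map_zero, mul_zero, mul_zero, map_zero, map_zero, mul_zero]
  · intro u v
    rw [iR_zx, xzx_mul, zx_mul, T3_xzx, T2r_zx, mul_one]
  · intro s t hs ht
    rw [map_add, mul_add, mul_add, map_add, map_add, hs, ht, mul_add]

/-- the killed ideal of two letters -/
def Kl2 : Ideal (R2 X Z) where
  carrier := {t | ∀ s, T2 E F (s * t) = 0}
  zero_mem' := fun s => by rw [mul_zero, map_zero]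
  add_mem' := fun ha hb s => by rw [mul_add, map_add, ha s, hb s, add_zero]
  smul_mem' := fun c t ht s => by rw [smul_eq_mul, ← mul_assoc]; exact ht _

/-- the killed ideal of two letters, reversed order -/
def Kl2r : Ideal (R2 X Z) where
  carrier := {t | ∀ s, T2r E F (s * t) = 0}
  zero_mem' := fun s => by rw [mul_zero, map_zero]
  add_mem' := fun ha hb s => by rw [mul_add, map_add, ha s, hb s, add_zero]
  smul_mem' := fun c t ht s => by rw [smul_eq_mul, ← mul_assoc]; exact ht _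

/-- the killed ideal of three letters -/
def Kl3 : Ideal (R3 X Z) where
  carrier := {t | ∀ s, T3 E F (s * t) = 0}
  zero_mem' := fun s => by rw [mul_zero, map_zero]
  add_mem' := fun ha hb s => by rw [mul_add, map_add, ha s, hb s, add_zero]
  smul_mem' := fun c t ht s => by rw [smul_eq_mul, ← mul_assoc]; exact ht _

variable {E F}

theorem mem_Kl2 {t : R2 X Z} : t ∈ Kl2 E F ↔ ∀ s, T2 E F (s * t) = 0 := Iff.rfl

theorem mem_Kl2r {t : R2 X Z} : t ∈ Kl2r E F ↔ ∀ s, T2r E F (s * t) = 0 := Iff.rfl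

theorem mem_Kl3 {t : R3 X Z} : t ∈ Kl3 E F ↔ ∀ s, T3 E F (s * t) = 0 := Iff.rfl

theorem mem_Kl3_of {t : R3 X Z} (h : ∀ a b c, T3 E F (xzx a b c * t) = 0) :
    t ∈ Kl3 E F := by
  rw [mem_Kl3]
  intro s
  refine xzx_ind (p := fun s => T3 E F (s * t) = 0) s ?_ h ?_
  · rw [zero_mul, map_zero]
  · intro s s' hs ht
    rw [add_mul, map_add, hs, ht, add_zero]

theorem iL_mem {t : R2 X Z} (h : t ∈ Kl2 E F) : iL t ∈ Kl3 E F :=
  mem_Kl3_of fun a b c => by rw [T3_iL, h, zero_mul]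

theorem iR_mem {t : R2 X Z} (h : t ∈ Kl2r E F) : iR t ∈ Kl3 E F :=
  mem_Kl3_of fun a b c => by rw [T3_iR, h, mul_zero]

/-- every element of the ring of two letters is a finite sum -/
theorem ex_sum (t : R2 X Z) : ∃ (m : ℕ) (u : Fin m → C(X, ℂ)) (w : Fin m → C(Z, ℂ)),
    t = ∑ r, zx (u r) (w r) := by
  refine zx_ind (p := fun t => ∃ (m : ℕ) (u : Fin m → C(X, ℂ)) (w : Fin m → C(Z, ℂ)),
    t = ∑ r, zx (u r) (w r)) t ?_ ?_ ?_
  · exact ⟨0, Fin.elim0, Fin.elim0, by simp⟩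
  · intro u v
    exact ⟨1, fun _ => u, fun _ => v, by simp⟩
  · rintro s t ⟨m, u, w, rfl⟩ ⟨m', u', w', rfl⟩
    refine ⟨m + m', Fin.addCases u u', Fin.addCases w w', ?_⟩
    rw [Fin.sum_univ_add]
    simp

end letters

end Vale.Agent.P092.H378.C
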