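import Vale.Agent.P092.H378.C3

/-!
# P092, Track C, operator side, part 4: the killed ideals contain what has order two
-/

set_option linter.unusedSectionVars false
set_option linter.unusedVariables false

namespace Vale.Agent.P092.H378.C

open Finset Matrix
open Vale.Agent.P092.H828.P (UL)
open Vale.Agent.P092.H283.Car (CD Ord en en_apply ord_x ord_z ord_n ord_k ord_k' self_zero)

section mf

variable {X : Type*} [TopologicalSpace X] {n : ℕ}

/-- the matrix of the entries -/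
noncomputable def mf (A : C(X, Matrix (Fin n) (Fin n) ℂ)) : Matrix (Fin n) (Fin n) C(X, ℂ) :=
  fun i j => en A i j

/-- evaluation at a point -/
noncomputable def evp (x : X) : C(X, ℂ) →+* ℂ where
  toFun := fun f => f x
  map_one' := rfl
  map_mul' := fun _ _ => rfl
  map_zero' := rfl
  map_add' := fun _ _ => rfl

theorem evp_apply (x : X) (f : C(X, ℂ)) : evp x f = f x := rfl

theorem mf_ev (A : C(X, Matrix (Fin n) (Fin n) ℂ)) (x : X) : (mf A).map (evp x) = A x := by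
  ext i j
  rfl

theorem cst_ev (J : Matrix (Fin n) (Fin n) ℂ) (x : X) :
    (J.map (algebraMap ℂ C(X, ℂ))).map (evp x) = J := by
  ext i j
  rfl

theorem mext {M N : Matrix (Fin n) (Fin n) C(X, ℂ)} (h : ∀ x, M.map (evp x) = N.map (evp x)) :
    M = N := by
  ext i j x
  exact congrFun (congrFun (h x) i) j

variable {J : Matrix (Fin n) (Fin n) ℂ} {A : C(X, Matrix (Fin n) (Fin n) ℂ)}

theorem PtR.lift (h : ∀ x, PtR J (A x)) : PtR (J.map (algebraMap ℂ C(X, ℂ))) (mf A) where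
  idem := mext fun x => by rw [Matrix.map_mul, mf_ev, (h x).idem]
  rk1 := fun i j k l => by
    ext x
    exact (h x).rk1 i j k l
  tr := by
    ext x
    have h1 := map_trace (evp x) (mf A)
    rw [mf_ev, (h x).tr] at h1
    exact h1.symm
  sy := mext fun x => by
    rw [Matrix.map_mul, Matrix.map_mul, mf_ev, cst_ev, transpose_map, mf_ev, (h x).sy]
    ext i j
    rfl
  sy' := mext fun x => by
    rw [Matrix.map_mul, Matrix.map_mul, mf_ev, cst_ev, transpose_map, mf_ev, (h x).sy']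
    ext i j
    rfl

theorem LgR.lift (h : ∀ x, LgR J (A x)) : LgR (J.map (algebraMap ℂ C(X, ℂ))) (mf A) where
  idem := mext fun x => by rw [Matrix.map_mul, mf_ev, (h x).idem]
  tr := by
    ext x
    have h1 := map_trace (evp x) (mf A)
    rw [mf_ev, (h x).tr] at h1
    exact h1.symm
  lag := mext fun x => by
    rw [Matrix.map_mul, Matrix.map_mul, cst_ev, transpose_map, mf_ev, map_one_sub, mf_ev,
      (h x).lag]
  minor := fun i c d a b j => by
    ext x
    exact (h x).minor i c d a b j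

end mf

section two

variable {X Z : Type*} [TopologicalSpace X] [CompactSpace X] [TopologicalSpace Z] [CompactSpace Z]
  {K : Type*} [NormedAddCommGroup K] [InnerProductSpace ℂ K] [CompleteSpace K] {n : ℕ}

/-- evaluation of two letters at a point -/
noncomputable def evr (y : X × Z) : R2 X Z →+* ℂ := (Pi.evalRingHom (fun _ : X × Z => ℂ) y).comp
  (ev2 : R2 X Z →ₐ[ℂ] (X × Z → ℂ)).toRingHom

theorem evr_zx (y : X × Z) (u : C(X, ℂ)) (w : C(Z, ℂ)) : evr y (zx u w) = u y.1 * w y.2 :=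
  ev2_zx u w y

theorem evr_jX (y : X × Z) (u : C(X, ℂ)) : evr y (jX u) = u y.1 := by
  rw [jX_apply, evr_zx]; simp

theorem evr_jZ (y : X × Z) (w : C(Z, ℂ)) : evr y (jZ w) = w y.2 := by
  rw [jZ_apply, evr_zx]; simp

theorem evr_alg (y : X × Z) (c : ℂ) : evr y (algebraMap ℂ (R2 X Z) c) = c := by
  have : evr y (algebraMap ℂ (R2 X Z) c) = (ev2 (algebraMap ℂ (R2 X Z) c)) y := rfl
  rw [this, AlgHom.commutes]
  rfl

variable (Q : C(X, Matrix (Fin n) (Fin n) ℂ)) (P : C(Z, Matrix (Fin n) (Fin n) ℂ))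
  (J : Matrix (Fin n) (Fin n) ℂ)

/-- the point in the ring of two letters -/
noncomputable def p2 : Matrix (Fin n) (Fin n) (R2 X Z) := (mf Q).map (jX : C(X, ℂ) →ₐ[ℂ] R2 X Z)

/-- the line in the ring of two letters -/
noncomputable def q2 : Matrix (Fin n) (Fin n) (R2 X Z) := (mf P).map (jZ : C(Z, ℂ) →ₐ[ℂ] R2 X Z)

/-- the form -/
noncomputable def J2 : Matrix (Fin n) (Fin n) (R2 X Z) := J.map (algebraMap ℂ (R2 X Z))

theorem p2_ev (y : X × Z) : (p2 Q : Matrix (Fin n) (Fin n) (R2 X Z)).map (evr y) = Q y.1 := by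
  ext i j
  exact evr_jX y _

theorem q2_ev (y : X × Z) : (q2 P : Matrix (Fin n) (Fin n) (R2 X Z)).map (evr y) = P y.2 := by
  ext i j
  exact evr_jZ y _

theorem J2_ev (y : X × Z) : (J2 J : Matrix (Fin n) (Fin n) (R2 X Z)).map (evr y) = J := by
  ext i j
  exact evr_alg y _

variable {Q P J}

theorem J2_sy (h : Sy J) : Sy (J2 J : Matrix (Fin n) (Fin n) (R2 X Z)) :=
  Sy.map (algebraMap ℂ (R2 X Z)) h

theorem p2_pt (h : ∀ x, PtR J (Q x)) : PtR (J2 J : Matrix (Fin n) (Fin n) (R2 X Z)) (p2 Q) := by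
  have h1 := PtR.map ((jX : C(X, ℂ) →ₐ[ℂ] R2 X Z) : C(X, ℂ) →+* R2 X Z) (PtR.lift h)
  have h2 : (J.map (algebraMap ℂ C(X, ℂ))).map ((jX : C(X, ℂ) →ₐ[ℂ] R2 X Z) : C(X, ℂ) →+* R2 X Z) =
      J2 J := by
    ext i j
    exact AlgHom.commutes (jX : C(X, ℂ) →ₐ[ℂ] R2 X Z) (J i j)
  rw [h2] at h1
  exact h1

theorem q2_lg (h : ∀ z, LgR J (P z)) : LgR (J2 J : Matrix (Fin n) (Fin n) (R2 X Z)) (q2 P) := by
  have h1 := LgR.map ((jZ : C(Z, ℂ) →ₐ[ℂ] R2 X Z) : C(Z, ℂ) →+* R2 X Z) (LgR.lift h)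
  have h2 : (J.map (algebraMap ℂ C(Z, ℂ))).map ((jZ : C(Z, ℂ) →ₐ[ℂ] R2 X Z) : C(Z, ℂ) →+* R2 X Z) =
      J2 J := by
    ext i j
    exact AlgHom.commutes (jZ : C(Z, ℂ) →ₐ[ℂ] R2 X Z) (J i j)
  rw [h2] at h1
  exact h1

variable {v : X → Fin n → ℂ} {C : ℝ}

/-- order of an element of the ring of two letters -/
def OrR (v : X → Fin n → ℂ) (Q : C(X, Matrix (Fin n) (Fin n) ℂ))
    (P : C(Z, Matrix (Fin n) (Fin n) ℂ)) (J : Matrix (Fin n) (Fin n) ℂ) (C : ℝ) (e : ℕ)
    (t : R2 X Z) : Prop := Ord v Q P J C e (fun x z => evr (x, z) t)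

theorem OrR.mul {e e' : ℕ} {s t : R2 X Z} (hs : OrR v Q P J C e s) (ht : OrR v Q P J C e' t) :
    OrR v Q P J C (e + e') (s * t) :=
  (Ord.mul hs ht).congr fun x z => map_mul _ _ _

theorem OrR.zero (s : R2 X Z) : OrR v Q P J C 0 s := by
  refine zx_ind (p := fun s => OrR v Q P J C 0 s) s ?_ ?_ ?_
  · exact (H283.Car.Ord.zero).congr fun x z => map_zero _
  · intro u w
    exact ((ord_x u).mul (ord_z w)).congr fun x z => evr_zx _ _ _
  · intro s t hs ht
    exact (Ord.add hs ht).congr fun x z => map_add _ _ _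

variable {E : C(X, ℂ) →ₗ[ℂ] (K →L[ℂ] K)} {F : C(Z, ℂ) →ₗ[ℂ] (K →L[ℂ] K)} {p q : ℝ}

/-- the standing hypotheses on two letters -/
structure Std (v : X → Fin n → ℂ) (Q : C(X, Matrix (Fin n) (Fin n) ℂ))
    (P : C(Z, Matrix (Fin n) (Fin n) ℂ)) (J : Matrix (Fin n) (Fin n) ℂ) (C : ℝ)
    (E : C(X, ℂ) →ₗ[ℂ] (K →L[ℂ] K)) (F : C(Z, ℂ) →ₗ[ℂ] (K →L[ℂ] K)) (p q : ℝ) : Prop where
  hp : 0 ≤ p
  hq : 0 ≤ q
  hE : UL E p
  hF : UL F q
  hC : 0 ≤ C
  hcell : ∃ N₀ : ℕ, ∀ N : ℕ, N₀ ≤ N → Nonempty (CD v Q P J C N)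
  hI : ∀ (f : C(X, ℂ)) (g : C(Z, ℂ)),
      (∀ x ∈ tsupport f, ∀ z ∈ tsupport g, P z * Q x ≠ Q x) → E f * F g = 0
  hv : ∀ x, star (v x) ⬝ᵥ v x = 1
  hQ : ∀ x, Q x = vecMulVec (v x) (star (v x))
  hJ : Sy J
  hJr : J.map star = J
  hPt : ∀ x, PtR J (Q x)
  hLg : ∀ z, LgR J (P z)
  hPh : ∀ z, (P z)ᴴ = P z

theorem star_tsupport (f : C(X, ℂ)) : tsupport (star f) = tsupport f := by
  rw [tsupport, tsupport]
  congr 1
  ext x
  simp [Function.mem_support, ContinuousMap.star_apply]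

theorem T2_zero (S : Std v Q P J C E F p q) {t : R2 X Z} (ht : OrR v Q P J C 2 t) :
    T2 E F t = 0 := by
  obtain ⟨m, u, w, rfl⟩ := ex_sum t
  rw [map_sum]
  have h := Ord.kill S.hp S.hq S.hE S.hF S.hC S.hcell S.hI ht u w (fun x z => by
    rw [map_sum]
    exact Finset.sum_congr rfl fun r _ => (evr_zx (x, z) (u r) (w r)).symm)
  exact h

theorem T2r_zero (S : Std v Q P J C E F p q) {t : R2 X Z} (ht : OrR v Q P J C 2 t) :
    T2r E F t = 0 := by
  obtain ⟨m, u, w, rfl⟩ := ex_sum t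
  rw [map_sum]
  have h := Ord.kill S.hp S.hq S.hE S.hF S.hC S.hcell S.hI (Ord.conj ht)
    (fun r => star (u r)) (fun r => star (w r)) (fun x z => by
    rw [map_sum, star_sum]
    refine Finset.sum_congr rfl fun r _ => ?_
    rw [evr_zx, star_mul, mul_comm]
    rfl)
  have h2 := congrArg star h
  rw [star_sum, star_zero] at h2
  rw [← h2]
  refine Finset.sum_congr rfl fun r _ => ?_
  rw [T2r_zx, star_mul, ← S.hE.star, ← S.hF.star, star_star, star_star]

theorem mem2 (S : Std v Q P J C E F p q) {t : R2 X Z} (ht : OrR v Q P J C 2 t) :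
    t ∈ Kl2 E F := by
  rw [mem_Kl2]
  intro s
  refine T2_zero S ?_
  have h := (OrR.zero (v := v) (Q := Q) (P := P) (J := J) (C := C) s).mul ht
  rwa [zero_add] at h

theorem mem2r (S : Std v Q P J C E F p q) {t : R2 X Z} (ht : OrR v Q P J C 2 t) :
    t ∈ Kl2r E F := by
  rw [mem_Kl2r]
  intro s
  refine T2r_zero S ?_
  have h := (OrR.zero (v := v) (Q := Q) (P := P) (J := J) (C := C) s).mul ht
  rwa [zero_add] at h

theorem Std.Qh (S : Std v Q P J C E F p q) (x : X) : (Q x)ᴴ = Q x := by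
  rw [S.hQ]
  ext a b
  simp [Matrix.conjTranspose_apply, vecMulVec_apply, mul_comm]

theorem evr_mat (M : Matrix (Fin n) (Fin n) (R2 X Z)) (y : X × Z) (i j : Fin n) :
    evr y (M i j) = (M.map (evr y)) i j := rfl

theorem or_a (S : Std v Q P J C E F p q) (i j : Fin n) :
    OrR v Q P J C 1 (((1 - q2 P) * p2 Q : Matrix (Fin n) (Fin n) (R2 X Z)) i j) := by
  refine (ord_n S.hv S.hQ S.hC i j).congr fun x z => ?_
  rw [evr_mat, Matrix.map_mul, map_one_sub, p2_ev, q2_ev]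

theorem or_b (S : Std v Q P J C E F p q) (i j : Fin n) :
    OrR v Q P J C 1 ((p2 Q * (1 - q2 P) : Matrix (Fin n) (Fin n) (R2 X Z)) i j) := by
  refine (Ord.conj (ord_n S.hv S.hQ S.hC j i)).congr fun x z => ?_
  rw [evr_mat, Matrix.map_mul, map_one_sub, p2_ev, q2_ev]
  have h : ((1 - P z) * Q x)ᴴ = Q x * (1 - P z) := by
    rw [conjTranspose_mul, conjTranspose_sub, conjTranspose_one, S.hPh, S.Qh]
  rw [← h]
  rfl

theorem or_c (S : Std v Q P J C E F p q) (i j : Fin n) :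
    OrR v Q P J C 2 ((p2 Q * q2 P * J2 J * (p2 Q)ᵀ : Matrix (Fin n) (Fin n) (R2 X Z)) i j) := by
  refine (ord_k S.hv S.hQ S.hC S.hJ.anti S.hJr S.hPh (fun z => (S.hLg z).lag) i j).congr
    fun x z => ?_
  rw [evr_mat, Matrix.map_mul, Matrix.map_mul, Matrix.map_mul, transpose_map, p2_ev, q2_ev, J2_ev]

theorem or_c' (S : Std v Q P J C E F p q) (i j : Fin n) :
    OrR v Q P J C 2 (((p2 Q)ᵀ * J2 J * q2 P * p2 Q : Matrix (Fin n) (Fin n) (R2 X Z)) i j) := by
  refine (Ord.neg (ord_k' S.hv S.hQ S.hC S.hJ.anti (fun z => (S.hLg z).lag) i j)).congr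
    fun x z => ?_
  rw [evr_mat, Matrix.map_mul, Matrix.map_mul, Matrix.map_mul, transpose_map, p2_ev, q2_ev, J2_ev]
  have h1 : (Q x)ᵀ * (P z)ᵀ * J * Q x = -((Q x)ᵀ * J * P z * Q x) := by
    have h2 := (S.hPt x).sy'
    calc (Q x)ᵀ * (P z)ᵀ * J * Q x = (Q x)ᵀ * ((P z)ᵀ * J) * Q x := by simp only [Matrix.mul_assoc]
      _ = (Q x)ᵀ * J * Q x - (Q x)ᵀ * J * P z * Q x := by
          rw [(S.hLg z).lag]; simp only [Matrix.mul_sub, Matrix.sub_mul, Matrix.mul_one,
            Matrix.mul_assoc]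
      _ = _ := by rw [h2, zero_sub]
  rw [h1]
  simp

/-- the incidence relations in any quotient that kills order two -/
theorem inc_of (S : Std v Q P J C E F p q) {R : Type*} [CommRing R] (f : R2 X Z →+* R)
    (hf : ∀ t, OrR v Q P J C 2 t → f t = 0) :
    Inc2 ((J2 J).map f) ((p2 Q).map f) ((q2 P).map f) where
  aa := fun i j k l => by
    rw [← map_one_sub f, ← Matrix.map_mul, Matrix.map_apply, Matrix.map_apply, ← map_mul]
    exact hf _ ((or_a S i j).mul (or_a S k l))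
  ab := fun i j k l => by
    rw [← map_one_sub f, ← Matrix.map_mul, ← Matrix.map_mul, Matrix.map_apply, Matrix.map_apply,
      ← map_mul]
    exact hf _ ((or_a S i j).mul (or_b S k l))
  bb := fun i j k l => by
    rw [← map_one_sub f, ← Matrix.map_mul, Matrix.map_apply, Matrix.map_apply, ← map_mul]
    exact hf _ ((or_b S i j).mul (or_b S k l))
  co := by
    ext i j
    rw [← transpose_map, ← Matrix.map_mul, ← Matrix.map_mul, ← Matrix.map_mul, Matrix.map_apply]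
    exact hf _ (or_c S i j)
  co' := by
    ext i j
    rw [← transpose_map, ← Matrix.map_mul, ← Matrix.map_mul, ← Matrix.map_mul, Matrix.map_apply]
    exact hf _ (or_c' S i j)

end two

end Vale.Agent.P092.H378.C
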