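import Vale.Agent.P092.H378.C1
import Vale.Agent.P092.H378.C5
import Vale.Agent.P092.H283.Car5

/-!
# P092, Track C, operator side, part 6: the Gram inequality
-/

set_option linter.unusedSectionVars false
set_option linter.unusedVariables false

namespace Vale.Agent.P092.H378.C

open Finset Matrix
open scoped InnerProductSpace
open Vale.Agent.P092.H828.P (UL co co_apply)
open Vale.Agent.P092.H283.Car (CD Ord en en_apply op_eq3)

variable {X Z : Type*} [TopologicalSpace X] [CompactSpace X] [TopologicalSpace Z] [CompactSpace Z]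
  {K : Type*} [NormedAddCommGroup K] [InnerProductSpace ℂ K] [CompleteSpace K]
  {E : C(X, ℂ) →ₗ[ℂ] (K →L[ℂ] K)} {F : C(Z, ℂ) →ₗ[ℂ] (K →L[ℂ] K)} {p q : ℝ}

theorem T3_LR (f g : C(X, ℂ)) {m m' : ℕ} (u : Fin m → C(X, ℂ)) (w : Fin m → C(Z, ℂ))
    (u' : Fin m' → C(X, ℂ)) (w' : Fin m' → C(Z, ℂ)) :
    T3 E F (iX f * iY g * (iL (∑ r, zx (u r) (w r)) * iR (∑ s, zx (u' s) (w' s)))) =
      ∑ r, ∑ s, E (f * u r) * F (w r * w' s) * E (g * u' s) := by
  rw [map_sum, map_sum, Finset.sum_mul_sum, Finset.mul_sum, map_sum]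
  refine Finset.sum_congr rfl fun r _ => ?_
  rw [Finset.mul_sum, map_sum]
  refine Finset.sum_congr rfl fun s _ => ?_
  rw [iL_zx, iR_zx, iX_apply, iY_apply, xzx_mul, xzx_mul, xzx_mul, T3_xzx]
  simp only [one_mul, mul_one]
  exact (mul_assoc _ _ _).symm

/-- the Gram operator of `t` with weight `f` -/
noncomputable def Wg (E : C(X, ℂ) →ₗ[ℂ] (K →L[ℂ] K)) (F : C(Z, ℂ) →ₗ[ℂ] (K →L[ℂ] K))
    (f : C(X, ℂ)) (t t' : R2 X Z) : K →L[ℂ] K := T3 E F (iX f * iY (star f) * (iL t * iR t'))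

/-- the Gram operator in letters -/
theorem Wg_eq (f : C(X, ℂ)) {m : ℕ} (u : Fin m → C(X, ℂ)) (w : Fin m → C(Z, ℂ)) (t' : R2 X Z)
    (h : ∀ y, evr y t' = star (evr y (∑ r, zx (u r) (w r)))) :
    Wg E F f (∑ r, zx (u r) (w r)) t' =
      ∑ r, ∑ s, E (f * u r) * F (w r * star (w s)) * E (star (f * u s)) := by
  obtain ⟨m', u', w', rfl⟩ := ex_sum t'
  rw [Wg, T3_LR]
  have h1 := op_eq3 E F E
    (fun x : Fin m × Fin m' => f * u x.1) (fun x => w x.1 * w' x.2) (fun x => star f * u' x.2)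
    (fun x : Fin m × Fin m => f * u x.1) (fun x => w x.1 * star (w x.2))
    (fun x => star (f * u x.2)) ?_
  · rw [Fintype.sum_prod_type, Fintype.sum_prod_type] at h1
    exact h1
  · intro x z x'
    have h2 := h (x', z)
    rw [map_sum, map_sum] at h2
    simp only [evr_zx] at h2
    rw [Fintype.sum_prod_type, Fintype.sum_prod_type]
    have e1 : ∀ (i : Fin m), ∑ j : Fin m', (f * u i) x * (w i * w' j) z * (star f * u' j) x' =
        (f x * u i x * w i z * star (f x')) * ∑ j : Fin m', u' j x' * w' j z := by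
      intro i
      rw [Finset.mul_sum]
      refine Finset.sum_congr rfl fun j _ => ?_
      simp only [ContinuousMap.mul_apply, ContinuousMap.star_apply]
      ring
    have e2 : ∀ (i : Fin m), ∑ j : Fin m, (f * u i) x * (w i * star (w j)) z * star (f * u j) x' =
        (f x * u i x * w i z * star (f x')) * star (∑ j : Fin m, u j x' * w j z) := by
      intro i
      rw [star_sum, Finset.mul_sum]
      refine Finset.sum_congr rfl fun j _ => ?_
      simp only [ContinuousMap.mul_apply, ContinuousMap.star_apply, star_mul]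
      ring
    refine Finset.sum_congr rfl fun i _ => ?_
    rw [e1 i, e2 i, h2]

/-- the quadratic form of the Gram operator -/
theorem Wg_inner (hE : UL E p) (f : C(X, ℂ)) {m : ℕ} (u : Fin m → C(X, ℂ)) (w : Fin m → C(Z, ℂ))
    (t' : R2 X Z) (h : ∀ y, evr y t' = star (evr y (∑ r, zx (u r) (w r)))) (ζ : K) :
    ⟪ζ, Wg E F f (∑ r, zx (u r) (w r)) t' ζ⟫_ℂ =
      ∑ r, ∑ s, ⟪E (star (f * u r)) ζ, F (star (star (w r)) * star (w s)) (E (star (f * u s)) ζ)⟫_ℂ := by
  have hs : ∀ (a : C(X, ℂ)) (y : K), ⟪ζ, E a y⟫_ℂ = ⟪E (star a) ζ, y⟫_ℂ := fun a y => by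
    rw [hE.star, ContinuousLinearMap.star_eq_adjoint, ContinuousLinearMap.adjoint_inner_left]
  rw [Wg_eq f u w t' h, _root_.sum_apply, inner_sum]
  refine Finset.sum_congr rfl fun r _ => ?_
  rw [_root_.sum_apply, inner_sum]
  refine Finset.sum_congr rfl fun s _ => ?_
  rw [star_star, mul_assoc, ContinuousLinearMap.mul_apply, ContinuousLinearMap.mul_apply, hs]

theorem Wg_nonneg (hE : UL E p) (hF : UL F q) (hq : 0 ≤ q) (f : C(X, ℂ)) (t t' : R2 X Z)
    (h : ∀ y, evr y t' = star (evr y t)) (ζ : K) : 0 ≤ q * (⟪ζ, Wg E F f t t' ζ⟫_ℂ).re := by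
  obtain ⟨m, u, w, rfl⟩ := ex_sum t
  rw [Wg_inner hE f u w t' h ζ]
  exact le_trans (by positivity) (cpk hF hq (fun r => star (w r)) (fun r => E (star (f * u r)) ζ))

/-- **the Gram inequality** -/
theorem Wg_gram (hE : UL E p) (hF : UL F q) (hq : 0 ≤ q) (f : C(X, ℂ)) (g : C(Z, ℂ))
    (t t' : R2 X Z) (h : ∀ y, evr y t' = star (evr y t)) (ζ : K) :
    ‖star (T2 E F (zx f g * t)) ζ‖ ^ 2 ≤ ‖g‖ ^ 2 * (q * (⟪ζ, Wg E F f t t' ζ⟫_ℂ).re) := by
  obtain ⟨m, u, w, rfl⟩ := ex_sum t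
  rw [Wg_inner hE f u w t' h ζ]
  set η : Fin m → K := fun r => E (star (f * u r)) ζ with hη
  have e1 : star (T2 E F (zx f g * ∑ r, zx (u r) (w r))) ζ =
      ∑ r, F (star g * star (w r)) (η r) := by
    rw [Finset.mul_sum, map_sum, star_sum, _root_.sum_apply]
    refine Finset.sum_congr rfl fun r _ => ?_
    rw [zx_mul, T2_zx, star_mul, ← hE.star, ← hF.star, ContinuousLinearMap.mul_apply, star_mul,
      mul_comm (star (w r))]
  rw [e1]
  set h0 : C(Z, ℝ) := ⟨fun z => Real.sqrt (‖g‖ ^ 2 - ‖g z‖ ^ 2), by fun_prop⟩ with hh0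
  have e2 : ∀ r s : Fin m, star (star g * star (w r)) * (star g * star (w s)) +
      star (co h0 * star (w r)) * (co h0 * star (w s)) =
      ((‖g‖ ^ 2 : ℝ) : ℂ) • (star (star (w r)) * star (w s)) := by
    intro r s
    ext z
    have h1 : Real.sqrt (‖g‖ ^ 2 - ‖g z‖ ^ 2) * Real.sqrt (‖g‖ ^ 2 - ‖g z‖ ^ 2) =
        ‖g‖ ^ 2 - ‖g z‖ ^ 2 := Real.mul_self_sqrt (by
      have := g.norm_coe_le_norm z
      have h3 := norm_nonneg (g z)
      nlinarith)
    have h2 : star (g z) * g z = ((‖g z‖ ^ 2 : ℝ) : ℂ) := by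
      rw [Complex.star_def, ← Complex.normSq_eq_conj_mul_self, Complex.normSq_eq_norm_sq]
    have h4 : ((h0 z : ℝ) : ℂ) * (h0 z : ℂ) = ((‖g‖ ^ 2 - ‖g z‖ ^ 2 : ℝ) : ℂ) := by
      rw [← Complex.ofReal_mul]
      exact congrArg _ h1
    have h5 : star ((h0 z : ℝ) : ℂ) = (h0 z : ℂ) := Complex.conj_ofReal _
    simp only [ContinuousMap.add_apply, ContinuousMap.mul_apply, ContinuousMap.star_apply,
      ContinuousMap.smul_apply, co_apply, smul_eq_mul, star_mul, star_star, h5]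
    calc w r z * g z * (star (g z) * star (w s z)) + w r z * (h0 z : ℂ) * ((h0 z : ℂ) * star (w s z))
        = (star (g z) * g z + (h0 z : ℂ) * (h0 z : ℂ)) * (w r z * star (w s z)) := by ring
      _ = _ := by rw [h2, h4]; push_cast; ring
  have c1 := cpk hF hq (fun r => star g * star (w r)) η
  have c2 := cpk hF hq (fun r => co h0 * star (w r)) η
  have c3 : (∑ r, ∑ s, ⟪η r, F (star (star g * star (w r)) * (star g * star (w s))) (η s)⟫_ℂ).re +
      (∑ r, ∑ s, ⟪η r, F (star (co h0 * star (w r)) * (co h0 * star (w s))) (η s)⟫_ℂ).re =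
      ‖g‖ ^ 2 * (∑ r, ∑ s, ⟪η r, F (star (star (w r)) * star (w s)) (η s)⟫_ℂ).re := by
    rw [← Complex.add_re, ← Finset.sum_add_distrib, ← Complex.re_ofReal_mul, Finset.mul_sum]
    congr 1
    refine Finset.sum_congr rfl fun r _ => ?_
    rw [← Finset.sum_add_distrib, Finset.mul_sum]
    refine Finset.sum_congr rfl fun s _ => ?_
    rw [← inner_add_right, ← ContinuousLinearMap.add_apply, ← map_add, e2 r s, map_smul,
      ContinuousLinearMap.smul_apply, inner_smul_right]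
  refine c1.trans ?_
  have c4 : 0 ≤ q * (∑ r, ∑ s, ⟪η r, F (star (co h0 * star (w r)) * (co h0 * star (w s)))
      (η s)⟫_ℂ).re := le_trans (by positivity) c2
  calc q * (∑ r, ∑ s, ⟪η r, F (star (star g * star (w r)) * (star g * star (w s))) (η s)⟫_ℂ).re
      ≤ q * (∑ r, ∑ s, ⟪η r, F (star (star g * star (w r)) * (star g * star (w s))) (η s)⟫_ℂ).re +
        q * (∑ r, ∑ s, ⟪η r, F (star (co h0 * star (w r)) * (co h0 * star (w s))) (η s)⟫_ℂ).re :=
        le_add_of_nonneg_right c4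
    _ = _ := by rw [← mul_add, c3]; ring

end Vale.Agent.P092.H378.C
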