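import Vale.Agent.P092.H378.C6
import Vale.Agent.P092.H283.Car7

/-!
# P092, Track C, operator side, part 7: the end
-/

set_option linter.unusedSectionVars false
set_option linter.unusedVariables false

namespace Vale.Agent.P092.H378.C

open Finset Matrix Filter Topology
open scoped InnerProductSpace
open Vale.Agent.P092.H828.P (UL)
open Vale.Agent.P092.H283.Car (CD Ord en en_apply near div)
open Vale.Agent.P092.H283.Syn (cx cx_apply)

variable {X Z : Type*} [TopologicalSpace X] [CompactSpace X] [TopologicalSpace Z] [CompactSpace Z]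
  {K : Type*} [NormedAddCommGroup K] [InnerProductSpace ℂ K] [CompleteSpace K] {n : ℕ}
  {Q : C(X, Matrix (Fin n) (Fin n) ℂ)} {P : C(Z, Matrix (Fin n) (Fin n) ℂ)}
  {J : Matrix (Fin n) (Fin n) ℂ} {v : X → Fin n → ℂ} {C : ℝ}
  {E : C(X, ℂ) →ₗ[ℂ] (K →L[ℂ] K)} {F : C(Z, ℂ) →ₗ[ℂ] (K →L[ℂ] K)} {p q : ℝ}

section orders

theorem OrR.add {e : ℕ} {s t : R2 X Z} (hs : OrR v Q P J C e s) (ht : OrR v Q P J C e t) :
    OrR v Q P J C e (s + t) :=
  (Ord.add hs ht).congr fun x z => map_add _ _ _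

theorem OrR.sum {e : ℕ} {τ : Type*} (s : Finset τ) {t : τ → R2 X Z}
    (h : ∀ i ∈ s, OrR v Q P J C e (t i)) : OrR v Q P J C e (∑ i ∈ s, t i) :=
  (Ord.sum s h).congr fun x z => map_sum _ _ _

theorem OrR.mat {e : ℕ} {M : Matrix (Fin n) (Fin n) (R2 X Z)} (h : ∀ i j, OrR v Q P J C e (M i j))
    (A B : Matrix (Fin n) (Fin n) (R2 X Z)) (i j : Fin n) :
    OrR v Q P J C e ((A * M * B) i j) := by
  rw [mul_apply]
  refine OrR.sum _ fun k _ => ?_
  rw [mul_apply, mul_comm]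
  have h1 : OrR v Q P J C e (∑ l, A i l * M l k) := by
    refine OrR.sum _ fun l _ => ?_
    have h2 := (OrR.zero (v := v) (Q := Q) (P := P) (J := J) (C := C) (A i l)).mul (h l k)
    rwa [zero_add] at h2
  have h3 := (OrR.zero (v := v) (Q := Q) (P := P) (J := J) (C := C) (B k j)).mul h1
  rwa [zero_add] at h3

variable (Q P J)

/-- the first order block in the ring of two letters -/
noncomputable def h2 : Matrix (Fin n) (Fin n) (R2 X Z) := hh (J2 J) (p2 Q) (q2 P)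

/-- its adjoint -/
noncomputable def s2 : Matrix (Fin n) (Fin n) (R2 X Z) := hs (J2 J) (p2 Q) (q2 P)

variable {Q P J}

theorem or_h2 (S : Std v Q P J C E F p q) (i j : Fin n) : OrR v Q P J C 1 (h2 Q P J i j) := by
  rw [h2, hh_eq (J2_sy S.hJ) (q2_lg S.hLg)]
  exact (OrR.mat (or_b S) _ _ i j).add (OrR.mat (fun a b => or_b S b a) _ _ i j)

theorem s2_conj (S : Std v Q P J C E F p q) (i j : Fin n) (y : X × Z) :
    evr y (s2 Q P J j i) = star (evr y (h2 Q P J i j)) := by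
  rw [evr_mat, evr_mat, s2, h2, ← hs_map, ← hh_map, p2_ev, q2_ev, J2_ev]
  have hJ1 : Jᴴ = Jᵀ := by
    rw [conjTranspose, transpose_map, S.hJr]
  have hJ2 : (Jᵀ)ᴴ = J := by
    rw [← hJ1, conjTranspose_conjTranspose]
  have hQ2 : ((Q y.1)ᵀ)ᴴ = (Q y.1)ᵀ := by
    have h := S.Qh y.1
    ext a b
    have h1 := congrFun (congrFun h b) a
    exact h1
  have h1 : (hh J (Q y.1) (P y.2))ᴴ = hs J (Q y.1) (P y.2) := by
    simp only [hh, hs, rr, conjTranspose_mul, conjTranspose_add, conjTranspose_sub,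
      conjTranspose_one, hJ1, hJ2, hQ2, S.hPh, S.Qh, mul_assoc]
  rw [← h1]
  rfl

theorem or_s2 (S : Std v Q P J C E F p q) (i j : Fin n) : OrR v Q P J C 1 (s2 Q P J j i) :=
  (Ord.conj (or_h2 S i j)).congr fun x z => s2_conj S i j (x, z)

theorem h2_conj (S : Std v Q P J C E F p q) (i j : Fin n) (y : X × Z) :
    evr y (h2 Q P J i j) = star (evr y (s2 Q P J j i)) := by
  rw [s2_conj S, star_star]

/-- the symbol in two letters -/
theorem G3_eq : G3 Q P J =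
    ∑ i, ∑ j, (iL (h2 Q P J i j) * iR (s2 Q P J j i) + iL (s2 Q P J j i) * iR (h2 Q P J i j)) := by
  have a1 : hh (J3 J) (p3 Q) (q3 P) = (h2 Q P J).map (iL : R2 X Z →ₐ[ℂ] R3 X Z) :=
    hh_map ((iL : R2 X Z →ₐ[ℂ] R3 X Z) : R2 X Z →+* R3 X Z)
  have a2 : hs (J3 J) (p3 Q) (q3 P) = (s2 Q P J).map (iL : R2 X Z →ₐ[ℂ] R3 X Z) :=
    hs_map ((iL : R2 X Z →ₐ[ℂ] R3 X Z) : R2 X Z →+* R3 X Z)
  have a3 : hh (J3 J) (p3' Q) (q3 P) = (h2 Q P J).map (iR : R2 X Z →ₐ[ℂ] R3 X Z) := by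
    rw [← J3_R, ← q3_R]
    exact hh_map ((iR : R2 X Z →ₐ[ℂ] R3 X Z) : R2 X Z →+* R3 X Z)
  have a4 : hs (J3 J) (p3' Q) (q3 P) = (s2 Q P J).map (iR : R2 X Z →ₐ[ℂ] R3 X Z) := by
    rw [← J3_R, ← q3_R]
    exact hs_map ((iR : R2 X Z →ₐ[ℂ] R3 X Z) : R2 X Z →+* R3 X Z)
  rw [G3, e2, e2, a1, a2, a3, a4, trace, trace, ← Finset.sum_add_distrib]
  refine Finset.sum_congr rfl fun i _ => ?_
  rw [diag_apply, diag_apply, mul_apply, mul_apply, ← Finset.sum_add_distrib]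
  refine Finset.sum_congr rfl fun j _ => ?_
  rw [Matrix.map_apply, Matrix.map_apply, Matrix.map_apply, Matrix.map_apply]
  ring

end orders

/-- the far part -/
theorem far (S : Std v Q P J C E F p q)
    (ht : ∀ x x', x ≠ x' → ∑ i : Fin n × Fin n, en Q i.1 i.2 x * en Q i.2 i.1 x' ≠ 1)
    (hO : ∀ f g : C(X, ℂ), Disjoint (tsupport f) (tsupport g) →
      T3 E F (iX f * iY g * om2 (J3 J) (p3 Q) (p3' Q)) = 0)
    (f g : C(X, ℂ)) (hd : Disjoint (tsupport f) (tsupport g)) : Bb E F (G3 Q P J) f g = 0 := by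
  obtain ⟨M, hM, hB⟩ := Bb_bound (F := F) S.hE (G3 Q P J)
  exact div (fun x : Fin n × Fin n => en Q x.1 x.2) (fun x => en Q x.2 x.1) ht
    (Bb E F (G3 Q P J)) hM hB (fun u u' hu => rel3 S u u' (hO u u' hu)) f g hd

/-- the near part for one product -/
theorem near2 (S : Std v Q P J C E F p q) {t t' : R2 X Z} (ht : OrR v Q P J C 1 t)
    (ht' : OrR v Q P J C 1 t') (f f' : C(X, ℂ)) :
    ∃ C' : ℝ, 0 ≤ C' ∧ ∀ N : ℕ, 1 ≤ N → ∀ D : CD v Q P J C N, ∀ δ : ℝ, 1 / (N : ℝ) ≤ δ → δ ≤ 1 →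
      ∀ (R : D.ι → D.ι → Prop) [DecidableRel R],
      (∀ α β, R α β → ∀ i j, ‖Q (D.xa β) i j - Q (D.xa α) i j‖ ≤ δ) → ∀ ζ : K,
      ‖∑ α ∈ D.s, ∑ β ∈ D.s, if R α β then
        ⟪ζ, (T3 E F (iX (cx (D.φ α) * f) * iY (cx (D.φ β) * f') * (iL t * iR t'))) ζ⟫_ℂ else 0‖ ≤
        C' * δ ^ 2 * ‖ζ‖ ^ 2 := by
  obtain ⟨m, u, w, rfl⟩ := ex_sum t
  obtain ⟨m', u', w', rfl⟩ := ex_sum t'
  obtain ⟨C', h0, h⟩ := near S.hp S.hq S.hE S.hF S.hC S.hI ht ht' f f' u w u' w'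
    (fun x z => by
      rw [map_sum]
      exact Finset.sum_congr rfl fun r _ => (evr_zx (x, z) (u r) (w r)).symm)
    (fun x z => by
      rw [map_sum]
      exact Finset.sum_congr rfl fun r _ => (evr_zx (x, z) (u' r) (w' r)).symm)
  refine ⟨C', h0, fun N hN D δ hδ1 hδ2 R _ hR ζ => ?_⟩
  refine le_trans (le_of_eq ?_) (h N hN D δ hδ1 hδ2 R hR ζ)
  congr 1
  refine Finset.sum_congr rfl fun α _ => Finset.sum_congr rfl fun β _ => ?_
  by_cases hab : R α β
  · rw [if_pos hab, if_pos hab, T3_LR, _root_.sum_apply, inner_sum]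
    refine Finset.sum_congr rfl fun r _ => ?_
    rw [_root_.sum_apply, inner_sum]
    refine Finset.sum_congr rfl fun s _ => ?_
    rw [mul_assoc (cx (D.φ α)) f, mul_assoc (cx (D.φ β)) f']
  · rw [if_neg hab, if_neg hab]

/-- the near part for a finite sum of products -/
theorem near3 (S : Std v Q P J C E F p q) {τ : Type} (A : Finset τ) (t t' : τ → R2 X Z)
    (ht : ∀ i ∈ A, OrR v Q P J C 1 (t i)) (ht' : ∀ i ∈ A, OrR v Q P J C 1 (t' i))
    (f f' : C(X, ℂ)) :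
    ∃ C' : ℝ, 0 ≤ C' ∧ ∀ N : ℕ, 1 ≤ N → ∀ D : CD v Q P J C N, ∀ δ : ℝ, 1 / (N : ℝ) ≤ δ → δ ≤ 1 →
      ∀ (R : D.ι → D.ι → Prop) [DecidableRel R],
      (∀ α β, R α β → ∀ i j, ‖Q (D.xa β) i j - Q (D.xa α) i j‖ ≤ δ) → ∀ ζ : K,
      ‖∑ α ∈ D.s, ∑ β ∈ D.s, if R α β then
        ⟪ζ, (Bb E F (∑ i ∈ A, iL (t i) * iR (t' i)) (cx (D.φ α) * f) (cx (D.φ β) * f')) ζ⟫_ℂ
        else 0‖ ≤ C' * δ ^ 2 * ‖ζ‖ ^ 2 := by
  classical
  induction A using Finset.induction_on with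
  | empty =>
    refine ⟨0, le_rfl, fun N hN D δ hδ1 hδ2 R _ hR ζ => ?_⟩
    simp [Bb_apply]
  | insert a A ha ih =>
    obtain ⟨C1, h1, e1⟩ := ih (fun i hi => ht i (Finset.mem_insert_of_mem hi))
      (fun i hi => ht' i (Finset.mem_insert_of_mem hi))
    obtain ⟨C2, h2, e2⟩ := near2 S (ht a (Finset.mem_insert_self a A))
      (ht' a (Finset.mem_insert_self a A)) f f'
    refine ⟨C1 + C2, by positivity, fun N hN D δ hδ1 hδ2 R _ hR ζ => ?_⟩
    have a1 := e1 N hN D δ hδ1 hδ2 R hR ζ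
    have a2 := e2 N hN D δ hδ1 hδ2 R hR ζ
    have e3 : ∀ α β, (if R α β then
        ⟪ζ, (Bb E F (∑ i ∈ insert a A, iL (t i) * iR (t' i)) (cx (D.φ α) * f)
          (cx (D.φ β) * f')) ζ⟫_ℂ else 0) =
        (if R α β then
        ⟪ζ, (T3 E F (iX (cx (D.φ α) * f) * iY (cx (D.φ β) * f') * (iL (t a) * iR (t' a)))) ζ⟫_ℂ
          else 0) + (if R α β then
        ⟪ζ, (Bb E F (∑ i ∈ A, iL (t i) * iR (t' i)) (cx (D.φ α) * f) (cx (D.φ β) * f')) ζ⟫_ℂ
        else 0) := by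
      intro α β
      by_cases hab : R α β
      · rw [if_pos hab, if_pos hab, if_pos hab, Finset.sum_insert ha, Bb_apply, Bb_apply, mul_add,
          map_add, ContinuousLinearMap.add_apply, inner_add_right]
      · rw [if_neg hab, if_neg hab, if_neg hab, add_zero]
    simp only [e3, Finset.sum_add_distrib]
    refine (norm_add_le _ _).trans ?_
    calc _ ≤ C2 * δ ^ 2 * ‖ζ‖ ^ 2 + C1 * δ ^ 2 * ‖ζ‖ ^ 2 := add_le_add a2 a1
      _ = _ := by ring

theorem cx_sum {N : ℕ} {D : CD v Q P J C N} : ∑ α ∈ D.s, cx (D.φ α) = 1 := by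
  ext x
  simp only [ContinuousMap.coe_sum, Finset.sum_apply, cx_apply, ContinuousMap.one_apply]
  rw [← Complex.ofReal_sum, D.φs x]
  simp

/-- the Gram operator of the symbol vanishes -/
theorem gram_zero (S : Std v Q P J C E F p q)
    (ht : ∀ x x', x ≠ x' → ∑ i : Fin n × Fin n, en Q i.1 i.2 x * en Q i.2 i.1 x' ≠ 1)
    (hO : ∀ f g : C(X, ℂ), Disjoint (tsupport f) (tsupport g) →
      T3 E F (iX f * iY g * om2 (J3 J) (p3 Q) (p3' Q)) = 0)
    (f f' : C(X, ℂ)) (ζ : K) : ⟪ζ, (Bb E F (G3 Q P J) f f') ζ⟫_ℂ = 0 := by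
  classical
  have hG : (G3 Q P J : R3 X Z) = ∑ i ∈ (univ : Finset ((Fin n × Fin n) × Bool)),
      iL (if i.2 then h2 Q P J i.1.1 i.1.2 else s2 Q P J i.1.2 i.1.1) *
      iR (if i.2 then s2 Q P J i.1.2 i.1.1 else h2 Q P J i.1.1 i.1.2) := by
    rw [G3_eq, Fintype.sum_prod_type, Fintype.sum_prod_type]
    refine Finset.sum_congr rfl fun i _ => Finset.sum_congr rfl fun j _ => ?_
    rw [Fintype.sum_bool]
    simp
  obtain ⟨C', hC0, hC'⟩ := near3 S (univ : Finset ((Fin n × Fin n) × Bool))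
    (fun i => if i.2 then h2 Q P J i.1.1 i.1.2 else s2 Q P J i.1.2 i.1.1)
    (fun i => if i.2 then s2 Q P J i.1.2 i.1.1 else h2 Q P J i.1.1 i.1.2)
    (fun i _ => by
      split_ifs
      · exact or_h2 S _ _
      · exact or_s2 S _ _)
    (fun i _ => by
      split_ifs
      · exact or_s2 S _ _
      · exact or_h2 S _ _) f f'
  rw [← hG] at hC'
  obtain ⟨N₀, hcell⟩ := S.hcell
  set A : ℝ := 2 * C + 1 with hA
  have hA0 : 0 < A := by have := S.hC; linarith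
  have key : ∀ N : ℕ, max N₀ (⌈A⌉₊ + 1) ≤ N → ‖⟪ζ, (Bb E F (G3 Q P J) f f') ζ⟫_ℂ‖ ≤
      C' * (A / N) ^ 2 * ‖ζ‖ ^ 2 := by
    intro N hN
    obtain ⟨D⟩ := hcell N ((le_max_left _ _).trans hN)
    have hN2 : ⌈A⌉₊ + 1 ≤ N := (le_max_right _ _).trans hN
    have hN1 : 1 ≤ N := le_trans (by omega) hN2
    have hNpos : (0 : ℝ) < N := by exact_mod_cast hN1
    have hAN : A ≤ N := by
      have h1 : (⌈A⌉₊ : ℝ) + 1 ≤ N := by exact_mod_cast hN2
      have h2 := Nat.le_ceil A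
      linarith
    let R : D.ι → D.ι → Prop := fun α β => ¬ Disjoint (tsupport (D.φ α)) (tsupport (D.φ β))
    have hR : ∀ α ∈ D.s, ∀ β ∈ D.s, R α β → ∀ i j,
        ‖Q (D.xa β) i j - Q (D.xa α) i j‖ ≤ A / N := by
      intro α hα β hβ hab i j
      obtain ⟨x, hx1, hx2⟩ := Set.not_disjoint_iff.1 hab
      have hcl : ∀ γ ∈ D.s, ∀ x ∈ tsupport (D.φ γ), ‖Q x i j - Q (D.xa γ) i j‖ ≤ C / N := by
        intro γ hγ x hx
        have h1 : IsClosed {x : X | ‖Q x i j - Q (D.xa γ) i j‖ ≤ C / N} := by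
          have h2 : Continuous fun x => Q x i j := (en Q i j).continuous
          exact isClosed_le ((h2.sub continuous_const).norm) continuous_const
        exact closure_minimal (fun y hy => D.cl γ hγ y hy i j) h1 hx
      have h1 := hcl α hα x hx1
      have h2 := hcl β hβ x hx2
      calc ‖Q (D.xa β) i j - Q (D.xa α) i j‖
          = ‖(Q x i j - Q (D.xa α) i j) - (Q x i j - Q (D.xa β) i j)‖ := by
            congr 1; ring
        _ ≤ ‖Q x i j - Q (D.xa α) i j‖ + ‖Q x i j - Q (D.xa β) i j‖ := norm_sub_le _ _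
        _ ≤ C / N + C / N := add_le_add h1 h2
        _ ≤ A / N := by
            rw [← add_div]
            exact div_le_div_of_nonneg_right (by rw [hA]; linarith) hNpos.le
    let R' : D.ι → D.ι → Prop := fun α β => α ∈ D.s ∧ β ∈ D.s ∧ R α β
    have h1 := hC' N hN1 D (A / N) (by
      exact div_le_div_of_nonneg_right (by have := S.hC; rw [hA]; linarith) hNpos.le)
      (by rw [div_le_one hNpos]; exact hAN) R'
      (fun α β h i j => hR α h.1 β h.2.1 h.2.2 i j) ζ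
    refine le_trans (le_of_eq ?_) h1
    congr 1
    have e1 : Bb E F (G3 Q P J) f f' =
        ∑ α ∈ D.s, ∑ β ∈ D.s, Bb E F (G3 Q P J) (cx (D.φ α) * f) (cx (D.φ β) * f') := by
      have e2 : f = ∑ α ∈ D.s, cx (D.φ α) * f := by
        rw [← Finset.sum_mul, cx_sum, one_mul]
      have e3 : f' = ∑ α ∈ D.s, cx (D.φ α) * f' := by
        rw [← Finset.sum_mul, cx_sum, one_mul]
      have e4 : Bb E F (G3 Q P J) f f' =
          Bb E F (G3 Q P J) (∑ α ∈ D.s, cx (D.φ α) * f) (∑ α ∈ D.s, cx (D.φ α) * f') := by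
        rw [← e2, ← e3]
      rw [e4, map_sum (Bb E F (G3 Q P J)), LinearMap.sum_apply]
      refine Finset.sum_congr rfl fun α _ => ?_
      exact map_sum (Bb E F (G3 Q P J) (cx (D.φ α) * f)) _ _
    rw [e1, _root_.sum_apply, inner_sum]
    refine Finset.sum_congr rfl fun α hα => ?_
    rw [_root_.sum_apply, inner_sum]
    refine Finset.sum_congr rfl fun β hβ => ?_
    by_cases hab : R' α β
    · rw [if_pos hab]
    · rw [if_neg hab]
      have hd : Disjoint (tsupport (D.φ α)) (tsupport (D.φ β)) := by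
        by_contra h
        exact hab ⟨hα, hβ, h⟩
      have hs : ∀ (γ : D.ι) (g : C(X, ℂ)), tsupport (cx (D.φ γ) * g) ⊆ tsupport (D.φ γ) := by
        intro γ g
        refine closure_mono fun x hx h0 => hx ?_
        simp [h0]
      rw [far S ht hO _ _ (hd.mono (hs α f) (hs β f'))]
      simp
  have hlim : Tendsto (fun N : ℕ => C' * (A / (N : ℝ)) ^ 2 * ‖ζ‖ ^ 2) atTop (𝓝 0) := by
    have h1 := (((tendsto_const_div_atTop_nhds_zero_nat A).pow 2).const_mul C').mul_const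
      (‖ζ‖ ^ 2)
    simpa using h1
  have hle : ‖⟪ζ, (Bb E F (G3 Q P J) f f') ζ⟫_ℂ‖ ≤ 0 := by
    apply ge_of_tendsto hlim
    filter_upwards [eventually_ge_atTop (max N₀ (⌈A⌉₊ + 1))] with N hN
    exact key N hN
  exact norm_le_zero_iff.mp hle

/-- all first order blocks are killed -/
theorem blocks (S : Std v Q P J C E F p q)
    (ht : ∀ x x', x ≠ x' → ∑ i : Fin n × Fin n, en Q i.1 i.2 x * en Q i.2 i.1 x' ≠ 1)
    (hO : ∀ f g : C(X, ℂ), Disjoint (tsupport f) (tsupport g) →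
      T3 E F (iX f * iY g * om2 (J3 J) (p3 Q) (p3' Q)) = 0)
    (f : C(X, ℂ)) (g : C(Z, ℂ)) (i j : Fin n) :
    T2 E F (zx f g * h2 Q P J i j) = 0 ∧ T2 E F (zx f g * s2 Q P J j i) = 0 := by
  have h0 : ∀ ζ : K, q * (⟪ζ, Wg E F f (h2 Q P J i j) (s2 Q P J j i) ζ⟫_ℂ).re = 0 ∧
      q * (⟪ζ, Wg E F f (s2 Q P J j i) (h2 Q P J i j) ζ⟫_ℂ).re = 0 := by
    intro ζ
    have a1 := gram_zero S ht hO f (star f) ζ
    rw [Bb_apply, G3_eq, Finset.mul_sum, map_sum, _root_.sum_apply, inner_sum] at a1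
    have a2 : ∑ i, ∑ j, (q * (⟪ζ, Wg E F f (h2 Q P J i j) (s2 Q P J j i) ζ⟫_ℂ).re +
        q * (⟪ζ, Wg E F f (s2 Q P J j i) (h2 Q P J i j) ζ⟫_ℂ).re) = 0 := by
      have a3 := congrArg (fun c : ℂ => q * c.re) a1
      simp only [Complex.zero_re, mul_zero] at a3
      rw [← a3, Complex.re_sum, Finset.mul_sum]
      refine Finset.sum_congr rfl fun i _ => ?_
      rw [Finset.mul_sum, map_sum, _root_.sum_apply, inner_sum, Complex.re_sum, Finset.mul_sum]
      refine Finset.sum_congr rfl fun j _ => ?_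
      rw [mul_add (iX f * iY (star f)), map_add, ContinuousLinearMap.add_apply, inner_add_right,
        Complex.add_re, mul_add]
      rfl
    have b1 : ∀ i j, 0 ≤ q * (⟪ζ, Wg E F f (h2 Q P J i j) (s2 Q P J j i) ζ⟫_ℂ).re :=
      fun i j => Wg_nonneg S.hE S.hF S.hq f _ _ (s2_conj S i j) ζ
    have b2 : ∀ i j, 0 ≤ q * (⟪ζ, Wg E F f (s2 Q P J j i) (h2 Q P J i j) ζ⟫_ℂ).re :=
      fun i j => Wg_nonneg S.hE S.hF S.hq f _ _ (h2_conj S i j) ζ
    have c1 := (Finset.sum_eq_zero_iff_of_nonneg (fun i _ =>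
      Finset.sum_nonneg fun j _ => add_nonneg (b1 i j) (b2 i j))).1 a2 i (Finset.mem_univ i)
    have c2 := (Finset.sum_eq_zero_iff_of_nonneg
      (fun j _ => add_nonneg (b1 i j) (b2 i j))).1 c1 j (Finset.mem_univ j)
    have d1 := b1 i j
    have d2 := b2 i j
    constructor <;> linarith
  constructor
  · rw [← star_eq_zero]
    ext ζ
    have h1 := Wg_gram S.hE S.hF S.hq f g (h2 Q P J i j) (s2 Q P J j i) (s2_conj S i j) ζ
    rw [(h0 ζ).1, mul_zero] at h1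
    have h3 : ‖star (T2 E F (zx f g * h2 Q P J i j)) ζ‖ = 0 := by
      have := sq_nonneg ‖star (T2 E F (zx f g * h2 Q P J i j)) ζ‖
      exact pow_eq_zero_iff (two_ne_zero) |>.1 (le_antisymm h1 this)
    simpa using h3
  · rw [← star_eq_zero]
    ext ζ
    have h1 := Wg_gram S.hE S.hF S.hq f g (s2 Q P J j i) (h2 Q P J i j) (h2_conj S i j) ζ
    rw [(h0 ζ).2, mul_zero] at h1
    have h3 : ‖star (T2 E F (zx f g * s2 Q P J j i)) ζ‖ = 0 := by
      have := sq_nonneg ‖star (T2 E F (zx f g * s2 Q P J j i)) ζ‖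
      exact pow_eq_zero_iff (two_ne_zero) |>.1 (le_antisymm h1 this)
    simpa using h3

theorem mem_Kl2_of {t : R2 X Z} (h : ∀ a b, T2 E F (zx a b * t) = 0) : t ∈ Kl2 E F := by
  rw [mem_Kl2]
  intro s
  refine zx_ind (p := fun s => T2 E F (s * t) = 0) s ?_ h ?_
  · rw [zero_mul, map_zero]
  · intro s s' hs ht
    rw [add_mul, map_add, hs, ht, add_zero]

/-- **the relations of an incident pair** -/
theorem rels (S : Std v Q P J C E F p q)
    (ht : ∀ x x', x ≠ x' → ∑ i : Fin n × Fin n, en Q i.1 i.2 x * en Q i.2 i.1 x' ≠ 1)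
    (hO : ∀ f g : C(X, ℂ), Disjoint (tsupport f) (tsupport g) →
      T3 E F (iX f * iY g * om2 (J3 J) (p3 Q) (p3' Q)) = 0)
    (a : C(X, ℂ)) (b : C(Z, ℂ)) (i j : Fin n) :
    (∑ k, E (a * en Q i k) * F (en P k j * b) = E (a * en Q i j) * F b) ∧
    (∑ k, E (a * en Q k j) * F (en P i k * b) = E (a * en Q i j) * F b) := by
  set mk : R2 X Z →+* R2 X Z ⧸ Kl2 E F := Ideal.Quotient.mk (Kl2 E F) with hmk
  have hk : ∀ t, OrR v Q P J C 2 t → mk t = 0 := fun t ht =>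
    Ideal.Quotient.eq_zero_iff_mem.2 (mem2 S ht)
  have hi := inc_of S mk hk
  have hJ : Sy ((J2 J).map mk) := Sy.map mk (J2_sy S.hJ)
  have hp : PtR ((J2 J).map mk) ((p2 Q).map mk) := PtR.map mk (p2_pt S.hPt)
  have hh0 : hh ((J2 J).map mk) ((p2 Q).map mk) ((q2 P).map mk) = 0 := by
    rw [hh_map]
    ext i j
    exact Ideal.Quotient.eq_zero_iff_mem.2 (mem_Kl2_of fun a b => (blocks S ht hO a b i j).1)
  have hs0 : hs ((J2 J).map mk) ((p2 Q).map mk) ((q2 P).map mk) = 0 := by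
    rw [hs_map]
    ext j i
    exact Ideal.Quotient.eq_zero_iff_mem.2 (mem_Kl2_of fun a b => (blocks S ht hO a b i j).2)
  have l0 := exact_l hJ hp hi hs0
  have r0 := exact_r hJ hp hi hh0
  have l1 : ((1 - q2 P) * p2 Q : Matrix (Fin n) (Fin n) (R2 X Z)) i j ∈ Kl2 E F := by
    rw [← map_one_sub, ← Matrix.map_mul] at l0
    exact Ideal.Quotient.eq_zero_iff_mem.1 (congrFun (congrFun l0 i) j)
  have r1 : (p2 Q * (1 - q2 P) : Matrix (Fin n) (Fin n) (R2 X Z)) i j ∈ Kl2 E F := by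
    rw [← map_one_sub, ← Matrix.map_mul] at r0
    exact Ideal.Quotient.eq_zero_iff_mem.1 (congrFun (congrFun r0 i) j)
  constructor
  · have h := mem_Kl2.1 r1 (zx a b)
    have e1 : zx a b * (p2 Q * (1 - q2 P) : Matrix (Fin n) (Fin n) (R2 X Z)) i j =
        zx (a * en Q i j) b - ∑ k, zx (a * en Q i k) (en P k j * b) := by
      rw [Matrix.mul_sub, Matrix.mul_one, Matrix.sub_apply, mul_apply, mul_sub, Finset.mul_sum]
      congr 1
      · change zx a b * jX (en Q i j) = _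
        rw [jX_apply, zx_mul, mul_one]
      · refine Finset.sum_congr rfl fun k _ => ?_
        change zx a b * (jX (en Q i k) * jZ (en P k j)) = _
        rw [jX_apply, jZ_apply, zx_mul, zx_mul, mul_one, one_mul, mul_comm b]
    rw [e1, map_sub, map_sum, sub_eq_zero] at h
    exact h.symm
  · have h := mem_Kl2.1 l1 (zx a b)
    have e1 : zx a b * ((1 - q2 P) * p2 Q : Matrix (Fin n) (Fin n) (R2 X Z)) i j =
        zx (a * en Q i j) b - ∑ k, zx (a * en Q k j) (en P i k * b) := by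
      rw [Matrix.sub_mul, Matrix.one_mul, Matrix.sub_apply, mul_apply, mul_sub, Finset.mul_sum]
      congr 1
      · change zx a b * jX (en Q i j) = _
        rw [jX_apply, zx_mul, mul_one]
      · refine Finset.sum_congr rfl fun k _ => ?_
        change zx a b * (jZ (en P i k) * jX (en Q k j)) = _
        rw [jX_apply, jZ_apply, zx_mul, zx_mul, mul_one, one_mul, mul_comm b]
    rw [e1, map_sub, map_sum, sub_eq_zero] at h
    exact h.symm

end Vale.Agent.P092.H378.C
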