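import Vale.Agent.P092.H378.C7
import Vale.Agent.P092.H878.CCg
import Vale.Agent.P092.H616.CO

/-!
# P092, Track C, part 8: the relations of an incident pair over `ℂ` (`RelA`)

The point letter `E` and the line letter `F` of `Sp_4(ℂ)`, both of mass one, `E f * F g = 0` when
no element of the support of `f` is incident with one of the support of `g`, and Lemma O for `E`:
then `E` and `F` satisfy the relations `X P = X` and `P X = X` of an incident pair.
-/

set_option linter.unusedSectionVars false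
set_option linter.unusedVariables false

namespace Vale.Agent.P092.H378.C

open Finset Matrix TensorProduct Topology
open Vale.Agent.P092.H828.P (UL)
open Vale.Agent.P092.H283.Car (en en_apply)
open Vale.Agent.P092.H878.CC Vale.Agent.P092.H616.CH
open Vale.Agent.P092.RC (YY)
open Vale.Agent.P092.SP4

section gen

variable {n : ℕ} {X Z : Type*} [TopologicalSpace X] [CompactSpace X] [T2Space X]
  [TopologicalSpace Z] [CompactSpace Z] [T2Space Z]
  {K : Type*} [NormedAddCommGroup K] [InnerProductSpace ℂ K] [CompleteSpace K]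
  {E : C(X, ℂ) →ₗ[ℂ] (K →L[ℂ] K)} {F : C(Z, ℂ) →ₗ[ℂ] (K →L[ℂ] K)}
  {Q : C(X, Matrix (Fin n) (Fin n) ℂ)} {J : Matrix (Fin n) (Fin n) ℂ}

/-- the symbol of Lemma O, in coordinates -/
theorem T3_om2 (hF1 : F 1 = 1) (f g : C(X, ℂ)) :
    T3 E F (iX f * iY g * om2 (J3 J) (p3 Q) (p3' Q)) =
      ∑ a, ∑ d, ∑ c, ∑ b, (J b c * J a d) • (E (f * en Q b a) * E (g * en Q c d)) := by
  have e : (iX f * iY g * om2 (J3 J) (p3 Q) (p3' Q) : R3 X Z) =
      ∑ a, ∑ d, ∑ c, ∑ b, (J b c * J a d) • xzx (f * en Q b a) 1 (g * en Q c d) := by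
    rw [om2, trace]
    simp only [diag_apply, Matrix.mul_apply, transpose_apply, p3_apply, p3'_apply, J3_apply,
      Finset.mul_sum, Finset.sum_mul]
    refine Finset.sum_congr rfl fun a _ => Finset.sum_congr rfl fun d _ =>
      Finset.sum_congr rfl fun c _ => Finset.sum_congr rfl fun b _ => ?_
    have h1 : (xzx (f * en Q b a) 1 (g * en Q c d) : R3 X Z) =
        iX f * iX (en Q b a) * (iY g * iY (en Q c d)) := by
      rw [← map_mul, ← map_mul, iX_apply, iY_apply, xzx_mul, mul_one, mul_one, one_mul]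
    rw [h1, Algebra.smul_def, map_mul]
    ring
  rw [e]
  simp only [map_sum, map_smul, T3_xzx, hF1, one_mul]

end gen

/-- the symbol of Lemma O is a sum of squares -/
theorem sym_val (x y : YY ℂ 3) :
    ∑ a, ∑ d, ((XC x)ᵀ * J4 ℂ * XC y) a d * J4 ℂ a d =
      ((∑ a, ∑ b, ‖((XC x)ᵀ * J4 ℂ * XC y) a b‖ ^ 2 : ℝ) : ℂ) := by
  have hM : (XC x)ᵀ * J4 ℂ * XC y =
      (vC x ⬝ᵥ (J4 ℂ *ᵥ vC y)) • vecMulVec (star (vC x)) (star (vC y)) := by
    rw [XC_eq x, XC_eq y, transpose_vmv, vmv4]
  have hx : ∑ a, star (vC x a) * vC x a = 1 := vC_unit x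
  have hy : ∑ a, star (vC y a) * vC y a = 1 := vC_unit y
  have hw : ∑ a, ∑ d, star (vC x a) * star (vC y d) * J4 ℂ a d =
      star (vC x ⬝ᵥ (J4 ℂ *ᵥ vC y)) := by
    rw [dotProduct, star_sum]
    refine Finset.sum_congr rfl fun a _ => ?_
    rw [mulVec, dotProduct, star_mul', star_sum, Finset.mul_sum]
    refine Finset.sum_congr rfl fun d _ => ?_
    have hJ : star (J4 ℂ a d) = J4 ℂ a d := congrFun (congrFun J4_real a) d
    rw [star_mul', hJ]
    ring
  rw [hM]
  generalize vC x ⬝ᵥ (J4 ℂ *ᵥ vC y) = w at hw ⊢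
  have e1 : ∀ z : ℂ, ((‖z‖ : ℂ)) ^ 2 = z * star z := fun z => by
    rw [← Complex.mul_conj']
    rfl
  push_cast
  simp only [Matrix.smul_apply, vecMulVec_apply, smul_eq_mul, Pi.star_apply, e1, star_mul', star_star]
  calc ∑ a, ∑ d, w * (star (vC x a) * star (vC y d)) * J4 ℂ a d
      = w * ∑ a, ∑ d, star (vC x a) * star (vC y d) * J4 ℂ a d := by
        rw [Finset.mul_sum]
        refine Finset.sum_congr rfl fun a _ => ?_
        rw [Finset.mul_sum]
        refine Finset.sum_congr rfl fun d _ => ?_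
        ring
    _ = w * star w * ((∑ a, star (vC x a) * vC x a) * ∑ a, star (vC y a) * vC y a) := by
        rw [hw, hx, hy]
        ring
    _ = _ := by
        rw [Finset.sum_mul_sum, Finset.mul_sum]
        refine Finset.sum_congr rfl fun a _ => ?_
        rw [Finset.mul_sum]
        refine Finset.sum_congr rfl fun d _ => ?_
        ring

/-- two disjoint closed sets of points are uniformly separated in coordinates -/
theorem sep (f g : C(YY ℂ 3, ℂ)) (hd : Disjoint (tsupport f) (tsupport g)) :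
    ∃ δ > 0, ∀ x ∈ tsupport f, ∀ y ∈ tsupport g, ∃ a b, δ ≤ ‖XC x a b - XC y a b‖ := by
  let D : YY ℂ 3 × YY ℂ 3 → ℝ := fun z => ∑ a, ∑ b, ‖XC z.1 a b - XC z.2 a b‖
  have hD : Continuous D := by
    refine continuous_finset_sum _ fun a _ => continuous_finset_sum _ fun b _ => ?_
    exact (((en XC a b).continuous.comp continuous_fst).sub
      ((en XC a b).continuous.comp continuous_snd)).norm
  have hK : IsCompact (tsupport f ×ˢ tsupport g) :=
    (isClosed_tsupport f).isCompact.prod (isClosed_tsupport g).isCompact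
  have hpos : ∀ z ∈ tsupport f ×ˢ tsupport g, 0 < D z := by
    rintro ⟨x, y⟩ ⟨hx, hy⟩
    have hxy : x ≠ y := fun h => Set.disjoint_left.1 hd hx (h ▸ hy)
    have h0 : ∀ a ∈ univ, ∀ b ∈ univ, (0 : ℝ) ≤ ‖XC x a b - XC y a b‖ :=
      fun a _ b _ => norm_nonneg _
    refine lt_of_le_of_ne (Finset.sum_nonneg fun a ha => Finset.sum_nonneg (h0 a ha)) ?_
    intro h
    refine hxy (geoC.injX ?_)
    ext a b
    have h1 := (Finset.sum_eq_zero_iff_of_nonneg
      (fun a ha => Finset.sum_nonneg (h0 a ha))).1 h.symm a (mem_univ a)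
    have h2 := (Finset.sum_eq_zero_iff_of_nonneg (h0 a (mem_univ a))).1 h1 b (mem_univ b)
    exact sub_eq_zero.1 (norm_eq_zero.1 h2)
  obtain ⟨δ, hδ, h⟩ := hK.exists_forall_le' hD.continuousOn hpos
  refine ⟨δ / 17, by positivity, fun x hx y hy => ?_⟩
  by_contra hc
  push Not at hc
  have h1 := h (x, y) ⟨hx, hy⟩
  have h2 : D (x, y) ≤ ∑ _a : Fin 4, ∑ _b : Fin 4, δ / 17 :=
    Finset.sum_le_sum fun a _ => Finset.sum_le_sum fun b _ => (hc a b).le
  simp only [Finset.sum_const, Finset.card_univ, Fintype.card_fin, nsmul_eq_mul] at h2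
  push_cast at h2
  linarith

/-- **the hypothesis of the far part from Lemma O** -/
theorem o2_far {K : Type*} [NormedAddCommGroup K] [InnerProductSpace ℂ K] [CompleteSpace K]
    {E : C(YY ℂ 3, ℂ) →ₗ[ℂ] (K →L[ℂ] K)} (hO : O2 E) (f g : C(YY ℂ 3, ℂ))
    (hd : Disjoint (tsupport f) (tsupport g)) :
    ∑ a, ∑ d, ∑ c, ∑ b, (J4 ℂ b c * J4 ℂ a d) • (E (f * en XC b a) * E (g * en XC c d)) = 0 := by
  classical
  obtain ⟨δ, hδ, hsep⟩ := sep f g hd
  let I := Fin 4 × Fin 4 × Fin 4 × Fin 4
  let e : I ≃ Fin (Fintype.card I) := Fintype.equivFin I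
  let u : I → C(YY ℂ 3, ℂ) := fun t => (J4 ℂ t.2.2.2 t.2.2.1 * J4 ℂ t.1 t.2.1) •
    (f * en XC t.2.2.2 t.1)
  let w : I → C(YY ℂ 3, ℂ) := fun t => g * en XC t.2.2.1 t.2.1
  have hval : ∀ x y, ∑ i, (fun i => u (e.symm i)) i x * (fun i => w (e.symm i)) i y =
      f x * g y * ((∑ a, ∑ b, ‖((XC x)ᵀ * J4 ℂ * XC y) a b‖ ^ 2 : ℝ) : ℂ) := by
    intro x y
    rw [← sym_val]
    have h1 : ∑ i, (fun i => u (e.symm i)) i x * (fun i => w (e.symm i)) i y =
        ∑ t : I, u t x * w t y := Equiv.sum_comp e.symm fun t => u t x * w t y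
    rw [h1, Fintype.sum_prod_type, Finset.mul_sum]
    refine Finset.sum_congr rfl fun a _ => ?_
    rw [Fintype.sum_prod_type, Finset.mul_sum]
    refine Finset.sum_congr rfl fun d _ => ?_
    rw [Fintype.sum_prod_type, Matrix.mul_apply, Finset.sum_mul, Finset.mul_sum]
    refine Finset.sum_congr rfl fun c _ => ?_
    rw [Matrix.mul_apply, Finset.sum_mul, Finset.sum_mul, Finset.mul_sum]
    refine Finset.sum_congr rfl fun b _ => ?_
    change ((J4 ℂ b c * J4 ℂ a d) • (f * en XC b a)) x * (g * en XC c d) y = _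
    simp only [ContinuousMap.smul_apply, ContinuousMap.mul_apply, en_apply, smul_eq_mul,
      transpose_apply]
    ring
  have h := hO (Fintype.card I) (fun i => u (e.symm i)) (fun i => w (e.symm i)) (‖f‖ * ‖g‖) δ hδ
    (fun x y => by
      rw [hval, norm_mul, norm_mul, Complex.norm_real, Real.norm_of_nonneg
        (Finset.sum_nonneg fun a _ => Finset.sum_nonneg fun b _ => by positivity)]
      exact mul_le_mul_of_nonneg_right (mul_le_mul (f.norm_coe_le_norm x) (g.norm_coe_le_norm y)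
        (norm_nonneg _) (norm_nonneg _))
        (Finset.sum_nonneg fun a _ => Finset.sum_nonneg fun b _ => by positivity))
    (fun x y hxy => by
      rw [hval]
      by_cases hx : x ∈ tsupport f
      · by_cases hy : y ∈ tsupport g
        · obtain ⟨a, b, hab⟩ := hsep x hx y hy
          exact absurd (hxy a b) (not_lt.2 hab)
        · rw [image_eq_zero_of_notMem_tsupport hy, mul_zero, zero_mul]
      · rw [image_eq_zero_of_notMem_tsupport hx, zero_mul, zero_mul])
  have h1 : ∑ i, E ((fun i => u (e.symm i)) i) * E ((fun i => w (e.symm i)) i) =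
      ∑ t : I, E (u t) * E (w t) := Equiv.sum_comp e.symm fun t => E (u t) * E (w t)
  rw [h1, Fintype.sum_prod_type] at h
  rw [← h]
  refine Finset.sum_congr rfl fun a _ => ?_
  rw [Fintype.sum_prod_type]
  refine Finset.sum_congr rfl fun d _ => ?_
  rw [Fintype.sum_prod_type]
  refine Finset.sum_congr rfl fun c _ => Finset.sum_congr rfl fun b _ => ?_
  change _ = E ((J4 ℂ b c * J4 ℂ a d) • (f * en XC b a)) * E (g * en XC c d)
  rw [map_smul, smul_mul_assoc]

/-- the trace separates points -/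
theorem tr_ne {x y : YY ℂ 3} (h : x ≠ y) :
    ∑ i : Fin 4 × Fin 4, en XC i.1 i.2 x * en XC i.2 i.1 y ≠ 1 := by
  intro h1
  apply h
  apply geoC.injX
  have tt : ∀ z : YY ℂ 3, ∑ i, ∑ j, XC z i j * XC z j i = 1 := by
    intro z
    have h2 := (geoC.pt z).tr
    rw [← (geoC.pt z).idem] at h2
    simpa [Matrix.mul_apply] using h2
  have hs : ∀ (z : YY ℂ 3) i j, star (XC z i j) = XC z j i := fun z => (geoC.pt z).herm
  rw [Fintype.sum_prod_type] at h1
  simp only [en_apply] at h1
  have h2 : ∑ i, ∑ j, XC y i j * XC x j i = 1 := by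
    rw [Finset.sum_comm, ← h1]
    exact Finset.sum_congr rfl fun i _ => Finset.sum_congr rfl fun j _ => mul_comm _ _
  have h3 : ((∑ i, ∑ j, ‖XC x i j - XC y i j‖ ^ 2 : ℝ) : ℂ) = 0 := by
    push_cast
    have e1 : ∀ i j, ((‖XC x i j - XC y i j‖ : ℂ)) ^ 2 = XC x i j * XC x j i -
        XC x i j * XC y j i - XC y i j * XC x j i + XC y i j * XC y j i := fun i j => by
      rw [← Complex.mul_conj']
      change (XC x i j - XC y i j) * star (XC x i j - XC y i j) = _
      rw [star_sub, hs, hs]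
      ring
    simp only [e1, Finset.sum_add_distrib, Finset.sum_sub_distrib]
    rw [tt x, tt y, h1, h2]
    ring
  have h4 : ∑ i, ∑ j, ‖XC x i j - XC y i j‖ ^ 2 = 0 := by exact_mod_cast h3
  ext i j
  have h5 := (Finset.sum_eq_zero_iff_of_nonneg (fun i _ =>
    Finset.sum_nonneg fun j _ => sq_nonneg ‖XC x i j - XC y i j‖)).1 h4 i (mem_univ i)
  have h6 := (Finset.sum_eq_zero_iff_of_nonneg
    (fun j _ => sq_nonneg ‖XC x i j - XC y i j‖)).1 h5 j (mem_univ j)
  exact sub_eq_zero.1 (norm_eq_zero.1 (pow_eq_zero_iff two_ne_zero |>.1 h6))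

/-- **the relations of an incident pair of letters over `ℂ`** -/
theorem relA : H616.CO.RelA := by
  intro K _ _ _ E F hE hF hI hO
  obtain ⟨C, hC, N₀, hcell⟩ := cellsC
  have S : Std vC XC PC (J4 ℂ) C E F 1 1 :=
    { hp := zero_le_one
      hq := zero_le_one
      hE := hE
      hF := hF
      hC := hC.le
      hcell := ⟨N₀, hcell⟩
      hI := fun f g h => hI f g fun x hx z hz hxz => h x hx z hz ((incC x z).1 hxz)
      hv := vC_unit
      hQ := XC_eq
      hJ := syC
      hJr := J4_real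
      hPt := ptC
      hLg := lgC
      hPh := PC_herm }
  have hF1 : F 1 = 1 := by
    have h := hF.one
    simpa using h
  have R := rels S (fun x x' h => tr_ne h)
    (fun f g hd => by rw [T3_om2 hF1]; exact o2_far hO f g hd)
  exact H616.Cx.Rel.mk' geoC hE.star hF.star (fun a b i j => (R a b i j).1)
    (fun a b i j => (R a b i j).2)

end Vale.Agent.P092.H378.C
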