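import Vale.Agent.P092.H378.C7

/-!
# P092, Track H, operator side, part 1: the end of the Gram argument, for any symbol

No cells, no form: a sequence of partitions of unity along which the near sums of the symbol tend
to zero, and the symbol killed off the diagonal. Then every factor of the symbol is killed.
-/

set_option linter.unusedSectionVars false
set_option linter.unusedVariables false

namespace Vale.Agent.P092.H378.D

open Finset Matrix Filter Topology
open scoped InnerProductSpace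
open Vale.Agent.P092.H828.P (UL)
open Vale.Agent.P092.H283.Car (en en_apply div)
open Vale.Agent.P092.H283.Syn (cx cx_apply)
open Vale.Agent.P092.H378.C

/-- a finite partition of unity -/
structure PU (X : Type*) [TopologicalSpace X] where
  /-- the index type -/
  ι : Type
  /-- the index set -/
  s : Finset ι
  /-- the functions -/
  φ : ι → C(X, ℝ)
  one : ∀ x, ∑ α ∈ s, φ α x = 1

variable {X Z : Type*} [TopologicalSpace X] [CompactSpace X] [TopologicalSpace Z] [CompactSpace Z]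
  {K : Type*} [NormedAddCommGroup K] [InnerProductSpace ℂ K] [CompleteSpace K]
  {E : C(X, ℂ) →ₗ[ℂ] (K →L[ℂ] K)} {F : C(Z, ℂ) →ₗ[ℂ] (K →L[ℂ] K)} {p q : ℝ}

open Classical in
/-- the near sum of a product of two letters along a partition of unity -/
noncomputable def nearS (E : C(X, ℂ) →ₗ[ℂ] (K →L[ℂ] K)) (F : C(Z, ℂ) →ₗ[ℂ] (K →L[ℂ] K))
    (D : PU X) (t : R3 X Z) (f f' : C(X, ℂ)) (ζ : K) : ℂ :=
  ∑ α ∈ D.s, ∑ β ∈ D.s, if Disjoint (tsupport (D.φ α)) (tsupport (D.φ β)) then 0 else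
    ⟪ζ, (Bb E F t (cx (D.φ α) * f) (cx (D.φ β) * f')) ζ⟫_ℂ

/-- the near sums of `iL t * iR t'` tend to zero -/
def NearK (E : C(X, ℂ) →ₗ[ℂ] (K →L[ℂ] K)) (F : C(Z, ℂ) →ₗ[ℂ] (K →L[ℂ] K))
    (D : ℕ → PU X) (t t' : R2 X Z) : Prop :=
  ∀ f f' ζ, Tendsto (fun N => nearS E F (D N) (iL t * iR t') f f' ζ) atTop (𝓝 0)

theorem nearS_sum {τ : Type*} (A : Finset τ) (t : τ → R3 X Z) (D : PU X) (f f' : C(X, ℂ))
    (ζ : K) : nearS E F D (∑ k ∈ A, t k) f f' ζ = ∑ k ∈ A, nearS E F D (t k) f f' ζ := by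
  classical
  symm
  unfold nearS
  rw [Finset.sum_comm]
  refine Finset.sum_congr rfl fun α _ => ?_
  rw [Finset.sum_comm]
  refine Finset.sum_congr rfl fun β _ => ?_
  by_cases h : Disjoint (tsupport (D.φ α)) (tsupport (D.φ β))
  · simp only [if_pos h, Finset.sum_const_zero]
  · simp only [if_neg h]
    rw [Bb_apply, Finset.mul_sum, map_sum, _root_.sum_apply, inner_sum]
    rfl

theorem PU.cx_one (D : PU X) : ∑ α ∈ D.s, cx (D.φ α) = 1 := by
  ext x
  simp only [ContinuousMap.coe_sum, Finset.sum_apply, cx_apply, ContinuousMap.one_apply]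
  rw [← Complex.ofReal_sum, D.one x]
  simp

/-- a symbol which is killed off the diagonal is the sum of its near part -/
theorem full_eq_near (D : PU X) {t : R3 X Z}
    (hfar : ∀ f g : C(X, ℂ), Disjoint (tsupport f) (tsupport g) →
      T3 E F (iX f * iY g * t) = 0) (f f' : C(X, ℂ)) (ζ : K) :
    ⟪ζ, (Bb E F t f f') ζ⟫_ℂ = nearS E F D t f f' ζ := by
  classical
  have e1 : Bb E F t f f' =
      ∑ α ∈ D.s, ∑ β ∈ D.s, Bb E F t (cx (D.φ α) * f) (cx (D.φ β) * f') := by
    have e2 : f = ∑ α ∈ D.s, cx (D.φ α) * f := by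
      rw [← Finset.sum_mul, D.cx_one, one_mul]
    have e3 : f' = ∑ α ∈ D.s, cx (D.φ α) * f' := by
      rw [← Finset.sum_mul, D.cx_one, one_mul]
    have e4 : Bb E F t f f' =
        Bb E F t (∑ α ∈ D.s, cx (D.φ α) * f) (∑ α ∈ D.s, cx (D.φ α) * f') := by
      rw [← e2, ← e3]
    rw [e4, map_sum (Bb E F t), LinearMap.sum_apply]
    refine Finset.sum_congr rfl fun α _ => ?_
    exact map_sum (Bb E F t (cx (D.φ α) * f)) _ _
  rw [e1, _root_.sum_apply, inner_sum, nearS]
  refine Finset.sum_congr rfl fun α hα => ?_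
  rw [_root_.sum_apply, inner_sum]
  refine Finset.sum_congr rfl fun β hβ => ?_
  by_cases hd : Disjoint (tsupport (D.φ α)) (tsupport (D.φ β))
  · rw [if_pos hd]
    have hs : ∀ (γ : D.ι) (g : C(X, ℂ)), tsupport (cx (D.φ γ) * g) ⊆ tsupport (D.φ γ) := by
      intro γ g
      refine closure_mono fun x hx h0 => hx ?_
      simp [h0]
    rw [Bb_apply, hfar _ _ (hd.mono (hs α f) (hs β f'))]
    simp
  · rw [if_neg hd]

/-- **division off the diagonal** -/
theorem far_div {n : ℕ} {Q : C(X, Matrix (Fin n) (Fin n) ℂ)} (hE : UL E p)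
    (ht : ∀ x x', x ≠ x' → ∑ i : Fin n × Fin n, en Q i.1 i.2 x * en Q i.2 i.1 x' ≠ 1)
    {G o : R3 X Z} (h : (1 - (p3 Q * p3' Q).trace) * G - o ∈ Kl3 E F)
    (hO : ∀ f g : C(X, ℂ), Disjoint (tsupport f) (tsupport g) → T3 E F (iX f * iY g * o) = 0)
    (f g : C(X, ℂ)) (hd : Disjoint (tsupport f) (tsupport g)) :
    T3 E F (iX f * iY g * G) = 0 := by
  obtain ⟨M, hM, hB⟩ := Bb_bound (F := F) hE G
  refine div (fun x : Fin n × Fin n => en Q x.1 x.2) (fun x => en Q x.2 x.1) ht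
    (Bb E F G) hM hB (fun u u' hu => ?_) f g hd
  have h1 := mem_Kl3.1 h (iX u * iY u')
  have e1 : iX u * iY u' * ((1 - (p3 Q * p3' Q).trace) * G - o) =
      (iX u * iY u' * G) - ∑ x : Fin n × Fin n, iX (u * en Q x.1 x.2) * iY (u' * en Q x.2 x.1) * G -
      iX u * iY u' * o := by
    have e2 : (p3 Q * p3' Q).trace = ∑ x : Fin n × Fin n, (iX (en Q x.1 x.2) * iY (en Q x.2 x.1) :
        R3 X Z) := by
      rw [trace, Fintype.sum_prod_type]
      refine Finset.sum_congr rfl fun i _ => ?_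
      rw [diag_apply, mul_apply]
      refine Finset.sum_congr rfl fun j _ => ?_
      rw [p3_apply, p3'_apply]
    have e3 : ∑ x : Fin n × Fin n, iX (u * en Q x.1 x.2) * iY (u' * en Q x.2 x.1) * G =
        iX u * iY u' * ((p3 Q * p3' Q).trace * G) := by
      rw [e2, Finset.sum_mul, Finset.mul_sum]
      refine Finset.sum_congr rfl fun x _ => ?_
      rw [map_mul, map_mul]
      ring
    rw [e3]
    ring
  rw [e1, map_sub, map_sub, hO u u' hu, sub_zero, map_sum, sub_eq_zero] at h1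
  exact h1

/-- **the Gram operator of the symbol vanishes** -/
theorem gram_zero {D : ℕ → PU X} {τ : Type*} (A : Finset τ) (t s : τ → R2 X Z)
    (hn : ∀ k ∈ A, NearK E F D (t k) (s k))
    (hfar : ∀ f g : C(X, ℂ), Disjoint (tsupport f) (tsupport g) →
      T3 E F (iX f * iY g * ∑ k ∈ A, iL (t k) * iR (s k)) = 0) (f f' : C(X, ℂ)) (ζ : K) :
    ⟪ζ, (Bb E F (∑ k ∈ A, iL (t k) * iR (s k)) f f') ζ⟫_ℂ = 0 := by
  have h1 : Tendsto (fun N => nearS E F (D N) (∑ k ∈ A, iL (t k) * iR (s k)) f f' ζ) atTop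
      (𝓝 0) := by
    have h2 : Tendsto (fun N => ∑ k ∈ A, nearS E F (D N) (iL (t k) * iR (s k)) f f' ζ) atTop
        (𝓝 (∑ k ∈ A, 0)) := tendsto_finset_sum A fun k hk => hn k hk f f' ζ
    rw [Finset.sum_const_zero] at h2
    exact h2.congr fun N => (nearS_sum A _ (D N) f f' ζ).symm
  have h2 : Tendsto (fun _ : ℕ => ⟪ζ, (Bb E F (∑ k ∈ A, iL (t k) * iR (s k)) f f') ζ⟫_ℂ) atTop
      (𝓝 0) := h1.congr fun N => (full_eq_near (D N) hfar f f' ζ).symm
  exact tendsto_nhds_unique tendsto_const_nhds h2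

/-- **the end of the Gram argument**: every factor is killed -/
theorem gram_end (hE : UL E p) (hF : UL F q) (hq : 0 ≤ q) {D : ℕ → PU X} {τ : Type*} [Fintype τ]
    (t s : τ → R2 X Z) (hs : ∀ k y, evr y (s k) = star (evr y (t k)))
    (hn : ∀ k, NearK E F D (t k) (s k))
    (hfar : ∀ f g : C(X, ℂ), Disjoint (tsupport f) (tsupport g) →
      T3 E F (iX f * iY g * ∑ k, iL (t k) * iR (s k)) = 0) (k : τ) : t k ∈ Kl2 E F := by
  refine mem_Kl2_of fun f g => ?_
  have h0 : ∀ ζ : K, q * (⟪ζ, Wg E F f (t k) (s k) ζ⟫_ℂ).re = 0 := by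
    intro ζ
    have a1 := gram_zero univ t s (fun k _ => hn k) hfar f (star f) ζ
    rw [Bb_apply, Finset.mul_sum, map_sum, _root_.sum_apply, inner_sum] at a1
    have a2 : ∑ k, q * (⟪ζ, Wg E F f (t k) (s k) ζ⟫_ℂ).re = 0 := by
      have a3 := congrArg (fun c : ℂ => q * c.re) a1
      simp only [Complex.zero_re, mul_zero] at a3
      rw [← a3, Complex.re_sum, Finset.mul_sum]
      rfl
    exact (Finset.sum_eq_zero_iff_of_nonneg (fun k _ =>
      Wg_nonneg hE hF hq f _ _ (hs k) ζ)).1 a2 k (Finset.mem_univ k)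
  rw [← star_eq_zero]
  ext ζ
  have h1 := Wg_gram hE hF hq f g (t k) (s k) (hs k) ζ
  rw [h0 ζ, mul_zero] at h1
  have h3 : ‖star (T2 E F (zx f g * t k)) ζ‖ = 0 := by
    have := sq_nonneg ‖star (T2 E F (zx f g * t k)) ζ‖
    exact pow_eq_zero_iff (two_ne_zero) |>.1 (le_antisymm h1 this)
  simpa using h3

/-- the operator of two letters depends on the values only -/
theorem T2_ext {t t' : R2 X Z} (h : ∀ y, evr y t = evr y t') : T2 E F t = T2 E F t' := by
  obtain ⟨m, u, w, rfl⟩ := ex_sum t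
  obtain ⟨m', u', w', rfl⟩ := ex_sum t'
  rw [map_sum, map_sum]
  refine H283.Car.op_eq E F u w u' w' fun x z => ?_
  have h2 := h (x, z)
  simpa only [map_sum, evr_zx] using h2

/-- the operator of two letters in reversed order depends on the values only -/
theorem T2r_ext {t t' : R2 X Z} (h : ∀ y, evr y t = evr y t') : T2r E F t = T2r E F t' := by
  obtain ⟨m, u, w, rfl⟩ := ex_sum t
  obtain ⟨m', u', w', rfl⟩ := ex_sum t'
  rw [map_sum, map_sum]
  refine H283.Car.op_eq F E w u w' u' fun z x => ?_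
  have h2 := h (x, z)
  simp only [map_sum, evr_zx] at h2
  simpa only [mul_comm] using h2

/-- conjugation of two letters -/
theorem ex_conj (hE : UL E p) (hF : UL F q) (t : R2 X Z) :
    ∃ s : R2 X Z, (∀ y, evr y s = star (evr y t)) ∧ T2r E F s = star (T2 E F t) ∧
      T2 E F s = star (T2r E F t) := by
  obtain ⟨m, u, w, rfl⟩ := ex_sum t
  refine ⟨∑ r, zx (star (u r)) (star (w r)), fun y => ?_, ?_, ?_⟩
  · rw [map_sum, map_sum, star_sum]
    refine Finset.sum_congr rfl fun r _ => ?_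
    rw [evr_zx, evr_zx, star_mul', ContinuousMap.star_apply, ContinuousMap.star_apply]
  · rw [map_sum, map_sum, star_sum]
    refine Finset.sum_congr rfl fun r _ => ?_
    rw [T2r_zx, T2_zx, star_mul, hE.star, hF.star]
  · rw [map_sum, map_sum, star_sum]
    refine Finset.sum_congr rfl fun r _ => ?_
    rw [T2r_zx, T2_zx, star_mul, hE.star, hF.star]

/-- a killed element with its conjugate -/
theorem kl2r_of (hE : UL E p) (hF : UL F q) {t s : R2 X Z}
    (hs : ∀ y, evr y s = star (evr y t)) (h : t ∈ Kl2 E F) : s ∈ Kl2r E F := by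
  rw [mem_Kl2r]
  intro a
  obtain ⟨a', ha, -⟩ := ex_conj hE hF a
  obtain ⟨b, hb, hb2, -⟩ := ex_conj hE hF (a' * t)
  have h1 : T2r E F (a * s) = T2r E F b := T2r_ext fun y => by
    rw [hb y, map_mul, map_mul, star_mul', ha y, star_star, hs y]
  rw [h1, hb2, mem_Kl2.1 h a', star_zero]

theorem kl2_of (hE : UL E p) (hF : UL F q) {t s : R2 X Z}
    (hs : ∀ y, evr y s = star (evr y t)) (h : t ∈ Kl2r E F) : s ∈ Kl2 E F := by
  rw [mem_Kl2]
  intro a
  obtain ⟨a', ha, -⟩ := ex_conj hE hF a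
  obtain ⟨b, hb, -, hb2⟩ := ex_conj hE hF (a' * t)
  have h1 : T2 E F (a * s) = T2 E F b := T2_ext fun y => by
    rw [hb y, map_mul, map_mul, star_mul', ha y, star_star, hs y]
  rw [h1, hb2, mem_Kl2r.1 h a', star_zero]

end Vale.Agent.P092.H378.D
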