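import Vale.Agent.P092.H378.D1
import Vale.Agent.P092.H100.SU.A1

/-!
# P092, Track H, operator side, part 2: two Gram passes

`Q` points, `P` lines, `J` a hermitian form with `J * J = 1`. `O1`, `O2` ideals of the ring of two
letters (order one, order two). First pass: the entries of `p J q`, `q J p` are killed. Second pass:
the entries of `p nu`, `nu p` are killed. Hence the relations of an incident pair.
-/

set_option linter.unusedSectionVars false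
set_option linter.unusedVariables false

namespace Vale.Agent.P092.H378.D

open Finset Matrix Filter Topology TensorProduct
open scoped InnerProductSpace
open Vale.Agent.P092.H828.P (UL)
open Vale.Agent.P092.H283.Car (en en_apply)
open Vale.Agent.P092.H378.C
open Vale.Agent.P092.H100.SU (PtH LgH HInc nu g1 g2 main1 main2 pJq qJp q_nu nu_q)

section map

variable {R S : Type*} [CommRing R] [CommRing S] {n : Type*} [Fintype n] [DecidableEq n]
  (f : R →+* S) {J p q : Matrix n n R}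

theorem PtH.map (h : PtH J p) : PtH (J.map f) (p.map f) where
  idem := by rw [← Matrix.map_mul, h.idem]
  rk1 := fun i j k l => by
    simp only [Matrix.map_apply, ← map_mul, h.rk1 i j k l]
  tr := by rw [map_trace, h.tr, map_one]
  iso := by
    rw [← Matrix.map_mul, ← Matrix.map_mul, h.iso]
    ext i j
    simp

theorem LgH.map (h : LgH J q) : LgH (J.map f) (q.map f) where
  idem := by rw [← Matrix.map_mul, h.idem]
  iso := by
    rw [← Matrix.map_mul, ← Matrix.map_mul, h.iso]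
    ext i j
    simp
  minor := fun i c d a b j => by
    simp only [Matrix.map_apply, ← map_mul, ← map_sub, ← map_add, h.minor i c d a b j, map_zero]

theorem nu_map : nu (J.map f) (q.map f) = (nu J q).map f := by
  rw [nu, nu, ← Matrix.map_mul, ← Matrix.map_mul, ← map_one_sub]
  exact (Matrix.map_sub f (fun a b => map_sub f a b) _ _).symm

theorem g1_map (p' : Matrix n n R) :
    g1 (J.map f) (p.map f) (q.map f) (p'.map f) = f (g1 J p q p') := by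
  simp only [g1, ← Matrix.map_mul, map_trace]

theorem g2_map (p' : Matrix n n R) :
    g2 (J.map f) (p.map f) (q.map f) (p'.map f) = f (g2 J p q p') := by
  simp only [g2, nu_map, ← Matrix.map_mul, map_trace]

end map

section lift

variable {X : Type*} [TopologicalSpace X] {n : ℕ} {J : Matrix (Fin n) (Fin n) ℂ}
  {A : C(X, Matrix (Fin n) (Fin n) ℂ)}

theorem PtH.lift (h : ∀ x, PtH J (A x)) : PtH (J.map (algebraMap ℂ C(X, ℂ))) (mf A) where
  idem := mext fun x => by rw [Matrix.map_mul, mf_ev, (h x).idem]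
  rk1 := fun i j k l => by
    ext x
    exact (h x).rk1 i j k l
  tr := by
    ext x
    have h1 := map_trace (evp x) (mf A)
    rw [mf_ev, (h x).tr] at h1
    exact h1.symm
  iso := mext fun x => by
    rw [Matrix.map_mul, Matrix.map_mul, mf_ev, cst_ev, (h x).iso]
    ext i j
    rfl

theorem LgH.lift (h : ∀ x, LgH J (A x)) : LgH (J.map (algebraMap ℂ C(X, ℂ))) (mf A) where
  idem := mext fun x => by rw [Matrix.map_mul, mf_ev, (h x).idem]
  iso := mext fun x => by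
    rw [Matrix.map_mul, Matrix.map_mul, mf_ev, cst_ev, (h x).iso]
    ext i j
    rfl
  minor := fun i c d a b j => by
    ext x
    exact (h x).minor i c d a b j

end lift

variable {X Z : Type*} [TopologicalSpace X] [CompactSpace X] [TopologicalSpace Z] [CompactSpace Z]
  {K : Type*} [NormedAddCommGroup K] [InnerProductSpace ℂ K] [CompleteSpace K] {n : ℕ}
  {Q : C(X, Matrix (Fin n) (Fin n) ℂ)} {P : C(Z, Matrix (Fin n) (Fin n) ℂ)}
  {J : Matrix (Fin n) (Fin n) ℂ}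
  {E : C(X, ℂ) →ₗ[ℂ] (K →L[ℂ] K)} {F : C(Z, ℂ) →ₗ[ℂ] (K →L[ℂ] K)} {p q : ℝ}

section lift2

theorem p2_ptH (h : ∀ x, PtH J (Q x)) : PtH (J2 J : Matrix (Fin n) (Fin n) (R2 X Z)) (p2 Q) := by
  have h1 := PtH.map ((jX : C(X, ℂ) →ₐ[ℂ] R2 X Z) : C(X, ℂ) →+* R2 X Z) (PtH.lift h)
  have h2 : (J.map (algebraMap ℂ C(X, ℂ))).map ((jX : C(X, ℂ) →ₐ[ℂ] R2 X Z) : C(X, ℂ) →+* R2 X Z) =
      J2 J := by
    ext i j
    exact AlgHom.commutes (jX : C(X, ℂ) →ₐ[ℂ] R2 X Z) (J i j)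
  rw [h2] at h1
  exact h1

theorem q2_lgH (h : ∀ z, LgH J (P z)) : LgH (J2 J : Matrix (Fin n) (Fin n) (R2 X Z)) (q2 P) := by
  have h1 := LgH.map ((jZ : C(Z, ℂ) →ₐ[ℂ] R2 X Z) : C(Z, ℂ) →+* R2 X Z) (LgH.lift h)
  have h2 : (J.map (algebraMap ℂ C(Z, ℂ))).map ((jZ : C(Z, ℂ) →ₐ[ℂ] R2 X Z) : C(Z, ℂ) →+* R2 X Z) =
      J2 J := by
    ext i j
    exact AlgHom.commutes (jZ : C(Z, ℂ) →ₐ[ℂ] R2 X Z) (J i j)
  rw [h2] at h1
  exact h1

theorem J2_sq (h : J * J = 1) : (J2 J * J2 J : Matrix (Fin n) (Fin n) (R2 X Z)) = 1 := by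
  rw [J2, ← Matrix.map_mul, h, Matrix.map_one _ (map_zero _) (map_one _)]

/-- the eigenvalue of the form on the kernel part -/
theorem nu2 {c : ℂ} (h : ∀ z, nu J (P z) * J = c • nu J (P z)) :
    (nu (J2 J) (q2 P) * J2 J : Matrix (Fin n) (Fin n) (R2 X Z)) =
      (algebraMap ℂ (R2 X Z) c) • nu (J2 J) (q2 P) := by
  have h0 : nu (J.map (algebraMap ℂ C(Z, ℂ))) (mf P) * J.map (algebraMap ℂ C(Z, ℂ)) =
      (algebraMap ℂ C(Z, ℂ) c) • nu (J.map (algebraMap ℂ C(Z, ℂ))) (mf P) := by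
    refine mext fun z => ?_
    rw [Matrix.map_mul, ← nu_map, mf_ev, cst_ev, h z]
    ext i j
    have h1 : ((nu (J.map (algebraMap ℂ C(Z, ℂ))) (mf P)).map (evp z)) i j =
        nu J (P z) i j := by rw [← nu_map, mf_ev, cst_ev]
    change c * nu J (P z) i j = evp z (algebraMap ℂ C(Z, ℂ) c *
      nu (J.map (algebraMap ℂ C(Z, ℂ))) (mf P) i j)
    rw [map_mul, ← h1]
    rfl
  have h1 := congrArg (fun M : Matrix (Fin n) (Fin n) C(Z, ℂ) =>
    M.map ((jZ : C(Z, ℂ) →ₐ[ℂ] R2 X Z) : C(Z, ℂ) →+* R2 X Z)) h0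
  have h2 : (J.map (algebraMap ℂ C(Z, ℂ))).map ((jZ : C(Z, ℂ) →ₐ[ℂ] R2 X Z) : C(Z, ℂ) →+* R2 X Z) =
      J2 J := by
    ext i j
    exact AlgHom.commutes (jZ : C(Z, ℂ) →ₐ[ℂ] R2 X Z) (J i j)
  have h3 : (mf P).map ((jZ : C(Z, ℂ) →ₐ[ℂ] R2 X Z) : C(Z, ℂ) →+* R2 X Z) = q2 P := rfl
  simp only [Matrix.map_mul] at h1
  rw [← nu_map, h2, h3] at h1
  rw [h1]
  ext i j
  rw [Matrix.smul_apply, smul_eq_mul, Matrix.map_apply, Matrix.smul_apply, smul_eq_mul, map_mul]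
  have h4 : ((jZ : C(Z, ℂ) →ₐ[ℂ] R2 X Z) : C(Z, ℂ) →+* R2 X Z) (algebraMap ℂ C(Z, ℂ) c) =
      algebraMap ℂ (R2 X Z) c := AlgHom.commutes (jZ : C(Z, ℂ) →ₐ[ℂ] R2 X Z) c
  rw [h4, ← h2, ← h3, nu_map]
  rfl

end lift2

/-- the standing hypotheses on two letters, hermitian form -/
structure StdH (Q : C(X, Matrix (Fin n) (Fin n) ℂ)) (P : C(Z, Matrix (Fin n) (Fin n) ℂ))
    (J : Matrix (Fin n) (Fin n) ℂ) (E : C(X, ℂ) →ₗ[ℂ] (K →L[ℂ] K))
    (F : C(Z, ℂ) →ₗ[ℂ] (K →L[ℂ] K)) (p q : ℝ) (c : ℂ) (D : ℕ → PU X) (O1 O2 : Ideal (R2 X Z)) :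
    Prop where
  hq : 0 ≤ q
  hE : UL E p
  hF : UL F q
  hJ : Jᴴ = J
  hJ2 : J * J = 1
  hPt : ∀ x, PtH J (Q x)
  hLg : ∀ z, LgH J (P z)
  hQh : ∀ x, (Q x)ᴴ = Q x
  hPh : ∀ z, (P z)ᴴ = P z
  hnu : ∀ z, nu J (P z) * J = c • nu J (P z)
  hc : c ≠ 0
  ht : ∀ x x', x ≠ x' → ∑ i : Fin n × Fin n, en Q i.1 i.2 x * en Q i.2 i.1 x' ≠ 1
  mul : ∀ s ∈ O1, ∀ t ∈ O1, s * t ∈ O2
  kl : O2 ≤ Kl2 E F
  klr : O2 ≤ Kl2r E F
  near : ∀ s ∈ O1, ∀ t ∈ O1, NearK E F D s t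
  oa : ∀ i j, ((1 - q2 P) * p2 Q : Matrix (Fin n) (Fin n) (R2 X Z)) i j ∈ O1
  ob : ∀ i j, (p2 Q * (1 - q2 P) : Matrix (Fin n) (Fin n) (R2 X Z)) i j ∈ O1
  oc : ∀ i j, (p2 Q * q2 P * J2 J * p2 Q : Matrix (Fin n) (Fin n) (R2 X Z)) i j ∈ O2
  oc' : ∀ i j, (p2 Q * J2 J * q2 P * p2 Q : Matrix (Fin n) (Fin n) (R2 X Z)) i j ∈ O2

variable {c : ℂ} {D : ℕ → PU X} {O1 O2 : Ideal (R2 X Z)}

/-- products with a matrix whose entries lie in an ideal -/
theorem mat_mem {R : Type*} [CommRing R] {I : Ideal R} {M : Matrix (Fin n) (Fin n) R}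
    (h : ∀ i j, M i j ∈ I) (A B : Matrix (Fin n) (Fin n) R) (i j : Fin n) :
    (A * M * B) i j ∈ I := by
  rw [mul_apply]
  refine I.sum_mem fun k _ => ?_
  rw [mul_apply]
  refine I.mul_mem_right _ (I.sum_mem fun l _ => I.mul_mem_left _ (h l k))

theorem mat_meml {R : Type*} [CommRing R] {I : Ideal R} {M : Matrix (Fin n) (Fin n) R}
    (h : ∀ i j, M i j ∈ I) (A : Matrix (Fin n) (Fin n) R) (i j : Fin n) : (A * M) i j ∈ I := by
  have h1 := mat_mem h A 1 i j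
  rwa [mul_one] at h1

theorem mat_memr {R : Type*} [CommRing R] {I : Ideal R} {M : Matrix (Fin n) (Fin n) R}
    (h : ∀ i j, M i j ∈ I) (A : Matrix (Fin n) (Fin n) R) (i j : Fin n) : (M * A) i j ∈ I := by
  have h1 := mat_mem h 1 A i j
  rwa [one_mul] at h1

namespace StdH

theorem inc_of (S : StdH Q P J E F p q c D O1 O2) {R : Type*} [CommRing R] (f : R2 X Z →+* R)
    (hf : ∀ t ∈ O2, f t = 0) :
    HInc ((J2 J).map f) ((p2 Q).map f) ((q2 P).map f) where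
  aa := fun i j k l => by
    rw [← map_one_sub f, ← Matrix.map_mul, Matrix.map_apply, Matrix.map_apply, ← map_mul]
    exact hf _ (S.mul _ (S.oa i j) _ (S.oa k l))
  ab := fun i j k l => by
    rw [← map_one_sub f, ← Matrix.map_mul, ← Matrix.map_mul, Matrix.map_apply, Matrix.map_apply,
      ← map_mul]
    exact hf _ (S.mul _ (S.oa i j) _ (S.ob k l))
  bb := fun i j k l => by
    rw [← map_one_sub f, ← Matrix.map_mul, Matrix.map_apply, Matrix.map_apply, ← map_mul]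
    exact hf _ (S.mul _ (S.ob i j) _ (S.ob k l))
  co := by
    ext i j
    rw [← Matrix.map_mul, ← Matrix.map_mul, ← Matrix.map_mul, Matrix.map_apply]
    exact hf _ (S.oc i j)
  co' := by
    ext i j
    rw [← Matrix.map_mul, ← Matrix.map_mul, ← Matrix.map_mul, Matrix.map_apply]
    exact hf _ (S.oc' i j)

/-- everything in the quotient by the killed ideal of three letters -/
theorem quot (S : StdH Q P J E F p q c D O1 O2) :
    (J3 J).map (Ideal.Quotient.mk (Kl3 E F)) * (J3 J).map (Ideal.Quotient.mk (Kl3 E F)) = 1 ∧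
    PtH ((J3 J).map (Ideal.Quotient.mk (Kl3 E F))) ((p3 Q).map (Ideal.Quotient.mk (Kl3 E F))) ∧
    PtH ((J3 J).map (Ideal.Quotient.mk (Kl3 E F))) ((p3' Q).map (Ideal.Quotient.mk (Kl3 E F))) ∧
    LgH ((J3 J).map (Ideal.Quotient.mk (Kl3 E F))) ((q3 P).map (Ideal.Quotient.mk (Kl3 E F))) ∧
    HInc ((J3 J).map (Ideal.Quotient.mk (Kl3 E F))) ((p3 Q).map (Ideal.Quotient.mk (Kl3 E F)))
      ((q3 P).map (Ideal.Quotient.mk (Kl3 E F))) ∧
    HInc ((J3 J).map (Ideal.Quotient.mk (Kl3 E F))) ((p3' Q).map (Ideal.Quotient.mk (Kl3 E F)))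
      ((q3 P).map (Ideal.Quotient.mk (Kl3 E F))) ∧
    nu ((J3 J).map (Ideal.Quotient.mk (Kl3 E F))) ((q3 P).map (Ideal.Quotient.mk (Kl3 E F))) *
      (J3 J).map (Ideal.Quotient.mk (Kl3 E F)) =
      (Ideal.Quotient.mk (Kl3 E F) (algebraMap ℂ (R3 X Z) c)) •
      nu ((J3 J).map (Ideal.Quotient.mk (Kl3 E F))) ((q3 P).map (Ideal.Quotient.mk (Kl3 E F))) := by
  set mk : R3 X Z →+* R3 X Z ⧸ Kl3 E F := Ideal.Quotient.mk (Kl3 E F) with hmk
  let fL : R2 X Z →+* R3 X Z ⧸ Kl3 E F := mk.comp ((iL : R2 X Z →ₐ[ℂ] R3 X Z) : R2 X Z →+* R3 X Z)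
  let fR : R2 X Z →+* R3 X Z ⧸ Kl3 E F := mk.comp ((iR : R2 X Z →ₐ[ℂ] R3 X Z) : R2 X Z →+* R3 X Z)
  have hL : ∀ t ∈ O2, fL t = 0 := fun t ht =>
    Ideal.Quotient.eq_zero_iff_mem.2 (iL_mem (S.kl ht))
  have hR : ∀ t ∈ O2, fR t = 0 := fun t ht =>
    Ideal.Quotient.eq_zero_iff_mem.2 (iR_mem (S.klr ht))
  have eJ : (J2 J).map fL = (J3 J).map mk := rfl
  have eJ' : (J2 J).map fR = (J3 J).map mk := by rw [← J3_R]; rfl
  have eq : (q2 P).map fL = (q3 P).map mk := rfl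
  have eq' : (q2 P).map fR = (q3 P).map mk := by rw [← q3_R]; rfl
  have ep : (p2 Q).map fL = (p3 Q).map mk := rfl
  have ep' : (p2 Q).map fR = (p3' Q).map mk := rfl
  refine ⟨?_, ?_, ?_, ?_, ?_, ?_, ?_⟩
  · rw [← eJ, ← Matrix.map_mul, J2_sq S.hJ2, Matrix.map_one _ (map_zero _) (map_one _)]
  · rw [← eJ, ← ep]; exact PtH.map fL (p2_ptH S.hPt)
  · rw [← eJ', ← ep']; exact PtH.map fR (p2_ptH S.hPt)
  · rw [← eJ, ← eq]; exact LgH.map fL (q2_lgH S.hLg)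
  · exact inc_of S fL hL
  · have h := inc_of S fR hR
    rw [eJ', eq', ep'] at h
    exact h
  · have h := congrArg (fun M : Matrix (Fin n) (Fin n) (R2 X Z) => M.map fL) (nu2 (X := X) S.hnu)
    simp only [Matrix.map_mul] at h
    rw [← nu_map, eJ, eq] at h
    rw [h]
    ext i j
    have h2 : fL (algebraMap ℂ (R2 X Z) c) = mk (algebraMap ℂ (R3 X Z) c) := by
      change mk (iL (algebraMap ℂ (R2 X Z) c)) = _
      rw [AlgHom.commutes]
    rw [Matrix.smul_apply, smul_eq_mul, Matrix.map_apply, Matrix.smul_apply, smul_eq_mul, map_mul,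
      h2, ← eJ, ← eq, nu_map]
    rfl

end StdH

theorem nu_idem {R : Type*} [CommRing R] {J q : Matrix (Fin n) (Fin n) R} (hJ : J * J = 1)
    (hq : LgH J q) : nu J q * nu J q = nu J q := by
  have h1 : J * q * J * nu J q = 0 := by
    rw [mul_assoc (J * q), H100.SU.J_nu hJ, mul_assoc J, ← mul_assoc q, q_nu hq, zero_mul, mul_zero]
  calc nu J q * nu J q = (1 - q - J * q * J) * nu J q := rfl
    _ = nu J q - q * nu J q - J * q * J * nu J q := by simp only [sub_mul, one_mul]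
    _ = _ := by rw [q_nu hq, h1, sub_zero, sub_zero]

/-- a symbol of three letters as a sum of products -/
theorem sum_tr (A B : Matrix (Fin n) (Fin n) (R2 X Z)) :
    ∑ k : Fin n × Fin n, (iL (A k.1 k.2) * iR (B k.2 k.1) : R3 X Z) =
      (A.map (iL : R2 X Z →ₐ[ℂ] R3 X Z) * B.map (iR : R2 X Z →ₐ[ℂ] R3 X Z)).trace := by
  rw [trace, Fintype.sum_prod_type]
  refine Finset.sum_congr rfl fun i _ => ?_
  rw [diag_apply, mul_apply]
  rfl

section pass1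

variable (Q P J)

/-- `p J q` in two letters -/
noncomputable def tA : Matrix (Fin n) (Fin n) (R2 X Z) := p2 Q * J2 J * q2 P

/-- `q J p` in two letters -/
noncomputable def tB : Matrix (Fin n) (Fin n) (R2 X Z) := q2 P * J2 J * p2 Q

/-- `p nu` in two letters -/
noncomputable def tC : Matrix (Fin n) (Fin n) (R2 X Z) := p2 Q * nu (J2 J) (q2 P)

/-- `nu p` in two letters -/
noncomputable def tD : Matrix (Fin n) (Fin n) (R2 X Z) := nu (J2 J) (q2 P) * p2 Q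

variable {Q P J}

theorem q3_idem (h : ∀ z, LgH J (P z)) :
    (q3 P * q3 P : Matrix (Fin n) (Fin n) (R3 X Z)) = q3 P := by
  have h1 := (LgH.map ((iL : R2 X Z →ₐ[ℂ] R3 X Z) : R2 X Z →+* R3 X Z) (q2_lgH (X := X) h)).idem
  exact h1

theorem tA_L : (tA Q P J).map (iL : R2 X Z →ₐ[ℂ] R3 X Z) = p3 Q * J3 J * q3 P := by
  rw [tA, Matrix.map_mul, Matrix.map_mul]
  rfl

theorem tB_L : (tB Q P J).map (iL : R2 X Z →ₐ[ℂ] R3 X Z) = q3 P * J3 J * p3 Q := by
  rw [tB, Matrix.map_mul, Matrix.map_mul]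
  rfl

theorem tA_R : (tA Q P J).map (iR : R2 X Z →ₐ[ℂ] R3 X Z) = p3' Q * J3 J * q3 P := by
  rw [tA, Matrix.map_mul, Matrix.map_mul, J3_R, q3_R]
  rfl

theorem tB_R : (tB Q P J).map (iR : R2 X Z →ₐ[ℂ] R3 X Z) = q3 P * J3 J * p3' Q := by
  rw [tB, Matrix.map_mul, Matrix.map_mul, J3_R, q3_R]
  rfl

theorem nu_L : (nu (J2 J) (q2 P)).map (iL : R2 X Z →ₐ[ℂ] R3 X Z) = nu (J3 J) (q3 P) :=
  (nu_map ((iL : R2 X Z →ₐ[ℂ] R3 X Z) : R2 X Z →+* R3 X Z)).symm

theorem nu_R : (nu (J2 J) (q2 P)).map (iR : R2 X Z →ₐ[ℂ] R3 X Z) = nu (J3 J) (q3 P) := by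
  have h := (nu_map ((iR : R2 X Z →ₐ[ℂ] R3 X Z) : R2 X Z →+* R3 X Z) (J := J2 J) (q := q2 P)).symm
  have h1 : (J2 J).map ((iR : R2 X Z →ₐ[ℂ] R3 X Z) : R2 X Z →+* R3 X Z) = J3 J := J3_R J
  have h2 : (q2 P).map ((iR : R2 X Z →ₐ[ℂ] R3 X Z) : R2 X Z →+* R3 X Z) = q3 P := q3_R P
  rw [h1, h2] at h
  exact h

theorem tC_L : (tC Q P J).map (iL : R2 X Z →ₐ[ℂ] R3 X Z) = p3 Q * nu (J3 J) (q3 P) := by
  rw [tC, Matrix.map_mul, nu_L]
  rfl

theorem tD_L : (tD Q P J).map (iL : R2 X Z →ₐ[ℂ] R3 X Z) = nu (J3 J) (q3 P) * p3 Q := by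
  rw [tD, Matrix.map_mul, nu_L]
  rfl

theorem tC_R : (tC Q P J).map (iR : R2 X Z →ₐ[ℂ] R3 X Z) = p3' Q * nu (J3 J) (q3 P) := by
  rw [tC, Matrix.map_mul, nu_R]
  rfl

theorem tD_R : (tD Q P J).map (iR : R2 X Z →ₐ[ℂ] R3 X Z) = nu (J3 J) (q3 P) * p3' Q := by
  rw [tD, Matrix.map_mul, nu_R]
  rfl

theorem g1_sum (h : ∀ z, LgH J (P z)) :
    g1 (J3 J) (p3 Q) (q3 P) (p3' Q) =
      ∑ k : Fin n × Fin n, (iL (tA Q P J k.1 k.2) * iR (tB Q P J k.2 k.1) : R3 X Z) := by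
  rw [sum_tr, tA_L, tB_R, g1]
  congr 1
  calc p3 Q * (J3 J * q3 P * J3 J) * p3' Q = p3 Q * (J3 J * (q3 P * q3 P) * J3 J) * p3' Q := by
        rw [q3_idem h]
    _ = _ := by simp only [mul_assoc]

theorem g1_sum' (h : ∀ z, LgH J (P z)) :
    g1 (J3 J) (p3' Q) (q3 P) (p3 Q) =
      ∑ k : Fin n × Fin n, (iL (tB Q P J k.1 k.2) * iR (tA Q P J k.2 k.1) : R3 X Z) := by
  rw [sum_tr, tB_L, tA_R, g1, trace_mul_comm (q3 P * J3 J * p3 Q)]
  congr 1
  calc p3' Q * (J3 J * q3 P * J3 J) * p3 Q = p3' Q * (J3 J * (q3 P * q3 P) * J3 J) * p3 Q := by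
        rw [q3_idem h]
    _ = _ := by simp only [mul_assoc]

theorem nu3_idem (hJ : J * J = 1) (h : ∀ z, LgH J (P z)) :
    (nu (J3 J) (q3 P) * nu (J3 J) (q3 P) : Matrix (Fin n) (Fin n) (R3 X Z)) =
      nu (J3 J) (q3 P) := by
  have h1 := LgH.map ((iL : R2 X Z →ₐ[ℂ] R3 X Z) : R2 X Z →+* R3 X Z) (q2_lgH (X := X) h)
  have h2 : (J3 J * J3 J : Matrix (Fin n) (Fin n) (R3 X Z)) = 1 := by
    rw [J3, ← Matrix.map_mul, J2_sq hJ, Matrix.map_one _ (map_zero _) (map_one _)]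
  exact nu_idem h2 h1

theorem g2_sum (hJ : J * J = 1) (h : ∀ z, LgH J (P z)) :
    g2 (J3 J) (p3 Q) (q3 P) (p3' Q) =
      ∑ k : Fin n × Fin n, (iL (tC Q P J k.1 k.2) * iR (tD Q P J k.2 k.1) : R3 X Z) := by
  rw [sum_tr, tC_L, tD_R, g2]
  congr 1
  calc p3 Q * nu (J3 J) (q3 P) * p3' Q =
      p3 Q * (nu (J3 J) (q3 P) * nu (J3 J) (q3 P)) * p3' Q := by rw [nu3_idem hJ h]
    _ = _ := by simp only [mul_assoc]

theorem g2_sum' (hJ : J * J = 1) (h : ∀ z, LgH J (P z)) :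
    g2 (J3 J) (p3' Q) (q3 P) (p3 Q) =
      ∑ k : Fin n × Fin n, (iL (tD Q P J k.1 k.2) * iR (tC Q P J k.2 k.1) : R3 X Z) := by
  rw [sum_tr, tD_L, tC_R, g2, trace_mul_comm (nu (J3 J) (q3 P) * p3 Q)]
  congr 1
  calc p3' Q * nu (J3 J) (q3 P) * p3 Q =
      p3' Q * (nu (J3 J) (q3 P) * nu (J3 J) (q3 P)) * p3 Q := by rw [nu3_idem hJ h]
    _ = _ := by simp only [mul_assoc]

end pass1

namespace StdH

theorem ABstar (S : StdH Q P J E F p q c D O1 O2) (i j : Fin n) (y : X × Z) :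
    evr y (tB Q P J j i) = star (evr y (tA Q P J i j)) := by
  rw [evr_mat, evr_mat, tA, tB, Matrix.map_mul, Matrix.map_mul, Matrix.map_mul, Matrix.map_mul,
    p2_ev, q2_ev, J2_ev]
  have h1 : (Q y.1 * J * P y.2)ᴴ = P y.2 * J * Q y.1 := by
    rw [conjTranspose_mul, conjTranspose_mul, S.hPh, S.hQh, S.hJ, mul_assoc]
  rw [← h1]
  rfl

theorem CDstar (S : StdH Q P J E F p q c D O1 O2) (i j : Fin n) (y : X × Z) :
    evr y (tD Q P J j i) = star (evr y (tC Q P J i j)) := by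
  rw [evr_mat, evr_mat, tC, tD, Matrix.map_mul, Matrix.map_mul, ← nu_map,
    p2_ev, q2_ev, J2_ev]
  have h1 : (Q y.1 * nu J (P y.2))ᴴ = nu J (P y.2) * Q y.1 := by
    rw [conjTranspose_mul, S.hQh, nu, conjTranspose_sub, conjTranspose_sub, conjTranspose_mul,
      conjTranspose_mul, S.hPh, S.hJ, conjTranspose_one, mul_assoc J]
  rw [← h1]
  rfl

theorem BAstar (S : StdH Q P J E F p q c D O1 O2) (i j : Fin n) (y : X × Z) :
    evr y (tA Q P J i j) = star (evr y (tB Q P J j i)) := by rw [S.ABstar, star_star]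

theorem DCstar (S : StdH Q P J E F p q c D O1 O2) (i j : Fin n) (y : X × Z) :
    evr y (tC Q P J i j) = star (evr y (tD Q P J j i)) := by rw [S.CDstar, star_star]

theorem oA (S : StdH Q P J E F p q c D O1 O2) (i j : Fin n) : tA Q P J i j ∈ O1 := by
  rw [tA, pJq (q2_lgH S.hLg), mul_assoc]
  exact mat_memr S.ob _ i j

theorem oB (S : StdH Q P J E F p q c D O1 O2) (i j : Fin n) : tB Q P J i j ∈ O1 := by
  rw [tB, qJp (q2_lgH S.hLg)]
  exact mat_meml S.oa _ i j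

theorem oC (S : StdH Q P J E F p q c D O1 O2) (i j : Fin n) : tC Q P J i j ∈ O1 := by
  have h : (tC Q P J : Matrix (Fin n) (Fin n) (R2 X Z)) =
      p2 Q * (1 - q2 P) * nu (J2 J) (q2 P) := by
    rw [tC, mul_assoc, sub_mul, one_mul, q_nu (q2_lgH S.hLg), sub_zero]
  rw [h]
  exact mat_memr S.ob _ i j

theorem oD (S : StdH Q P J E F p q c D O1 O2) (i j : Fin n) : tD Q P J i j ∈ O1 := by
  have h : (tD Q P J : Matrix (Fin n) (Fin n) (R2 X Z)) =
      nu (J2 J) (q2 P) * ((1 - q2 P) * p2 Q) := by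
    rw [tD, ← mul_assoc, mul_sub, mul_one, nu_q (q2_lgH S.hLg), sub_zero]
  rw [h]
  exact mat_meml S.oa _ i j

/-- the first relation, first letter `p` -/
theorem rel1 (S : StdH Q P J E F p q c D O1 O2) :
    (1 - (p3 Q * p3' Q).trace) * (2 * g1 (J3 J) (p3 Q) (q3 P) (p3' Q)) -
      -(p3 Q * J3 J * p3' Q).trace ^ 2 ∈ Kl3 E F := by
  obtain ⟨hJ, hp, hp', hq, hi, hi', -⟩ := S.quot
  have h := main1 hJ hp hp' hq hi hi'
  rw [g1_map, ← Matrix.map_mul, ← Matrix.map_mul, ← Matrix.map_mul, map_trace, map_trace] at h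
  rw [← Ideal.Quotient.eq_zero_iff_mem, map_sub, map_mul, map_sub, map_one, map_mul, map_ofNat,
    map_neg, map_pow]
  linear_combination h

theorem rel1' (S : StdH Q P J E F p q c D O1 O2) :
    (1 - (p3 Q * p3' Q).trace) * (2 * g1 (J3 J) (p3' Q) (q3 P) (p3 Q)) -
      -(p3' Q * J3 J * p3 Q).trace ^ 2 ∈ Kl3 E F := by
  obtain ⟨hJ, hp, hp', hq, hi, hi', -⟩ := S.quot
  have h := main1 hJ hp' hp hq hi' hi
  rw [g1_map, ← Matrix.map_mul, ← Matrix.map_mul, ← Matrix.map_mul, map_trace, map_trace,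
    trace_mul_comm (p3' Q)] at h
  rw [← Ideal.Quotient.eq_zero_iff_mem, map_sub, map_mul, map_sub, map_one, map_mul, map_ofNat,
    map_neg, map_pow]
  linear_combination h

theorem half {t : R3 X Z} {f g : C(X, ℂ)} (h : T3 E F (iX f * iY g * (2 * t)) = 0) :
    T3 E F (iX f * iY g * t) = 0 := by
  have e : iX f * iY g * (2 * t) = (2 : ℂ) • (iX f * iY g * t) := by
    rw [Algebra.smul_def, map_ofNat]
    ring
  rw [e, map_smul] at h
  exact (smul_eq_zero.1 h).resolve_left two_ne_zero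

theorem neg_sq {w : R3 X Z} {f g : C(X, ℂ)} (h : T3 E F (iX f * iY g * w ^ 2) = 0) :
    T3 E F (iX f * iY g * -w ^ 2) = 0 := by
  rw [mul_neg, map_neg, h, neg_zero]

/-- **first pass** -/
theorem killA (S : StdH Q P J E F p q c D O1 O2)
    (hO : ∀ f g : C(X, ℂ), Disjoint (tsupport f) (tsupport g) →
      T3 E F (iX f * iY g * (p3 Q * J3 J * p3' Q).trace ^ 2) = 0) (i j : Fin n) : tA Q P J i j ∈ Kl2 E F := by
  refine gram_end S.hE S.hF S.hq (D := D) (fun k : Fin n × Fin n => tA Q P J k.1 k.2)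
    (fun k => tB Q P J k.2 k.1) (fun k y => S.ABstar k.1 k.2 y)
    (fun k => S.near _ (S.oA k.1 k.2) _ (S.oB k.2 k.1)) (fun f g hd => ?_) (i, j)
  rw [← g1_sum S.hLg]
  exact half (far_div S.hE S.ht S.rel1 (fun f g hd => neg_sq (hO f g hd)) f g hd)

theorem killB (S : StdH Q P J E F p q c D O1 O2)
    (hO : ∀ f g : C(X, ℂ), Disjoint (tsupport f) (tsupport g) →
      T3 E F (iX f * iY g * (p3' Q * J3 J * p3 Q).trace ^ 2) = 0) (i j : Fin n) : tB Q P J i j ∈ Kl2 E F := by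
  refine gram_end S.hE S.hF S.hq (D := D) (fun k : Fin n × Fin n => tB Q P J k.1 k.2)
    (fun k => tA Q P J k.2 k.1) (fun k y => S.BAstar k.2 k.1 y)
    (fun k => S.near _ (S.oB k.1 k.2) _ (S.oA k.2 k.1)) (fun f g hd => ?_) (i, j)
  rw [← g1_sum' S.hLg]
  exact half (far_div S.hE S.ht S.rel1' (fun f g hd => neg_sq (hO f g hd)) f g hd)

theorem zero_mk {M : Matrix (Fin n) (Fin n) (R3 X Z)} {I : Ideal (R3 X Z)}
    (h : ∀ i j, M i j ∈ I) : M.map (Ideal.Quotient.mk I) = 0 := by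
  ext i j
  exact Ideal.Quotient.eq_zero_iff_mem.2 (h i j)

/-- the second relation -/
theorem rel2 (S : StdH Q P J E F p q c D O1 O2) (hA : ∀ i j, tA Q P J i j ∈ Kl2 E F)
    (hB : ∀ i j, tB Q P J i j ∈ Kl2 E F) :
    (p3 Q * J3 J * p3' Q).trace - algebraMap ℂ (R3 X Z) c * g2 (J3 J) (p3 Q) (q3 P) (p3' Q) ∈
      Kl3 E F := by
  obtain ⟨hJ, hp, hp', hq, hi, hi', hc⟩ := S.quot
  have h1 : (p3 Q).map (Ideal.Quotient.mk (Kl3 E F)) * ((J3 J).map (Ideal.Quotient.mk (Kl3 E F)) *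
      (q3 P).map (Ideal.Quotient.mk (Kl3 E F)) * (J3 J).map (Ideal.Quotient.mk (Kl3 E F))) = 0 := by
    have h := zero_mk (M := (tA Q P J).map (iL : R2 X Z →ₐ[ℂ] R3 X Z)) (I := Kl3 E F)
      (fun i j => iL_mem (hA i j))
    rw [tA_L, Matrix.map_mul, Matrix.map_mul] at h
    rw [← mul_assoc, ← mul_assoc, h, zero_mul]
  have h2 : (J3 J).map (Ideal.Quotient.mk (Kl3 E F)) * (q3 P).map (Ideal.Quotient.mk (Kl3 E F)) *
      (J3 J).map (Ideal.Quotient.mk (Kl3 E F)) * (p3' Q).map (Ideal.Quotient.mk (Kl3 E F)) = 0 := by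
    have h := zero_mk (M := (tB Q P J).map (iR : R2 X Z →ₐ[ℂ] R3 X Z)) (I := Kl3 E F)
      (fun i j => iR_mem (kl2r_of S.hE S.hF (fun y => S.ABstar j i y) (hA j i)))
    rw [tB_R, Matrix.map_mul, Matrix.map_mul] at h
    rw [mul_assoc, mul_assoc, ← mul_assoc ((q3 P).map _), h, mul_zero]
  have h := main2 hJ hc h1 h2
  rw [g2_map, ← Matrix.map_mul, ← Matrix.map_mul, map_trace] at h
  rw [← Ideal.Quotient.eq_zero_iff_mem, map_sub, map_mul, h, sub_self]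

theorem rel2' (S : StdH Q P J E F p q c D O1 O2) (hA : ∀ i j, tA Q P J i j ∈ Kl2 E F)
    (hB : ∀ i j, tB Q P J i j ∈ Kl2 E F) :
    (p3' Q * J3 J * p3 Q).trace - algebraMap ℂ (R3 X Z) c * g2 (J3 J) (p3' Q) (q3 P) (p3 Q) ∈
      Kl3 E F := by
  obtain ⟨hJ, hp, hp', hq, hi, hi', hc⟩ := S.quot
  have h1 : (p3' Q).map (Ideal.Quotient.mk (Kl3 E F)) * ((J3 J).map (Ideal.Quotient.mk (Kl3 E F)) *
      (q3 P).map (Ideal.Quotient.mk (Kl3 E F)) * (J3 J).map (Ideal.Quotient.mk (Kl3 E F))) = 0 := by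
    have h := zero_mk (M := (tA Q P J).map (iR : R2 X Z →ₐ[ℂ] R3 X Z)) (I := Kl3 E F)
      (fun i j => iR_mem (kl2r_of S.hE S.hF (fun y => S.BAstar i j y) (hB j i)))
    rw [tA_R, Matrix.map_mul, Matrix.map_mul] at h
    rw [← mul_assoc, ← mul_assoc, h, zero_mul]
  have h2 : (J3 J).map (Ideal.Quotient.mk (Kl3 E F)) * (q3 P).map (Ideal.Quotient.mk (Kl3 E F)) *
      (J3 J).map (Ideal.Quotient.mk (Kl3 E F)) * (p3 Q).map (Ideal.Quotient.mk (Kl3 E F)) = 0 := by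
    have h := zero_mk (M := (tB Q P J).map (iL : R2 X Z →ₐ[ℂ] R3 X Z)) (I := Kl3 E F)
      (fun i j => iL_mem (hB i j))
    rw [tB_L, Matrix.map_mul, Matrix.map_mul] at h
    rw [mul_assoc, mul_assoc, ← mul_assoc ((q3 P).map _), h, mul_zero]
  have h := main2 hJ hc h1 h2
  rw [g2_map, ← Matrix.map_mul, ← Matrix.map_mul, map_trace] at h
  rw [← Ideal.Quotient.eq_zero_iff_mem, map_sub, map_mul, h, sub_self]

theorem far2 {W g : R3 X Z} (hc : c ≠ 0)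
    (h : W - algebraMap ℂ (R3 X Z) c * g ∈ Kl3 E F) (u u' : C(X, ℂ))
    (hO : T3 E F (iX u * iY u' * W) = 0) : T3 E F (iX u * iY u' * g) = 0 := by
  have h1 := mem_Kl3.1 h (iX u * iY u')
  have e : iX u * iY u' * (W - algebraMap ℂ (R3 X Z) c * g) =
      iX u * iY u' * W - c • (iX u * iY u' * g) := by
    rw [Algebra.smul_def]
    ring
  rw [e, map_sub, map_smul, hO, zero_sub, neg_eq_zero] at h1
  exact (smul_eq_zero.1 h1).resolve_left hc

/-- **second pass** -/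
theorem killC (S : StdH Q P J E F p q c D O1 O2) (hA : ∀ i j, tA Q P J i j ∈ Kl2 E F)
    (hB : ∀ i j, tB Q P J i j ∈ Kl2 E F)
    (hO : ∀ f g : C(X, ℂ), Disjoint (tsupport f) (tsupport g) →
      T3 E F (iX f * iY g * (p3 Q * J3 J * p3' Q).trace) = 0) (i j : Fin n) : tC Q P J i j ∈ Kl2 E F := by
  refine gram_end S.hE S.hF S.hq (D := D) (fun k : Fin n × Fin n => tC Q P J k.1 k.2)
    (fun k => tD Q P J k.2 k.1) (fun k y => S.CDstar k.1 k.2 y)
    (fun k => S.near _ (S.oC k.1 k.2) _ (S.oD k.2 k.1)) (fun f g hd => ?_) (i, j)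
  rw [← g2_sum S.hJ2 S.hLg]
  exact far2 S.hc (S.rel2 hA hB) f g (hO f g hd)

theorem killD (S : StdH Q P J E F p q c D O1 O2) (hA : ∀ i j, tA Q P J i j ∈ Kl2 E F)
    (hB : ∀ i j, tB Q P J i j ∈ Kl2 E F)
    (hO : ∀ f g : C(X, ℂ), Disjoint (tsupport f) (tsupport g) →
      T3 E F (iX f * iY g * (p3' Q * J3 J * p3 Q).trace) = 0) (i j : Fin n) : tD Q P J i j ∈ Kl2 E F := by
  refine gram_end S.hE S.hF S.hq (D := D) (fun k : Fin n × Fin n => tD Q P J k.1 k.2)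
    (fun k => tC Q P J k.2 k.1) (fun k y => S.DCstar k.2 k.1 y)
    (fun k => S.near _ (S.oD k.1 k.2) _ (S.oC k.2 k.1)) (fun f g hd => ?_) (i, j)
  rw [← g2_sum' S.hJ2 S.hLg]
  exact far2 S.hc (S.rel2' hA hB) f g (hO f g hd)

/-- **the relations of an incident pair, hermitian form** -/
theorem rels (S : StdH Q P J E F p q c D O1 O2)
    (hO1 : ∀ f g : C(X, ℂ), Disjoint (tsupport f) (tsupport g) →
      T3 E F (iX f * iY g * (p3 Q * J3 J * p3' Q).trace) = 0)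
    (hO1' : ∀ f g : C(X, ℂ), Disjoint (tsupport f) (tsupport g) →
      T3 E F (iX f * iY g * (p3' Q * J3 J * p3 Q).trace) = 0)
    (hO2 : ∀ f g : C(X, ℂ), Disjoint (tsupport f) (tsupport g) →
      T3 E F (iX f * iY g * (p3 Q * J3 J * p3' Q).trace ^ 2) = 0)
    (hO2' : ∀ f g : C(X, ℂ), Disjoint (tsupport f) (tsupport g) →
      T3 E F (iX f * iY g * (p3' Q * J3 J * p3 Q).trace ^ 2) = 0)
    (a : C(X, ℂ)) (b : C(Z, ℂ)) (i j : Fin n) :
    (∑ k, E (a * en Q i k) * F (en P k j * b) = E (a * en Q i j) * F b) ∧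
    (∑ k, E (a * en Q k j) * F (en P i k * b) = E (a * en Q i j) * F b) := by
  have hA := S.killA hO2
  have hB := S.killB hO2'
  have hC := S.killC hA hB hO1
  have hD := S.killD hA hB hO1'
  have l1 : ((1 - q2 P) * p2 Q : Matrix (Fin n) (Fin n) (R2 X Z)) i j ∈ Kl2 E F := by
    have e : ((1 - q2 P) * p2 Q : Matrix (Fin n) (Fin n) (R2 X Z)) =
        J2 J * tB Q P J + tD Q P J := by
      rw [tB, tD, nu]
      simp only [sub_mul, one_mul, mul_assoc]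
      abel
    rw [e, Matrix.add_apply]
    exact Ideal.add_mem _ (mat_meml hB _ i j) (hD i j)
  have r1 : (p2 Q * (1 - q2 P) : Matrix (Fin n) (Fin n) (R2 X Z)) i j ∈ Kl2 E F := by
    have e : (p2 Q * (1 - q2 P) : Matrix (Fin n) (Fin n) (R2 X Z)) =
        tA Q P J * J2 J + tC Q P J := by
      rw [tA, tC, nu]
      simp only [mul_sub, mul_one, mul_assoc]
      abel
    rw [e, Matrix.add_apply]
    exact Ideal.add_mem _ (mat_memr hA _ i j) (hC i j)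
  constructor
  · have h := mem_Kl2.1 r1 (zx a b)
    have e1 : zx a b * (p2 Q * (1 - q2 P) : Matrix (Fin n) (Fin n) (R2 X Z)) i j =
        zx (a * en Q i j) b - ∑ k, zx (a * en Q i k) (en P k j * b) := by
      rw [Matrix.mul_sub, Matrix.mul_one, Matrix.sub_apply, mul_apply, mul_sub, Finset.mul_sum]
      congr 1
      · change zx a b * jX (en Q i j) = _
        rw [jX_apply, zx_mul, mul_one]
      · refine Finset.sum_congr rfl fun k _ => ?_
        change zx a b * (jX (en Q i k) * jZ (en P k j)) = _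
        rw [jX_apply, jZ_apply, zx_mul, zx_mul, mul_one, one_mul, mul_comm b]
    rw [e1, map_sub, map_sum, sub_eq_zero] at h
    exact h.symm
  · have h := mem_Kl2.1 l1 (zx a b)
    have e1 : zx a b * ((1 - q2 P) * p2 Q : Matrix (Fin n) (Fin n) (R2 X Z)) i j =
        zx (a * en Q i j) b - ∑ k, zx (a * en Q k j) (en P i k * b) := by
      rw [Matrix.sub_mul, Matrix.one_mul, Matrix.sub_apply, mul_apply, mul_sub, Finset.mul_sum]
      congr 1
      · change zx a b * jX (en Q i j) = _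
        rw [jX_apply, zx_mul, mul_one]
      · refine Finset.sum_congr rfl fun k _ => ?_
        change zx a b * (jZ (en P i k) * jX (en Q k j)) = _
        rw [jX_apply, jZ_apply, zx_mul, zx_mul, mul_one, one_mul, mul_comm b]
    rw [e1, map_sub, map_sum, sub_eq_zero] at h
    exact h.symm

end StdH

end Vale.Agent.P092.H378.D
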